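import Vale.Agent.P237U.EqualityFull

/-!
# Ellipsoids attain equality in dimension three
-/

namespace Vale.Agent.P237U

open MeasureTheory Set Metric Filter Topology Vale.Agent.P237 Vale.Agent.P237R
open scoped RealInnerProductSpace ENNReal Pointwise

lemma projBody_ball_subset {r : ℝ} (hr : 0 ≤ r) :
    projBody (closedBall (0 : EuclideanSpace ℝ (Fin (1 + 1 + 1))) r) ⊆ closedBall 0 (Real.pi * r ^ 2) := by
  intro y hy
  rw [mem_closedBall_zero_iff]
  rcases eq_or_ne y 0 with h0 | h0
  · rw [h0, norm_zero]; positivity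
  set u := ‖y‖⁻¹ • y with hu
  have hu1 : ‖u‖ = 1 := by simp [hu, norm_smul, h0]
  obtain ⟨R, hR⟩ := exists_align u
  rw [hu1, one_smul] at hR
  have h := hy u hu1
  rw [projVolume_eq hu1 R hR (isCompact_closedBall _ _), LinearIsometryEquiv.image_closedBall,
    map_zero] at h
  have hsub : etail (1 + 1) '' closedBall (0 : EuclideanSpace ℝ (Fin (1 + 1 + 1))) r
      ⊆ closedBall 0 r := by
    rintro _ ⟨x, hx, rfl⟩
    rw [mem_closedBall_zero_iff] at hx ⊢
    refine le_trans ((pow_le_pow_iff_left₀ (norm_nonneg _) (norm_nonneg x) two_ne_zero).1 ?_) hx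
    conv_rhs => rw [← econs_etail x, norm_econs_sq]
    exact le_add_of_nonneg_left (sq_nonneg _)
  have h2 := h.trans (measure_mono hsub)
  rw [volume_closedBall_eq _ hr, kap_two, ENNReal.ofReal_le_ofReal_iff (by positivity)] at h2
  rw [hu, real_inner_smul_left, real_inner_self_eq_norm_sq] at h2
  refine le_of_eq_of_le ?_ h2
  field_simp

/-- Ellipsoids attain equality. -/
theorem equality_of_ellipsoid (a : EuclideanSpace ℝ (Fin (1 + 1 + 1)))
    (T : EuclideanSpace ℝ (Fin (1 + 1 + 1)) ≃ₗ[ℝ] EuclideanSpace ℝ (Fin (1 + 1 + 1))) :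
    (volume (projBody ((fun x => a + T x) '' closedBall 0 1))).toReal
      = petty3 * (volume ((fun x => a + T x) '' closedBall 0 1)).toReal ^ (1 + 1) := by
  have hπ := Real.pi_pos
  set B := closedBall (0 : EuclideanSpace ℝ (Fin (1 + 1 + 1))) 1
  have hshift : (fun x => a + T x) '' B = (fun x => x + (-a)) ⁻¹' (T.toLinearMap '' B) := by
    rw [show (fun x => x + (-a)) ⁻¹' (T.toLinearMap '' B) = (fun x => x + a) '' (T.toLinearMap '' B) by
      rw [image_add_right], Set.image_image]
    exact image_congr fun x _ => add_comm _ _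
  rw [hshift, projBody_shift, measure_preimage_add_right]
  set d := |LinearMap.det T.toLinearMap| with hd
  have hd0 : 0 < d := abs_pos.2 T.isUnit_det'.ne_zero
  set s := d ^ ((3 : ℕ) : ℝ)⁻¹ with hs
  have hs0 : 0 < s := by positivity
  have hs3 : s ^ 3 = d := Real.rpow_inv_natCast_pow hd0.le three_ne_zero
  set T1 := s⁻¹ • T.toLinearMap with hT1
  have hdet : |LinearMap.det T1| = 1 := by
    rw [hT1, LinearMap.det_smul, finrank_euclideanSpace_fin, abs_mul, abs_pow, abs_inv, abs_of_pos hs0,
      ← hd, ← hs3, inv_pow, inv_mul_cancel₀ (by positivity)]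
  have himg : T.toLinearMap '' B = T1 '' closedBall 0 s := by
    have hb : closedBall (0 : EuclideanSpace ℝ (Fin (1 + 1 + 1))) s = s • B := by
      rw [show s • B = closedBall 0 s from by
        simp only [B]
        rw [smul_unitClosedBall, Real.norm_of_nonneg hs0.le]]
    rw [hb, ← Set.image_smul, Set.image_image]
    refine image_congr fun x _ => ?_
    rw [hT1, LinearMap.smul_apply, map_smul, smul_smul, inv_mul_cancel₀ hs0.ne', one_smul]
  have hne : LinearMap.det T1 ≠ 0 := fun h => by simp [h] at hdet
  have hKc : IsCompact (T1 '' closedBall 0 s) :=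
    (isCompact_closedBall _ _).image T1.continuous_of_finiteDimensional
  have h0 : (0 : EuclideanSpace ℝ (Fin (1 + 1 + 1))) ∈ interior (closedBall 0 s) :=
    ball_subset_interior_closedBall (mem_ball_self hs0)
  have hi : (interior (T1 '' closedBall 0 s)).Nonempty := by
    set Te := (LinearMap.equivOfDetNeZero T1 hne).toContinuousLinearEquiv
    rw [show interior (T1 '' closedBall 0 s) = T1 '' interior (closedBall 0 s) from
      (Te.toHomeomorph.image_interior _).symm]
    exact ⟨_, mem_image_of_mem T1 h0⟩
  have hv : (volume (T1 '' closedBall 0 s)).toReal = 4 * Real.pi / 3 * s ^ 3 := by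
    rw [Measure.addHaar_image_linearMap, hdet, ENNReal.ofReal_one, one_mul, volume_ball3 hs0.le]
  rw [himg, hv]
  refine eq_of_le hKc ((convex_closedBall _ _).linear_image T1) hi ?_ hv
  refine (ENNReal.toReal_mono (isCompact_projBody (isCompact_closedBall _ _)).measure_lt_top.ne
    (volume_projBody_map_le (isCompact_closedBall _ _) (convex_closedBall _ _) h0 T1 hdet)).trans ?_
  refine (ENNReal.toReal_mono measure_closedBall_lt_top.ne
    (measure_mono (projBody_ball_subset hs0.le))).trans (le_of_eq ?_)
  rw [volume_ball3 (by positivity), petty3]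
  ring

end Vale.Agent.P237U
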