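import Vale.Agent.P237U.Poly
import Vale.Agent.P237.Numeric

/-!
# The lower bound in every dimension
-/

namespace Vale.Agent.P237U

open MeasureTheory Set Metric Filter Topology Vale.Agent.P237 Vale.Agent.P237R
open scoped RealInnerProductSpace ENNReal Pointwise

lemma projBody_shift {m : ℕ} (K : Set (EuclideanSpace ℝ (Fin m)))
    (a : EuclideanSpace ℝ (Fin m)) : projBody ((fun x => x + a) ⁻¹' K) = projBody K := by
  have h : ∀ u, projVolume ((fun x => x + a) ⁻¹' K) u = projVolume K u := by
    intro u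
    set c := a - ⟪u, a⟫ • u with hc
    have himg : projCylinder ((fun x => x + a) ⁻¹' K) u
        = (fun z => z + c) ⁻¹' projCylinder K u := by
      ext z
      simp only [projCylinder, mem_preimage, Set.mem_ofPred_eq]
      constructor
      · rintro ⟨x, hx, s, hs, rfl⟩
        refine ⟨x + a, hx, s, hs, ?_⟩
        rw [hc, inner_add_right, add_smul]; abel
      · rintro ⟨x, hx, s, hs, hz⟩
        refine ⟨x - a, by simpa using hx, s, hs, ?_⟩
        rw [eq_sub_of_add_eq hz, hc, inner_sub_right, sub_smul]; abel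
    unfold projVolume
    rw [himg, measure_preimage_add_right]
  unfold projBody
  simp only [h]

lemma unitBallVol_one : unitBallVol 1 = 2 := by
  rw [unitBallVol_eq one_pos, pow_one, show ((1 : ℕ) : ℝ) / 2 + 1 = 1 / 2 + 1 by norm_num,
    Real.Gamma_add_one (by norm_num), Real.Gamma_one_half_eq]
  have : (0 : ℝ) < √Real.pi := Real.sqrt_pos.2 Real.pi_pos
  field_simp

lemma lowerBound_one : LowerBound (0 + 1) 2 := by
  intro F hF hc hi
  rw [Nat.add_sub_cancel, pow_zero, mul_one]
  have hne : F.Nonempty := hi.mono interior_subset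
  have hsub : closedBall (0 : EuclideanSpace ℝ (Fin (0 + 1))) 1 ⊆ projBody F := by
    intro y hy u hu
    obtain ⟨R, hR⟩ := exists_align u
    rw [hu, one_smul] at hR
    rw [projVolume_eq hu R hR hF]
    have huniv : etail 0 '' (R '' F) = univ := by
      obtain ⟨x, hx⟩ := (hne.image R).image (etail 0)
      exact eq_univ_of_forall fun z => Subsingleton.elim x z ▸ hx
    rw [huniv, ← (PiLp.volume_preserving_toLp (Fin 0)).measure_preimage nullMeasurableSet_univ,
      Set.preimage_univ, MeasureTheory.volume_pi, Measure.pi_empty_univ, ENNReal.ofReal_le_one]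
    rw [mem_closedBall_zero_iff] at hy
    exact (real_inner_le_norm u y).trans (by rw [hu, one_mul]; exact hy)
  refine le_trans (le_of_eq ?_) (measure_mono hsub)
  rw [unitBallVol_eq_closedBall (Nat.succ_pos 0)]
  congr 1
  exact unitBallVol_one.symm

/-- A polytope squeezed between a shrunken copy and the body. -/
lemma exists_polyH {m : ℕ} {K : Set (EuclideanSpace ℝ (Fin (m + 1)))} (hK : IsCompact K)
    (hc : Convex ℝ K) (h0 : (0 : EuclideanSpace ℝ (Fin (m + 1))) ∈ interior K)
    {l : ℝ} (hl0 : 0 ≤ l) (hl1 : l < 1) :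
    ∃ (N : ℕ) (_ : NeZero N) (u : Fin N → EuclideanSpace ℝ (Fin (m + 1))) (b : Fin N → ℝ),
      (∀ i, 0 < b i) ∧ IsCompact (polyH u b) ∧ l • K ⊆ polyH u b ∧ polyH u b ⊆ K := by
  have hS : l • K ⊆ interior K := by
    rintro _ ⟨x, hx, rfl⟩
    have := hc.combo_self_interior_mem_interior hx h0 hl0 (sub_pos.2 hl1) (add_sub_cancel l 1)
    simpa using this
  have hsep : ∀ x : frontier K, ∃ (f : StrongDual ℝ (EuclideanSpace ℝ (Fin (m + 1)))) (s : ℝ),
      (∀ a ∈ l • K, f a < s) ∧ s < f x := fun x =>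
    geometric_hahn_banach_closed_point (hc.smul l) (hK.smul l).isClosed
      (fun h => x.2.2 (hS h))
  choose f s hfs hsx using hsep
  obtain ⟨T, hT⟩ := (hK.of_isClosed_subset isClosed_frontier hK.isClosed.frontier_subset).elim_finite_subcover
    (fun x : frontier K => {y | s x < f x y})
    (fun x => isOpen_lt continuous_const (f x).continuous)
    (fun y hy => mem_iUnion.2 ⟨⟨y, hy⟩, hsx _⟩)
  have hfr : (frontier K).Nonempty := nonempty_frontier_iff.2
    ⟨⟨0, interior_subset h0⟩, fun h => noncompact_univ (EuclideanSpace ℝ (Fin (m + 1))) (h ▸ hK)⟩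
  have hTne : T.Nonempty := by
    obtain ⟨y, hy⟩ := hfr
    obtain ⟨i, hi, -⟩ := mem_iUnion₂.1 (hT hy)
    exact ⟨i, hi⟩
  set e := T.equivFin with he
  refine ⟨T.card, ⟨hTne.card_pos.ne'⟩,
    fun i => (InnerProductSpace.toDual ℝ _).symm (f (e.symm i).1),
    fun i => s (e.symm i).1, fun i => ?_, ?_⟩
  · have := hfs (e.symm i).1 0 ⟨0, interior_subset h0, smul_zero l⟩
    rwa [map_zero] at this
  have hmem : ∀ y, y ∈ polyH (fun i => (InnerProductSpace.toDual ℝ
      (EuclideanSpace ℝ (Fin (m + 1)))).symm (f (e.symm i).1)) (fun i => s (e.symm i).1)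
      ↔ ∀ x ∈ T, f x y ≤ s x := by
    intro y
    simp only [polyH, Set.mem_ofPred_eq, InnerProductSpace.toDual_symm_apply]
    exact ⟨fun h x hx => by simpa using h (e ⟨x, hx⟩), fun h i => h _ (e.symm i).2⟩
  set P := polyH (fun i => (InnerProductSpace.toDual ℝ
      (EuclideanSpace ℝ (Fin (m + 1)))).symm (f (e.symm i).1)) (fun i => s (e.symm i).1) with hP
  have hnof : ∀ y ∈ P, y ∉ frontier K := by
    intro y hy hyf
    obtain ⟨i, hi, hlt⟩ := mem_iUnion₂.1 (hT hyf)
    exact absurd ((hmem y).1 hy i hi) (not_le.2 hlt)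
  have hzero : (0 : EuclideanSpace ℝ (Fin (m + 1))) ∈ P := (hmem 0).2 fun x _ => by
    have := hfs x 0 ⟨0, interior_subset h0, smul_zero l⟩
    rw [map_zero] at this ⊢
    exact this.le
  have hsub : P ⊆ K := by
    intro y hy
    have hseg : segment ℝ 0 y ⊆ interior K ∪ (closure K)ᶜ := fun z hz => by
      by_cases hzi : z ∈ interior K
      · exact Or.inl hzi
      · exact Or.inr fun hzc => hnof z ((convex_polyH _ _).segment_subset hzero hy hz) ⟨hzc, hzi⟩
    have hdis : Disjoint (interior K) (closure K)ᶜ :=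
      Set.disjoint_left.2 fun z hz hz' => hz' (subset_closure (interior_subset hz))
    rcases (convex_segment (0 : EuclideanSpace ℝ (Fin (m + 1))) y).isPreconnected.subset_or_subset
      isOpen_interior isClosed_closure.isOpen_compl hdis hseg with h | h
    · exact interior_subset (h (right_mem_segment ℝ _ _))
    · exact absurd (subset_closure (interior_subset h0)) (h (left_mem_segment ℝ _ _))
  refine ⟨hK.of_isClosed_subset (isClosed_polyH _ _) hsub, fun y hy => ?_, hsub⟩
  exact (hmem y).2 fun x _ => (hfs x y hy).le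

lemma lowerBound_of_poly {j : ℕ} {C : ℝ}
    (H : ∀ (N : ℕ) [NeZero N] (u : Fin N → EuclideanSpace ℝ (Fin (j + 1 + 1))) (b : Fin N → ℝ),
      (∀ i, 0 < b i) → IsCompact (polyH u b) →
      ENNReal.ofReal (C * (volume (polyH u b)).toReal ^ (j + 1))
        ≤ volume (projBody (polyH u b))) (hC : 0 ≤ C) :
    LowerBound (j + 1 + 1) C := by
  intro K hK hc hi
  obtain ⟨x₀, hx₀⟩ := hi
  set K₀ := (fun x => x + x₀) ⁻¹' K with hK₀
  have hK₀c : IsCompact K₀ := (Homeomorph.addRight x₀).isCompact_preimage.2 hK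
  have hK₀v : Convex ℝ K₀ := hc.translate_preimage_left x₀
  have h0 : (0 : EuclideanSpace ℝ (Fin (j + 1 + 1))) ∈ interior K₀ := by
    have he : interior K₀ = (fun x => x + x₀) ⁻¹' interior K :=
      ((Homeomorph.addRight x₀).preimage_interior K).symm
    rw [he]
    simpa using hx₀
  rw [← projBody_shift K x₀, ← hK₀, ← measure_preimage_add_right volume x₀ K, ← hK₀,
    Nat.add_sub_cancel]
  set V := (volume K₀).toReal with hV
  have hlim : Tendsto (fun l : ℝ => ENNReal.ofReal (C * (l ^ (j + 1 + 1) * V) ^ (j + 1)))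
      (𝓝[<] 1) (𝓝 (ENNReal.ofReal (C * V ^ (j + 1)))) := by
    have hcont : Continuous fun l : ℝ =>
        ENNReal.ofReal (C * (l ^ (j + 1 + 1) * V) ^ (j + 1)) :=
      ENNReal.continuous_ofReal.comp (by fun_prop)
    have h := hcont.tendsto 1
    simp only [one_pow, one_mul] at h
    exact h.mono_left nhdsWithin_le_nhds
  refine le_of_tendsto hlim ?_
  filter_upwards [self_mem_nhdsWithin, nhdsWithin_le_nhds (eventually_ge_nhds zero_lt_one)]
    with l hl1 hl0
  obtain ⟨N, hN, u, b, hb, hP, hsub1, hsub2⟩ := exists_polyH hK₀c hK₀v h0 hl0 hl1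
  refine le_trans ?_ ((H N u b hb hP).trans (measure_mono (projBody_mono hsub2)))
  refine ENNReal.ofReal_le_ofReal (mul_le_mul_of_nonneg_left (pow_le_pow_left₀ ?_ ?_ _) hC)
  · have : 0 ≤ V := ENNReal.toReal_nonneg
    positivity
  · have h := ENNReal.toReal_mono hP.measure_lt_top.ne (measure_mono hsub1 (μ := volume))
    rw [Measure.addHaar_smul_of_nonneg _ hl0, finrank_euclideanSpace_fin, ENNReal.toReal_mul,
      ENNReal.toReal_ofReal (by positivity)] at h
    exact h

/-- The constant in dimension `n`. -/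
noncomputable def lowerConst (n : ℕ) : ℝ :=
  4 * ∏ k ∈ Finset.Icc 3 n, unitBallVol k ^ ((k : ℝ)⁻¹)

lemma lowerConst_nonneg (n : ℕ) : 0 ≤ lowerConst n := by
  refine mul_nonneg (by norm_num) (Finset.prod_nonneg fun k hk => Real.rpow_nonneg ?_ _)
  exact (unitBallVol_pos (by linarith [(Finset.mem_Icc.1 hk).1])).le

theorem lowerBound_all (j : ℕ) : LowerBound (j + 1 + 1) (lowerConst (j + 1 + 1)) := by
  induction j with
  | zero =>
    have h4 : lowerConst (0 + 1 + 1) = 4 := by simp [lowerConst]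
    rw [h4]
    refine lowerBound_of_poly (fun N _ u b hb hK => poly_ge u b hb hK fun w hw _ => ?_) (by norm_num)
    simpa using planar_ge lowerBound_one w b hb hw
  | succ j ih =>
    have hstep : lowerConst (j + 1 + 1 + 1)
        = lowerConst (j + 1 + 1) * unitBallVol (j + 1 + 1 + 1) ^ (((j + 1 + 1 + 1 : ℕ) : ℝ))⁻¹ := by
      rw [lowerConst, lowerConst, Finset.prod_Icc_succ_top (by omega), mul_assoc]
    rw [hstep]
    refine lowerBound_of_poly (fun N _ u b hb hK => poly_ge u b hb hK fun w hw hbal => ?_)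
      (mul_nonneg (lowerConst_nonneg _) (Real.rpow_nonneg (unitBallVol_pos (Nat.succ_pos _)).le _))
    exact balanced_ge (lowerConst_nonneg _) ih w b hb hw hbal

theorem universal_bound (n : ℕ) (hn : 2 ≤ n) (K : Set (EuclideanSpace ℝ (Fin n)))
    (hK : IsCompact K) (hc : Convex ℝ K) (hi : (interior K).Nonempty) :
    ENNReal.ofReal (lowerConst n * (volume K).toReal ^ (n - 1)) ≤ volume (projBody K) := by
  obtain ⟨j, rfl⟩ : ∃ j, n = j + 1 + 1 := ⟨n - 2, by omega⟩
  exact lowerBound_all j K hK hc hi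

end Vale.Agent.P237U
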