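import Vale.Agent.P237U.Step

/-!
# A stability property of the Brunn-Minkowski midpoint
-/

namespace Vale.Agent.P237U

open MeasureTheory Set Metric Filter Topology Vale.Agent.P237 Vale.Agent.P237R
open scoped RealInnerProductSpace ENNReal Pointwise

variable {n : ℕ}

/-- The set of midpoints. -/
def midSet (K L : Set (EuclideanSpace ℝ (Fin (n + 1)))) : Set (EuclideanSpace ℝ (Fin (n + 1))) :=
  (1 / 2 : ℝ) • (K + L)

lemma mem_midSet {K L : Set (EuclideanSpace ℝ (Fin (n + 1)))}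
    {x y : EuclideanSpace ℝ (Fin (n + 1))} (hx : x ∈ K) (hy : y ∈ L) :
    (1 / 2 : ℝ) • (x + y) ∈ midSet K L :=
  ⟨x + y, ⟨x, hx, y, hy, rfl⟩, rfl⟩

lemma isCompact_midSet {K L : Set (EuclideanSpace ℝ (Fin (n + 1)))} (hK : IsCompact K)
    (hL : IsCompact L) : IsCompact (midSet K L) :=
  (hK.add hL).smul _

variable {K L : Set (EuclideanSpace ℝ (Fin (n + 1)))}

lemma econs_neg (t : ℝ) (y : EuclideanSpace ℝ (Fin n)) : econs (-t) (-y) = -econs t y := by
  rw [← neg_one_smul ℝ (econs t y), smul_econs, neg_one_mul, neg_one_smul]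

lemma sLo_eq_neg (hK : IsCompact K) (hne : K.Nonempty) (hs : ∀ x ∈ K, -x ∈ K) :
    sLo K = -sHi K := by
  obtain ⟨p, hp, hp0⟩ := exists_lo hK hne
  obtain ⟨q, hq, hq0⟩ := exists_hi hK hne
  have h1 := (height_mem hK (hs p hp)).2
  have h2 := (height_mem hK (hs q hq)).1
  simp at h1 h2
  linarith

lemma sHi_pos (hK : IsCompact K) (hi : (interior K).Nonempty) (hs : ∀ x ∈ K, -x ∈ K) :
    0 < sHi K := by
  obtain ⟨x, hx⟩ := hi
  have h := height_interior hK hx
  rw [sLo_eq_neg hK ⟨x, interior_subset hx⟩ hs] at h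
  linarith [h.1, h.2]

lemma slice_neg (hs : ∀ x ∈ K, -x ∈ K) (t : ℝ) : slice K (-t) = -slice K t := by
  ext y
  simp only [slice, Set.mem_neg, Set.mem_ofPred_eq]
  constructor
  · intro h
    have := hs _ h
    rwa [← econs_neg, neg_neg] at this
  · intro h
    have := hs _ h
    rwa [← econs_neg, neg_neg] at this

lemma sv_even (hs : ∀ x ∈ K, -x ∈ K) (t : ℝ) : sv K (-t) = sv K t := by
  rw [sv, sv, slice_neg hs, Measure.measure_neg]

lemma sv_le_zero (hK : IsCompact K) (hc : Convex ℝ K) (hs : ∀ x ∈ K, -x ∈ K) (t : ℝ) :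
    sv K t ≤ sv K 0 := by
  have hm : ∀ t, MeasurableSet (slice K t) := fun t => (isCompact_slice hK t).measurableSet
  have h := midpoint_volume (hm t) (hm (-t)) (hm 0) (fun x hx y hy => by
    have := hc hx hy (by norm_num : (0 : ℝ) ≤ 1 / 2) (by norm_num : (0 : ℝ) ≤ 1 / 2) (by norm_num)
    rw [smul_econs, smul_econs, econs_add] at this
    change econs 0 ((1 / 2 : ℝ) • (x + y)) ∈ K
    convert this using 2
    · ring
    · rw [smul_add])
  have h2 := ENNReal.toReal_mono (ENNReal.pow_ne_top (isCompact_slice hK 0).measure_lt_top.ne) h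
  rw [ENNReal.toReal_mul, ENNReal.toReal_pow] at h2
  change sv K t * sv K (-t) ≤ sv K 0 ^ 2 at h2
  rw [sv_even hs, ← sq] at h2
  exact (pow_le_pow_iff_left₀ (sv_nonneg t) (sv_nonneg 0) two_ne_zero).1 h2

lemma sv_ge_cone (hK : IsCompact K) (hc : Convex ℝ K) (hi : (interior K).Nonempty)
    (hs : ∀ x ∈ K, -x ∈ K) {t : ℝ} (ht : |t| ≤ sHi K) :
    (1 - |t| / sHi K) ^ n * sv K 0 ≤ sv K t := by
  have hh := sHi_pos hK hi hs
  wlog htp : 0 ≤ t generalizing t
  · have := this (t := -t) (by rwa [abs_neg]) (by linarith)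
    rwa [abs_neg, sv_even hs] at this
  rw [abs_of_nonneg htp] at ht ⊢
  obtain ⟨p, hp, hp0⟩ := exists_hi hK (hi.mono interior_subset)
  set l := t / sHi K with hl
  have hl0 : 0 ≤ l := div_nonneg htp hh.le
  have hl1 : l ≤ 1 := (div_le_one hh).2 ht
  have hsub : (fun y : EuclideanSpace ℝ (Fin n) => (1 - l) • y + l • etail n p) '' slice K 0
      ⊆ slice K t := by
    rintro _ ⟨y, hy, rfl⟩
    have h := hc hy hp (sub_nonneg.2 hl1) hl0 (sub_add_cancel 1 l)
    rw [← econs_etail p, smul_econs, smul_econs, econs_add, hp0, hl, mul_zero, zero_add,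
      div_mul_cancel₀ _ hh.ne'] at h
    exact h
  have h := ENNReal.toReal_mono ((isCompact_slice hK t).measure_lt_top (μ := volume)).ne
    (measure_mono hsub)
  rw [volume_image_scale (1 - l) (sub_nonneg.2 hl1), ENNReal.toReal_mul,
    ENNReal.toReal_ofReal (pow_nonneg (sub_nonneg.2 hl1) _)] at h
  exact h

/-- The mass below a height. -/
noncomputable def mass (K : Set (EuclideanSpace ℝ (Fin (n + 1)))) (t : ℝ) : ℝ :=
  ∫ s in (0 : ℝ)..t, sv K s

lemma mass_top (hK : IsCompact K) (hne : K.Nonempty) (hs : ∀ x ∈ K, -x ∈ K) :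
    mass K (sHi K) = (volume K).toReal / 2 := by
  have h := integral_sv hK hne
  rw [sLo_eq_neg hK hne hs, ← intervalIntegral.integral_add_adjacent_intervals
    (intervalIntegrable_sv hK _ 0) (intervalIntegrable_sv hK 0 _)] at h
  have h2 : ∫ t in (-sHi K)..0, sv K t = ∫ t in (0 : ℝ)..sHi K, sv K t := by
    have := intervalIntegral.integral_comp_neg (sv K) (a := (0 : ℝ)) (b := sHi K)
    simp only [sv_even hs, neg_zero] at this
    exact this.symm
  rw [h2] at h
  unfold mass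
  linarith

lemma continuous_mass (hK : IsCompact K) : Continuous (mass K) :=
  intervalIntegral.continuous_primitive (intervalIntegrable_sv hK) 0

lemma mass_sub (hK : IsCompact K) (p q : ℝ) : mass K q - mass K p = ∫ s in p..q, sv K s := by
  unfold mass
  rw [intervalIntegral.integral_interval_sub_left (intervalIntegrable_sv hK _ _)
    (intervalIntegrable_sv hK _ _)]

lemma volume_slab (hK : IsCompact K) (hc : Convex ℝ K) {p q : ℝ} (hpq : p ≤ q) :
    volume (K ∩ {x | p < x 0 ∧ x 0 ≤ q}) = ENNReal.ofReal (∫ s in p..q, sv K s) := by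
  have hm : MeasurableSet (K ∩ {x : EuclideanSpace ℝ (Fin (n + 1)) | p < x 0 ∧ x 0 ≤ q}) :=
    hK.measurableSet.inter ((measurableSet_lt measurable_const continuous_height.measurable).inter
      (measurableSet_le continuous_height.measurable measurable_const))
  have _ := hc
  rw [volume_eq_lintegral_slice hm, intervalIntegral.integral_of_le hpq,
    ofReal_integral_eq_lintegral_ofReal (intervalIntegrable_sv hK p q).1
      (Eventually.of_forall fun t => sv_nonneg t), ← lintegral_indicator measurableSet_Ioc]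
  refine lintegral_congr fun t => ?_
  by_cases ht : t ∈ Ioc p q
  · rw [indicator_of_mem ht, sv, ENNReal.ofReal_toReal (isCompact_slice hK t).measure_lt_top.ne]
    congr 1
    ext y
    simp [slice, econs_apply_zero, ht.1, ht.2]
  · rw [indicator_of_notMem ht]
    convert measure_empty (μ := (volume : Measure (EuclideanSpace ℝ (Fin n))))
    ext y
    simp only [slice, mem_inter_iff, Set.mem_ofPred_eq, econs_apply_zero, mem_empty_iff_false,
      iff_false, not_and]
    exact fun _ h1 h2 => ht ⟨h1, h2⟩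

lemma toReal_pos_of_interior (hK : IsCompact K) (hi : (interior K).Nonempty) :
    0 < (volume K).toReal :=
  ENNReal.toReal_pos (fun h => (isOpen_interior.measure_pos volume hi).ne'
    (measure_mono_null interior_subset h)) hK.measure_lt_top.ne

lemma sv_zero_bounds (hK : IsCompact K) (hc : Convex ℝ K) (hi : (interior K).Nonempty)
    (hs : ∀ x ∈ K, -x ∈ K) :
    (volume K).toReal ≤ 2 * sHi K * sv K 0 ∧
      2 * sHi K * sv K 0 ≤ (n + 1) * (volume K).toReal := by
  have hh := sHi_pos hK hi hs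
  have htop := mass_top hK (hi.mono interior_subset) hs
  have h1 : mass K (sHi K) ≤ sHi K * sv K 0 := by
    have := intervalIntegral.integral_mono_on hh.le (intervalIntegrable_sv hK 0 (sHi K))
      (intervalIntegrable_const (c := sv K 0)) (fun s _ => sv_le_zero hK hc hs s)
    simpa [mass] using this
  have h2 : sHi K / (n + 1) * sv K 0 ≤ mass K (sHi K) := by
    have hle := intervalIntegral.integral_mono_on hh.le
      ((by fun_prop : Continuous fun s => (1 - s / sHi K) ^ n * sv K 0).intervalIntegrable _ _)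
      (intervalIntegrable_sv hK 0 (sHi K)) (fun s hs' => by
        have := sv_ge_cone hK hc hi hs (t := s) (by rw [abs_of_nonneg hs'.1]; exact hs'.2)
        rwa [abs_of_nonneg hs'.1] at this)
    refine le_trans (le_of_eq ?_) hle
    rw [intervalIntegral.integral_eq_sub_of_hasDerivAt
      (f := fun s => -(sHi K / (n + 1)) * (1 - s / sHi K) ^ (n + 1) * sv K 0)
      (fun s _ => ((((hasDerivAt_id' s).div_const (sHi K)).const_sub 1).fun_pow (n + 1)).const_mul _
        |>.mul_const _ |>.congr_deriv (by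
          have : (n : ℝ) + 1 ≠ 0 := by positivity
          field_simp; push_cast; ring))
      ((by fun_prop : Continuous fun s => (1 - s / sHi K) ^ n * sv K 0).intervalIntegrable _ _)]
    rw [div_self hh.ne', zero_div, sub_zero, one_pow, sub_self, zero_pow (Nat.succ_ne_zero n)]
    ring
  constructor
  · linarith
  · rw [div_mul_eq_mul_div, div_le_iff₀ (by positivity)] at h2
    nlinarith

lemma mass_mono (hK : IsCompact K) {p q : ℝ} (hpq : p ≤ q) : mass K p ≤ mass K q := by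
  rw [← sub_nonneg, mass_sub hK]
  exact intervalIntegral.integral_nonneg hpq fun s _ => sv_nonneg s

lemma sv_low (hK : IsCompact K) (hc : Convex ℝ K) (hi : (interior K).Nonempty)
    (hs : ∀ x ∈ K, -x ∈ K) {θ : ℝ} (hθ1 : θ < 1) {t : ℝ} (ht : t ∈ Icc 0 (θ * sHi K)) :
    (1 - θ) ^ n * sv K 0 ≤ sv K t := by
  have hh := sHi_pos hK hi hs
  have hle : θ * sHi K ≤ sHi K := mul_le_of_le_one_left hh.le hθ1.le
  refine le_trans ?_ (sv_ge_cone hK hc hi hs (by rw [abs_of_nonneg ht.1]; linarith [ht.2]))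
  refine mul_le_mul_of_nonneg_right (pow_le_pow_left₀ (by linarith) ?_ n) (sv_nonneg 0)
  rw [abs_of_nonneg ht.1, sub_le_sub_iff_left, div_le_iff₀ hh]
  exact ht.2

lemma mass_low (hK : IsCompact K) (hc : Convex ℝ K) (hi : (interior K).Nonempty)
    (hs : ∀ x ∈ K, -x ∈ K) {θ : ℝ} (hθ0 : 0 ≤ θ) (hθ1 : θ < 1) :
    θ * sHi K * ((1 - θ) ^ n * sv K 0) ≤ mass K (θ * sHi K) := by
  have := intervalIntegral.integral_mono_on (mul_nonneg hθ0 (sHi_pos hK hi hs).le)
    intervalIntegrable_const (intervalIntegrable_sv hK 0 (θ * sHi K))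
    (fun t ht => sv_low hK hc hi hs hθ1 ht)
  rw [intervalIntegral.integral_const, smul_eq_mul, sub_zero] at this
  exact this

lemma mass_tail (hK : IsCompact K) (hc : Convex ℝ K) (hi : (interior K).Nonempty)
    (hs : ∀ x ∈ K, -x ∈ K) {θ : ℝ} (hθ0 : 0 ≤ θ) (hθ1 : θ < 1) :
    (1 - θ) ^ (n + 1) / (2 * (n + 1)) * (volume K).toReal
      ≤ mass K (sHi K) - mass K (θ * sHi K) := by
  have hh := sHi_pos hK hi hs
  obtain ⟨la, -⟩ := sv_zero_bounds hK hc hi hs
  have hle : θ * sHi K ≤ sHi K := mul_le_of_le_one_left hh.le hθ1.le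
  have hd : (0 : ℝ) < n + 1 := by positivity
  rw [mass_sub hK]
  have hcont : Continuous fun t => (1 - t / sHi K) ^ n * sv K 0 := by fun_prop
  have hint := intervalIntegral.integral_mono_on hle (hcont.intervalIntegrable _ _)
    (intervalIntegrable_sv hK (θ * sHi K) (sHi K)) (fun t ht => by
      have h0 : 0 ≤ t := (mul_nonneg hθ0 hh.le).trans ht.1
      have := sv_ge_cone hK hc hi hs (t := t) (by rw [abs_of_nonneg h0]; exact ht.2)
      rwa [abs_of_nonneg h0] at this)
  refine le_trans ?_ hint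
  rw [intervalIntegral.integral_eq_sub_of_hasDerivAt
    (f := fun s => -(sHi K / ((n : ℝ) + 1)) * (1 - s / sHi K) ^ (n + 1) * sv K 0)
    (fun s _ => ((((hasDerivAt_id' s).div_const (sHi K)).const_sub 1).fun_pow (n + 1)).const_mul _
      |>.mul_const _ |>.congr_deriv (by field_simp; push_cast; ring))
    (hcont.intervalIntegrable _ _)]
  rw [div_self hh.ne', sub_self, zero_pow (Nat.succ_ne_zero n), mul_div_cancel_right₀ _ hh.ne',
    div_mul_eq_mul_div, div_le_iff₀ (by positivity)]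
  have hq : 0 ≤ (1 - θ) ^ (n + 1) := pow_nonneg (by linarith) _
  refine (mul_le_mul_of_nonneg_left la hq).trans (le_of_eq ?_)
  field_simp
  ring

lemma osc (hK : IsCompact K) (hc : Convex ℝ K) (hi : (interior K).Nonempty)
    (hs : ∀ x ∈ K, -x ∈ K) {η x a a' : ℝ} (hη : 0 < η) (ha : 0 ≤ a) (ha' : a' ≤ sHi K - η)
    (hx : (a' - a) / η ≤ x) (hx1 : x ≤ 1) :
    ∀ s ∈ Icc a a', ∀ t ∈ Icc a a', (1 - x) ^ n * sv K t ≤ sv K s := by
  intro s hsI t htI
  have hd : |s - t| ≤ a' - a := by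
    rw [abs_le]; constructor <;> linarith [hsI.1, hsI.2, htI.1, htI.2]
  have hdd : |s - t| / η ≤ x := (div_le_div_of_nonneg_right hd hη.le).trans hx
  have hne := hi.mono interior_subset
  have hlo := sLo_eq_neg hK hne hs
  refine le_trans (mul_le_mul_of_nonneg_right (pow_le_pow_left₀ (sub_nonneg.2 hx1) ?_ n)
    (sv_nonneg t)) (sv_scale hK hc hne (s := s) (t := t) ?_ hη ?_ ?_ ?_)
  · linarith
  · rw [hlo]; exact ⟨by linarith [htI.1, sHi_pos hK hi hs], by linarith [htI.2]⟩
  · rw [hlo]; linarith [hsI.1, hsI.2]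
  · linarith [hsI.2]
  · exact (div_le_one hη).1 (hdd.trans hx1)

lemma le_avg (hK : IsCompact K) {ρ a a' : ℝ} (hlt : a < a') {s : ℝ}
    (h : ∀ t ∈ Icc a a', ρ * sv K t ≤ sv K s) :
    ρ * ((mass K a' - mass K a) / (a' - a)) ≤ sv K s := by
  have := intervalIntegral.integral_mono_on hlt.le
    ((intervalIntegrable_sv hK a a').const_mul ρ) intervalIntegrable_const h
  rw [intervalIntegral.integral_const_mul, ← mass_sub hK, intervalIntegral.integral_const,
    smul_eq_mul] at this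
  rw [← mul_div_assoc, div_le_iff₀ (sub_pos.2 hlt)]
  linarith

lemma volume_inter_ne_top (hK : IsCompact K) (S : Set (EuclideanSpace ℝ (Fin (n + 1)))) :
    volume (K ∩ S) ≠ ⊤ :=
  ne_top_of_le_ne_top hK.measure_lt_top.ne (measure_mono inter_subset_left)

lemma volume_below (hK : IsCompact K) (hc : Convex ℝ K) (hi : (interior K).Nonempty)
    (hs : ∀ x ∈ K, -x ∈ K) {s : ℝ} (hs0 : 0 ≤ s) :
    (volume (K ∩ {x | x 0 ∈ Iic s})).toReal = (volume K).toReal / 2 + mass K s := by
  have hne := hi.mono interior_subset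
  have hh := sHi_pos hK hi hs
  have hlo : sLo K - 1 ≤ s := by rw [sLo_eq_neg hK hne hs]; linarith
  have he : K ∩ {x | x 0 ∈ Iic s} = K ∩ {x | sLo K - 1 < x 0 ∧ x 0 ≤ s} := by
    ext x
    simp only [mem_inter_iff, Set.mem_ofPred_eq, mem_Iic]
    exact ⟨fun h => ⟨h.1, by linarith [(height_mem hK h.1).1], h.2⟩, fun h => ⟨h.1, h.2.2⟩⟩
  rw [he, volume_slab hK hc hlo,
    ENNReal.toReal_ofReal (intervalIntegral.integral_nonneg hlo fun t _ => sv_nonneg t),
    ← intervalIntegral.integral_add_adjacent_intervals (intervalIntegrable_sv hK _ (sLo K))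
      (intervalIntegrable_sv hK _ _),
    ← intervalIntegral.integral_add_adjacent_intervals (intervalIntegrable_sv hK (sLo K) 0)
      (intervalIntegrable_sv hK _ s)]
  have hz0 : ∫ t in (sLo K - 1)..(sLo K), sv K t = 0 := by
    rw [intervalIntegral.integral_of_le (by linarith), integral_Ioc_eq_integral_Ioo]
    refine setIntegral_eq_zero_of_forall_eq_zero fun t ht => ?_
    rw [sv, slice_empty hK (fun h => not_le.2 ht.2 h.1), measure_empty, ENNReal.toReal_zero]
  have hhalf : ∫ t in (sLo K)..0, sv K t = (volume K).toReal / 2 := by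
    have := intervalIntegral.integral_add_adjacent_intervals (μ := volume)
      (intervalIntegrable_sv hK (sLo K) 0) (intervalIntegrable_sv hK 0 (sHi K))
    have h2 := mass_top hK hne hs
    rw [integral_sv hK hne] at this
    unfold mass at h2
    linarith
  rw [hz0, hhalf, zero_add]
  rfl

lemma volume_above (hK : IsCompact K) (s : ℝ) :
    (volume (K ∩ {x | x 0 ∈ Ioi s})).toReal
      = (volume K).toReal - (volume (K ∩ {x | x 0 ∈ Iic s})).toReal := by
  have he : K ∩ {x | x 0 ∈ Ioi s} = K \ {x | x 0 ∈ Iic s} := by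
    ext x; simp [Set.mem_sdiff]
  have h := measure_inter_add_sdiff K (t := {x : EuclideanSpace ℝ (Fin (n + 1)) | x 0 ∈ Iic s})
    (μ := volume) (continuous_height.measurable measurableSet_Iic)
  rw [← he] at h
  rw [← h, ENNReal.toReal_add (volume_inter_ne_top hK _) (volume_inter_ne_top hK _)]
  ring

lemma outer_piece (hK : IsCompact K) (hL : IsCompact L) {P Q R : Set ℝ}
    (hP : MeasurableSet P) (hQ : MeasurableSet Q) (hR : MeasurableSet R)
    (hPQ : ∀ a ∈ P, ∀ b ∈ Q, (a + b) / 2 ∈ R) {x : ℝ}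
    (hu : (volume (K ∩ {z | z 0 ∈ P})).toReal = x)
    (hv : (volume (L ∩ {z | z 0 ∈ Q})).toReal = x) :
    x ≤ (volume (midSet K L ∩ {z | z 0 ∈ R})).toReal := by
  have hM := isCompact_midSet hK hL
  have h := midpoint_volume (hK.measurableSet.inter (continuous_height.measurable hP))
    (hL.measurableSet.inter (continuous_height.measurable hQ))
    (hM.measurableSet.inter (continuous_height.measurable hR))
    fun a ha b hb => ⟨mem_midSet ha.1 hb.1, by
      have := hPQ _ ha.2 _ hb.2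
      simpa [div_eq_inv_mul, mul_add] using this⟩
  have h2 := ENNReal.toReal_mono (ENNReal.pow_ne_top (volume_inter_ne_top hM _)) h
  rw [ENNReal.toReal_mul, ENNReal.toReal_pow] at h2
  change (volume (K ∩ {z | z 0 ∈ P})).toReal * (volume (L ∩ {z | z 0 ∈ Q})).toReal ≤ _ at h2
  rw [hu, hv, ← sq] at h2
  exact (pow_le_pow_iff_left₀ (hu ▸ ENNReal.toReal_nonneg) ENNReal.toReal_nonneg two_ne_zero).1 h2

lemma middle_piece (hK : IsCompact K) (hL : IsCompact L) {p p' q q' a b : ℝ} (hp : p < p')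
    (hq : q ≤ q') (hb0 : 0 ≤ b) (ha : ∀ s ∈ Icc p p', a ≤ sv K s)
    (hb : ∀ t ∈ Icc q q', b ≤ sv L t) :
    ((p' - p) + (q' - q)) / 2 * √(a * b)
      ≤ (volume (midSet K L ∩ {x | x 0 ∈ Ioc ((p + q) / 2) ((p' + q') / 2)})).toReal := by
  set z := (p + q) / 2 with hz
  set z' := (p' + q') / 2 with hz'
  have hM := isCompact_midSet hK hL
  set M := midSet K L with hMdef
  have hzpos : 0 < z' - z := by rw [hz, hz']; linarith
  have hslice : ∀ x ∈ Ioc z z', ENNReal.ofReal √(a * b) ≤ volume (slice M x) := by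
    intro x hx
    set u := (x - z) / (z' - z) with hudef
    have hu0 : 0 ≤ u := div_nonneg (by linarith [hx.1]) hzpos.le
    have hu1 : u ≤ 1 := by rw [hudef, div_le_one hzpos]; linarith [hx.2]
    have hu : (z' - z) * u = x - z := mul_div_cancel₀ _ hzpos.ne'
    have hsI : p + (p' - p) * u ∈ Icc p p' := ⟨by nlinarith, by nlinarith⟩
    have htI : q + (q' - q) * u ∈ Icc q q' := ⟨by nlinarith, by nlinarith⟩
    have hmid := midpoint_volume (isCompact_slice hK (p + (p' - p) * u)).measurableSet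
      (isCompact_slice hL (q + (q' - q) * u)).measurableSet (isCompact_slice hM x).measurableSet
      (fun a ha b hb => by
        have := mem_midSet (K := K) (L := L) ha hb
        rw [econs_add, smul_econs] at this
        change econs x ((1 / 2 : ℝ) • (a + b)) ∈ M
        convert this using 2
        rw [hz, hz'] at hu
        linarith)
    have h2 := ENNReal.toReal_mono (ENNReal.pow_ne_top (isCompact_slice hM x).measure_lt_top.ne) hmid
    rw [ENNReal.toReal_mul, ENNReal.toReal_pow] at h2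
    rw [← ENNReal.ofReal_toReal (isCompact_slice hM x).measure_lt_top.ne]
    refine ENNReal.ofReal_le_ofReal (Real.sqrt_le_iff.2 ⟨ENNReal.toReal_nonneg, ?_⟩)
    exact (mul_le_mul (ha _ hsI) (hb _ htI) hb0 (sv_nonneg _)).trans h2
  have he : (p' - p + (q' - q)) / 2 = z' - z := by rw [hz, hz']; ring
  rw [he]
  refine (ENNReal.ofReal_le_iff_le_toReal (volume_inter_ne_top hM _)).1 ?_
  have hm : MeasurableSet (M ∩ {x : EuclideanSpace ℝ (Fin (n + 1)) | x 0 ∈ Ioc z z'}) :=
    hM.measurableSet.inter (continuous_height.measurable measurableSet_Ioc)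
  rw [volume_eq_lintegral_slice hm]
  refine le_trans ?_ (setLIntegral_le_lintegral (Ioc z z') _)
  rw [ENNReal.ofReal_mul hzpos.le, mul_comm, ← Real.volume_Ioc, ← setLIntegral_const]
  refine setLIntegral_mono' measurableSet_Ioc fun x hx => (hslice x hx).trans (measure_mono ?_)
  intro y hy
  exact ⟨hy, by simpa [econs_apply_zero] using hx⟩

lemma scalar_gain {ρK ρL g0 σ δ w mk : ℝ} (hρK0 : 0 ≤ ρK) (hρL0 : 0 ≤ ρL) (hr1 : ρK ≤ 1)
    (hr2 : ρL ≤ 1) (hσ : 1 ≤ σ) (hg0 : g0 = (1 + σ) / (2 * √σ))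
    (hρ : (1 + g0) / 2 ≤ ρK * ρL * g0) (hδ : 0 < δ) (hw : σ * δ ≤ w) (hmk : 0 ≤ mk) :
    (1 + g0) / 2 * mk ≤ (δ + w) / 2 * √(ρK * (mk / δ) * (ρL * (mk / w))) := by
  obtain ⟨lam, hlam, rfl⟩ : ∃ lam, σ ≤ lam ∧ w = lam * δ :=
    ⟨w / δ, by rwa [le_div_iff₀ hδ], (div_mul_cancel₀ _ hδ.ne').symm⟩
  have hlam0 : 0 < lam := by linarith
  have e : ρK * (mk / δ) * (ρL * (mk / (lam * δ))) = ρK * ρL * ((mk / δ) ^ 2 / lam) := by
    field_simp
  rw [e, Real.sqrt_mul (mul_nonneg hρK0 hρL0), Real.sqrt_div (sq_nonneg _),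
    Real.sqrt_sq (div_nonneg hmk hδ.le)]
  have hmon : g0 ≤ (1 + lam) / (2 * √lam) := by
    have a1 : 1 ≤ √σ := Real.one_le_sqrt.2 hσ
    have a2 : √σ ≤ √lam := Real.sqrt_le_sqrt hlam
    rw [hg0, div_le_div_iff₀ (by positivity) (by positivity)]
    have s1 := Real.sq_sqrt (by linarith : (0 : ℝ) ≤ σ)
    have s2 := Real.sq_sqrt hlam0.le
    nlinarith [mul_nonneg (sub_nonneg.2 a2)
      (sub_nonneg.2 (one_le_mul_of_one_le_of_one_le a1 (a1.trans a2)))]
  have hg00 : 0 ≤ g0 := by rw [hg0]; positivity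
  have hp0 : 0 ≤ ρK * ρL := mul_nonneg hρK0 hρL0
  have hsq : ρK * ρL ≤ √(ρK * ρL) := by
    refine Real.le_sqrt_of_sq_le ?_
    nlinarith [mul_le_one₀ hr1 hρL0 hr2]
  calc (1 + g0) / 2 * mk ≤ ρK * ρL * g0 * mk := mul_le_mul_of_nonneg_right hρ hmk
    _ ≤ √(ρK * ρL) * ((1 + lam) / (2 * √lam)) * mk :=
        mul_le_mul_of_nonneg_right (mul_le_mul hsq hmon hg00 (Real.sqrt_nonneg _)) hmk
    _ = (δ + lam * δ) / 2 * (√(ρK * ρL) * (mk / δ / √lam)) := by field_simp

lemma exists_long (hL : IsCompact L) {m : ℕ → ℝ} {t1 σ δ : ℝ} {N : ℕ} (hN : 0 < N) (ht1 : 0 ≤ t1)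
    (hδt : (N : ℝ) * (σ * δ) ≤ t1) (hm0 : m 0 = 0) (hmN : m N = mass L t1)
    (hmm : ∀ i, i ≤ N → m i ∈ Icc 0 (mass L t1))
    (hstrict : ∀ p q, p ∈ Icc 0 t1 → q ∈ Icc 0 t1 → p < q → mass L p < mass L q) :
    ∃ i q q', i < N ∧ q ∈ Icc 0 t1 ∧ q' ∈ Icc 0 t1 ∧ mass L q = m i ∧ mass L q' = m (i + 1) ∧
      σ * δ ≤ q' - q := by
  have hq : ∀ i : ℕ, ∃ q ∈ Icc 0 t1, i ≤ N → mass L q = m i := by
    intro i
    by_cases hi : i ≤ N
    · obtain ⟨q, hq, he⟩ : m i ∈ mass L '' Icc 0 t1 := by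
        refine intermediate_value_Icc ht1 (continuous_mass hL).continuousOn ?_
        rw [show mass L 0 = 0 by simp [mass]]
        exact hmm i hi
      exact ⟨q, hq, fun _ => he⟩
    · exact ⟨0, ⟨le_rfl, ht1⟩, fun h => absurd h hi⟩
  choose T hT hTm using hq
  have hT0 : T 0 = 0 := by
    rcases eq_or_lt_of_le (hT 0).1 with h | h
    · exact h.symm
    · have := hstrict 0 (T 0) ⟨le_rfl, ht1⟩ (hT 0) h
      rw [hTm 0 (Nat.zero_le _), hm0] at this
      simp [mass] at this
  have hTN : T N = t1 := by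
    rcases eq_or_lt_of_le (hT N).2 with h | h
    · exact h
    · have := hstrict (T N) t1 (hT N) ⟨ht1, le_rfl⟩ h
      rw [hTm N le_rfl, hmN] at this
      exact absurd this (lt_irrefl _)
  by_contra hall
  push Not at hall
  have h := Finset.sum_lt_sum_of_nonempty (Finset.nonempty_range_iff.2 hN.ne')
    (fun i hi => hall i (T i) (T (i + 1)) (Finset.mem_range.1 hi) (hT i) (hT (i + 1))
      (hTm i (Finset.mem_range.1 hi).le) (hTm (i + 1) (Finset.mem_range.1 hi)))
  rw [Finset.sum_range_sub, hTN, hT0, Finset.sum_const, Finset.card_range, nsmul_eq_mul] at h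
  linarith

lemma exists_quantile (hK : IsCompact K) (hc : Convex ℝ K) (hi : (interior K).Nonempty)
    (hs : ∀ x ∈ K, -x ∈ K) {m β γ : ℝ} (hlo : γ * (volume K).toReal ≤ m) (hγ : 0 < γ)
    (hhi : β * (volume K).toReal ≤ (volume K).toReal / 2 - m) (hβ : 0 < β) :
    ∃ s1 ∈ Icc 0 (sHi K), mass K s1 = m ∧ 2 * β / (n + 1) * sHi K ≤ sHi K - s1 ∧
      2 * γ / (n + 1) * sHi K ≤ s1 := by
  have hV : 0 < (volume K).toReal := toReal_pos_of_interior hK hi
  have hh := sHi_pos hK hi hs
  obtain ⟨ka, kb⟩ := sv_zero_bounds hK hc hi hs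
  have hA : 0 < sv K 0 := by nlinarith
  have htop := mass_top hK (hi.mono interior_subset) hs
  obtain ⟨s, hsI, hsm⟩ : m ∈ mass K '' Icc 0 (sHi K) := by
    refine intermediate_value_Icc hh.le (continuous_mass hK).continuousOn ⟨?_, ?_⟩
    · rw [show mass K 0 = 0 by simp [mass]]
      exact le_trans (by positivity) hlo
    · rw [htop]
      nlinarith [mul_pos hβ hV]
  have hd : (0 : ℝ) < n + 1 := by positivity
  refine ⟨s, hsI, hsm, ?_, ?_⟩
  · have h := intervalIntegral.integral_mono_on hsI.2 (intervalIntegrable_sv hK s (sHi K))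
      intervalIntegrable_const (fun t _ => sv_le_zero hK hc hs t)
    rw [← mass_sub hK, intervalIntegral.integral_const, smul_eq_mul, hsm, htop] at h
    rw [div_mul_eq_mul_div, div_le_iff₀ hd]
    have : (2 * β * sHi K - (sHi K - s) * (n + 1)) * sv K 0 ≤ 0 := by
      nlinarith [hhi.trans h, mul_le_mul_of_nonneg_left kb hβ.le]
    nlinarith
  · have h := intervalIntegral.integral_mono_on hsI.1 (intervalIntegrable_sv hK 0 s)
      intervalIntegrable_const (fun t _ => sv_le_zero hK hc hs t)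
    rw [intervalIntegral.integral_const, smul_eq_mul, sub_zero] at h
    change mass K s ≤ _ at h
    rw [hsm] at h
    rw [div_mul_eq_mul_div, div_le_iff₀ hd]
    have : (2 * γ * sHi K - s * (n + 1)) * sv K 0 ≤ 0 := by
      nlinarith [hlo.trans h, mul_le_mul_of_nonneg_left kb hγ.le]
    nlinarith

lemma slab_mass_ge (hK : IsCompact K) (hc : Convex ℝ K) (hi : (interior K).Nonempty)
    (hs : ∀ x ∈ K, -x ∈ K) {x p δ : ℝ} (hx : 0 ≤ x) (hp : 0 ≤ p) (hδ : 0 ≤ δ)
    (hpδ : x * sHi K ≤ sHi K - (p + δ)) :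
    δ * (x ^ n * sv K 0) ≤ mass K (p + δ) - mass K p := by
  have hh := sHi_pos hK hi hs
  have hxh : 0 ≤ x * sHi K := mul_nonneg hx hh.le
  have h := intervalIntegral.integral_mono_on (by linarith : p ≤ p + δ) intervalIntegrable_const
    (intervalIntegrable_sv hK p (p + δ)) (fun s hsI => le_trans (mul_le_mul_of_nonneg_right
      (pow_le_pow_left₀ hx (show x ≤ 1 - |s| / sHi K by
        rw [abs_of_nonneg (hp.trans hsI.1), le_sub_iff_add_le, ← le_sub_iff_add_le',
          div_le_iff₀ hh]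
        linarith [hsI.2]) n) (sv_nonneg 0))
      (sv_ge_cone hK hc hi hs (by
        rw [abs_of_nonneg (hp.trans hsI.1)]; linarith [hsI.2])))
  rwa [← mass_sub hK, intervalIntegral.integral_const, smul_eq_mul, add_sub_cancel_left] at h

lemma slab_mass_le (hK : IsCompact K) (hc : Convex ℝ K) (hs : ∀ x ∈ K, -x ∈ K) {p δ : ℝ}
    (hδ : 0 ≤ δ) : mass K (p + δ) - mass K p ≤ δ * sv K 0 := by
  have := intervalIntegral.integral_mono_on (by linarith : p ≤ p + δ)
    (intervalIntegrable_sv hK p (p + δ))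
    intervalIntegrable_const (fun s _ => sv_le_zero hK hc hs s)
  rwa [← mass_sub hK, intervalIntegral.integral_const, smul_eq_mul, add_sub_cancel_left] at this

lemma len_bound {w w0 N δ s h l A B d V : ℝ} (hd : 0 < d) (hw0 : 0 < w0) (hB : 0 < B)
    (hN : 0 < N) (hA : 0 ≤ A) (hsh : s ≤ h) (hδ : δ * N = s) (h1 : w * (w0 * B) ≤ δ * A)
    (hk : 2 * h * A ≤ d * V) (hl : V ≤ 2 * l * B) : w ≤ d / w0 / N * l := by
  have h4 : w * (w0 * B) * N ≤ s * A := by
    refine (mul_le_mul_of_nonneg_right h1 hN.le).trans (le_of_eq ?_)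
    rw [← hδ]; ring
  have h5 : s * A ≤ h * A := mul_le_mul_of_nonneg_right hsh hA
  have h6 : (w * (N * w0)) * B ≤ (d * l) * B := by
    have := mul_le_mul_of_nonneg_left hl hd.le
    linarith [mul_assoc d l B]
  have h7 := le_of_mul_le_mul_right h6 hB
  rw [div_div, div_mul_eq_mul_div, le_div_iff₀ (mul_pos hw0 hN)]
  linarith

lemma mk_bound {b γ d N V s h δ A m : ℝ} (hd : 0 < d) (hN : 0 < N) (hb : 0 ≤ b) (hγ : 0 ≤ γ)
    (hA : 0 ≤ A) (hV : V ≤ 2 * h * A) (hs : 2 * γ / d * h ≤ s) (hδ : δ * N = s)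
    (hm : δ * (b * A) ≤ m) : b * γ / d / N * V ≤ m := by
  refine le_trans ?_ hm
  have h1 : γ / d * V ≤ s * A :=
    calc γ / d * V ≤ γ / d * (2 * h * A) := mul_le_mul_of_nonneg_left hV (by positivity)
      _ = 2 * γ / d * h * A := by ring
      _ ≤ s * A := mul_le_mul_of_nonneg_right hs hA
  have h2 := mul_le_mul_of_nonneg_left h1 (div_nonneg hb hN.le)
  calc b * γ / d / N * V = b / N * (γ / d * V) := by ring
    _ ≤ b / N * (s * A) := h2
    _ = δ * (b * A) := by rw [← hδ]; field_simp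

lemma step_ratio {s h η β N : ℝ} (hη : 0 < η) (hβ : 0 < β) (hN : 0 < N) (hs : s ≤ h)
    (hgap : β * h ≤ η) : s / N / η ≤ 1 / N / β := by
  rw [div_div, div_div, div_le_div_iff₀ (mul_pos hN hη) (mul_pos hN hβ), one_mul]
  have := mul_le_mul_of_nonneg_left ((mul_le_mul_of_nonneg_right hs hβ.le).trans
    (by linarith : h * β ≤ η)) hN.le
  linarith

lemma volume_split (hK : IsCompact K) {z z' : ℝ} (hz : z ≤ z') :
    (volume (K ∩ {x | x 0 ∈ Iic z})).toReal + (volume (K ∩ {x | x 0 ∈ Ioc z z'})).toReal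
      + (volume (K ∩ {x | x 0 ∈ Ioi z'})).toReal = (volume K).toReal := by
  rw [volume_above hK]
  have hu : K ∩ {x | x 0 ∈ Iic z'}
      = (K ∩ {x | x 0 ∈ Iic z}) ∪ (K ∩ {x | x 0 ∈ Ioc z z'}) := by
    rw [← inter_union_distrib_left]
    congr 1
    ext x
    simp only [Set.mem_ofPred_eq, mem_union, mem_Iic, mem_Ioc]
    constructor
    · intro h
      rcases le_or_gt (x 0) z with h' | h'
      exacts [Or.inl h', Or.inr ⟨h', h⟩]
    · rintro (h | h)
      exacts [h.trans hz, h.2]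
  have hm : MeasurableSet (K ∩ {x : EuclideanSpace ℝ (Fin (n + 1)) | x 0 ∈ Ioc z z'}) :=
    hK.measurableSet.inter (continuous_height.measurable measurableSet_Ioc)
  rw [hu, measure_union (Set.disjoint_left.2 fun x hx hx' => absurd hx.2 (not_le.2 hx'.2.1)) hm,
    ENNReal.toReal_add (volume_inter_ne_top hK _) (volume_inter_ne_top hK _)]
  ring

lemma gain_cell (hK : IsCompact K) (hKc : Convex ℝ K) (hKi : (interior K).Nonempty)
    (hKs : ∀ x ∈ K, -x ∈ K) (hL : IsCompact L) (hLc : Convex ℝ L) (hLi : (interior L).Nonempty)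
    (hLs : ∀ x ∈ L, -x ∈ L) (hvol : (volume L).toReal = (volume K).toReal)
    {p δ q q' η η' x y σ g0 : ℝ} (hp : 0 ≤ p) (hδ : 0 < δ) (hη : 0 < η)
    (hpη : p + δ ≤ sHi K - η) (hx : δ / η ≤ x) (hx1 : x ≤ 1)
    (hq : 0 ≤ q) (hlong : σ * δ ≤ q' - q) (hσ : 1 ≤ σ) (hη' : 0 < η')
    (hqη : q' ≤ sHi L - η') (hy : (q' - q) / η' ≤ y) (hy1 : y ≤ 1)
    (hqm : mass L q = mass K p) (hq'm : mass L q' = mass K (p + δ))
    (hg0 : g0 = (1 + σ) / (2 * √σ))
    (hρ : (1 + g0) / 2 ≤ (1 - x) ^ n * (1 - y) ^ n * g0) :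
    (volume K).toReal + (g0 - 1) / 2 * (mass K (p + δ) - mass K p)
      ≤ (volume (midSet K L)).toReal := by
  have hx0 : 0 ≤ x := le_trans (div_nonneg hδ.le hη.le) hx
  have hδσ : δ ≤ σ * δ := le_mul_of_one_le_left hδ.le hσ
  have hy0 : 0 ≤ y := le_trans (div_nonneg (by linarith) hη'.le) hy
  have hqq : q < q' := by linarith
  have hmk : 0 ≤ mass K (p + δ) - mass K p := sub_nonneg.2 (mass_mono hK (by linarith))
  have hrK : 0 ≤ (1 - x) ^ n := pow_nonneg (sub_nonneg.2 hx1) n
  have hrL : 0 ≤ (1 - y) ^ n := pow_nonneg (sub_nonneg.2 hy1) n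
  have hgain := scalar_gain (w := q' - q) hrK hrL (pow_le_one₀ (sub_nonneg.2 hx1) (by linarith))
    (pow_le_one₀ (sub_nonneg.2 hy1) (by linarith)) hσ hg0 hρ hδ hlong hmk
  have hoK := osc hK hKc hKi hKs (a := p) (a' := p + δ) hη hp hpη
    (by rwa [add_sub_cancel_left]) hx1
  have hoL := osc hL hLc hLi hLs (a := q) (a' := q') hη' hq hqη hy hy1
  have hmid := middle_piece hK hL (p := p) (p' := p + δ) (q := q) (q' := q')
    (a := (1 - x) ^ n * ((mass K (p + δ) - mass K p) / δ))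
    (b := (1 - y) ^ n * ((mass K (p + δ) - mass K p) / (q' - q))) (by linarith) hqq.le
    (mul_nonneg hrL (div_nonneg hmk (by linarith)))
    (fun s hs => by
      have h := le_avg hK (by linarith : p < p + δ) (fun t ht => hoK s hs t ht)
      rwa [add_sub_cancel_left] at h)
    (fun t ht => by
      have h := le_avg hL hqq (fun t' ht' => hoL t ht t' ht')
      rwa [hqm, hq'm] at h)
  rw [add_sub_cancel_left] at hmid
  have hlow1 := outer_piece hK hL measurableSet_Iic measurableSet_Iic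
    (measurableSet_Iic (a := (p + q) / 2))
    (fun a (ha : a ∈ Iic p) b (hb : b ∈ Iic q) => by simp only [mem_Iic] at *; linarith)
    (volume_below hK hKc hKi hKs hp)
    (by rw [volume_below hL hLc hLi hLs hq, hvol, hqm])
  have hlow3 := outer_piece hK hL measurableSet_Ioi measurableSet_Ioi
    (measurableSet_Ioi (a := (p + δ + q') / 2))
    (fun a (ha : a ∈ Ioi (p + δ)) b (hb : b ∈ Ioi q') => by simp only [mem_Ioi] at *; linarith)
    (x := (volume K).toReal / 2 - mass K (p + δ))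
    (by rw [volume_above hK, volume_below hK hKc hKi hKs (by linarith)]; ring)
    (by rw [volume_above hL, volume_below hL hLc hLi hLs (by linarith), hvol, hq'm]; ring)
  have htot := volume_split (isCompact_midSet hK hL)
    (show (p + q) / 2 ≤ (p + δ + q') / 2 by linarith)
  linarith [hmid.trans' hgain]

/-- Equal volumes and unequal widths make the midpoint set strictly larger. -/
theorem midSet_gain {τ : ℝ} (hτ : 1 < τ) :
    ∃ G > 0, ∀ K L : Set (EuclideanSpace ℝ (Fin (n + 1))), IsCompact K → Convex ℝ K →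
      (interior K).Nonempty → (∀ x ∈ K, -x ∈ K) → IsCompact L → Convex ℝ L →
      (interior L).Nonempty → (∀ x ∈ L, -x ∈ L) →
      (volume L).toReal = (volume K).toReal → τ * sHi K ≤ sHi L →
      (1 + G) * (volume K).toReal ≤ (volume (midSet K L)).toReal := by
  set d : ℝ := (n : ℝ) + 1 with hd
  have hd0 : 0 < d := by positivity
  set θ := (1 + τ) / (2 * τ) with hθdef
  have hθ0 : 0 < θ := by positivity
  have hθ1 : θ < 1 := by rw [hθdef, div_lt_one (by linarith)]; linarith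
  have hθ' : 0 < 1 - θ := by linarith
  set σ := (1 + τ) / 2 with hσdef
  have hσ : 1 < σ := by rw [hσdef]; linarith
  have hσθ : σ = θ * τ := by rw [hσdef, hθdef]; field_simp
  set β := (1 - θ) ^ (n + 1) / (2 * d) with hβdef
  have hβ : 0 < β := by positivity
  set γ := θ * (1 - θ) ^ n / 2 with hγdef
  have hγ : 0 < γ := by positivity
  set β' := 2 * β / d with hβ'def
  have hβ' : 0 < β' := by positivity
  set g0 := (1 + σ) / (2 * √σ) with hg0def
  have hg0 : 1 < g0 := by
    rw [hg0def, one_lt_div (by positivity)]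
    have h2 := Real.sq_sqrt (by linarith : (0 : ℝ) ≤ σ)
    have h3 : 1 < √σ := by rw [Real.lt_sqrt (by norm_num)]; linarith
    nlinarith [mul_pos (sub_pos.2 h3) (sub_pos.2 h3)]
  set D := d / (1 - θ) ^ n with hDdef
  obtain ⟨N, hN0, hNK, hNL, hρ⟩ : ∃ N : ℕ, 0 < N ∧ (1 : ℝ) / N / β' ≤ 1 ∧
      D / N / (1 - θ) ≤ 1 ∧ (1 + g0) / 2 ≤
        (1 - 1 / N / β') ^ n * (1 - D / N / (1 - θ)) ^ n * g0 := by
    have t1 : Tendsto (fun N : ℕ => (1 : ℝ) / N / β') atTop (𝓝 0) := by
      simpa using (tendsto_one_div_atTop_nhds_zero_nat (𝕜 := ℝ)).div_const β'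
    have t2 : Tendsto (fun N : ℕ => D / N / (1 - θ)) atTop (𝓝 0) := by
      simpa using (tendsto_const_div_atTop_nhds_zero_nat D).div_const (1 - θ)
    have t3 : Tendsto (fun N : ℕ => (1 - (1 : ℝ) / N / β') ^ n * (1 - D / N / (1 - θ)) ^ n * g0)
        atTop (𝓝 g0) := by
      simpa using (((t1.const_sub 1).pow n).mul ((t2.const_sub 1).pow n)).mul_const g0
    obtain ⟨N, h1, h2, h3, h4⟩ := ((eventually_gt_atTop 0).and
      ((t1.eventually (eventually_le_nhds one_pos)).and
      ((t2.eventually (eventually_le_nhds one_pos)).and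
        (t3.eventually (eventually_ge_nhds (by linarith : (1 + g0) / 2 < g0)))))).exists
    exact ⟨N, h1, h2, h3, h4⟩
  have hN' : (0 : ℝ) < N := by exact_mod_cast hN0
  refine ⟨(g0 - 1) / 2 * (β' ^ n * γ / d / N), by
    have := sub_pos.2 hg0; positivity, ?_⟩
  intro K L hK hKc hKi hKs hL hLc hLi hLs hvol hwidth
  set V := (volume K).toReal with hV
  have hV0 : 0 < V := toReal_pos_of_interior hK hKi
  have hk0 : 0 < sHi K := sHi_pos hK hKi hKs
  have hl0 : 0 < sHi L := sHi_pos hL hLi hLs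
  obtain ⟨ka, -⟩ := sv_zero_bounds hK hKc hKi hKs
  obtain ⟨la, -⟩ := sv_zero_bounds hL hLc hLi hLs
  obtain ⟨-, kb⟩ := sv_zero_bounds hK hKc hKi hKs
  rw [hvol] at la
  have hB0p : 0 < sv L 0 := by nlinarith
  have hLmass := mass_low hL hLc hLi hLs hθ0.le hθ1
  have hLtail := mass_tail hL hLc hLi hLs hθ0.le hθ1
  rw [mass_top hL (hLi.mono interior_subset) hLs, hvol, ← hd, ← hβdef] at hLtail
  set t1 := θ * sHi L with ht1
  have ht10 : 0 ≤ t1 := by positivity
  have ht1k : σ * sHi K ≤ t1 := by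
    rw [hσθ, mul_assoc]; exact mul_le_mul_of_nonneg_left hwidth hθ0.le
  have hlo : γ * V ≤ mass L t1 := by
    refine le_trans ?_ hLmass
    rw [hγdef, ht1]
    nlinarith [mul_le_mul_of_nonneg_left la (by positivity : (0 : ℝ) ≤ θ * (1 - θ) ^ n)]
  obtain ⟨s1, hs1, hs1m, hs1gap, hs1low⟩ := exists_quantile hK hKc hKi hKs hlo hγ hLtail hβ
  rw [← hd] at hs1gap hs1low
  have hs10 : 0 < s1 := lt_of_lt_of_le (by positivity) hs1low
  have hηk : 0 < sHi K - s1 := lt_of_lt_of_le (by positivity) hs1gap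
  have hstrict : ∀ p q, p ∈ Icc 0 t1 → q ∈ Icc 0 t1 → p < q → mass L p < mass L q := by
    intro p q hp hq hpq
    rw [← sub_pos, mass_sub hL]
    have := intervalIntegral.integral_mono_on hpq.le intervalIntegrable_const
      (intervalIntegrable_sv hL p q)
      (fun t ht => sv_low hL hLc hLi hLs hθ1 ⟨hp.1.trans ht.1, ht.2.trans hq.2⟩)
    rw [intervalIntegral.integral_const, smul_eq_mul] at this
    exact lt_of_lt_of_le (mul_pos (sub_pos.2 hpq) (mul_pos (pow_pos hθ' n) hB0p)) this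
  have hgrid : ∀ i : ℕ, i ≤ N → (i : ℝ) * (s1 / N) ≤ s1 := fun i hi => by
    rw [← mul_div_assoc, div_le_iff₀ hN', mul_comm]
    exact mul_le_mul_of_nonneg_left (by exact_mod_cast hi) hs1.1
  obtain ⟨i, q, q', hiN, hqI, hq'I, hqm, hq'm, hlong⟩ := exists_long hL (σ := σ) (δ := s1 / N)
    (m := fun i : ℕ => mass K (i * (s1 / N))) hN0 ht10 (by
      have e : (N : ℝ) * (σ * (s1 / N)) = σ * s1 := by field_simp
      rw [e]; exact (mul_le_mul_of_nonneg_left hs1.2 (by linarith)).trans ht1k)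
    (by simp [mass]) (by rw [mul_div_cancel₀ _ hN'.ne', hs1m])
    (fun i hi => ⟨by
      have := mass_mono hK (show (0 : ℝ) ≤ i * (s1 / N) by positivity)
      simpa [mass] using this, by rw [← hs1m]; exact mass_mono hK (hgrid i hi)⟩) hstrict
  set δ := s1 / N with hδ
  have hδ0 : 0 < δ := div_pos hs10 hN'
  set p := (i : ℝ) * δ with hp
  have hp'eq : ((i + 1 : ℕ) : ℝ) * δ = p + δ := by rw [hp]; push_cast; ring
  rw [hp'eq] at hq'm
  have hp0 : 0 ≤ p := by positivity
  have hp's : p + δ ≤ s1 := by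
    rw [← hp'eq]; exact hgrid (i + 1) hiN
  have hqq : q < q' := sub_pos.1 (lt_of_lt_of_le (mul_pos (zero_lt_one.trans hσ) hδ0) hlong)
  set mk := mass K (p + δ) - mass K p with hmkdef
  have hmk0 : 0 ≤ mk := sub_nonneg.2 (mass_mono hK (by linarith))
  have hδN : δ * (N : ℝ) = s1 := by rw [hδ, div_mul_cancel₀ _ hN'.ne']
  have hxK : (p + δ - p) / (sHi K - s1) ≤ 1 / N / β' := by
    rw [add_sub_cancel_left, hδ]
    exact step_ratio hηk hβ' hN' hs1.2 hs1gap
  have hmkup : mk ≤ δ * sv K 0 := slab_mass_le hK hKc hKs hδ0.le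
  have hw : (q' - q) * ((1 - θ) ^ n * sv L 0) ≤ δ * sv K 0 := by
    have := intervalIntegral.integral_mono_on hqq.le intervalIntegrable_const
      (intervalIntegrable_sv hL q q')
      (fun t ht => sv_low hL hLc hLi hLs hθ1 ⟨hqI.1.trans ht.1, ht.2.trans hq'I.2⟩)
    rw [← mass_sub hL, hqm, hq'm, intervalIntegral.integral_const, smul_eq_mul] at this
    exact this.trans hmkup
  have hqlen : (q' - q) / ((1 - θ) * sHi L) ≤ D / N / (1 - θ) := by
    have := len_bound hd0 (pow_pos hθ' n) hB0p hN' (sv_nonneg 0) hs1.2 hδN hw kb la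
    rw [← hDdef] at this
    rw [div_le_iff₀ (mul_pos hθ' hl0), ← mul_assoc, div_mul_cancel₀ _ hθ'.ne']
    exact this
  have hcell := gain_cell hK hKc hKi hKs hL hLc hLi hLs hvol hp0 hδ0 hηk
    (by linarith : p + δ ≤ sHi K - (sHi K - s1))
    (by rwa [add_sub_cancel_left] at hxK) hNK hqI.1 hlong hσ.le (mul_pos hθ' hl0)
    (by linarith [hq'I.2, ht1]) hqlen hNL hqm hq'm hg0def hρ
  have hmklow : β' ^ n * γ / d / N * V ≤ mk :=
    mk_bound hd0 hN' (pow_nonneg hβ'.le n) hγ.le (sv_nonneg 0) ka hs1low hδN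
      (slab_mass_ge hK hKc hKi hKs hβ'.le hp0 hδ0.le (by linarith))
  have h5 := mul_le_mul_of_nonneg_left hmklow (by linarith : (0 : ℝ) ≤ (g0 - 1) / 2)
  rw [one_add_mul, mul_assoc]
  linarith

end Vale.Agent.P237U
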