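import Vale.Agent.P237U.Main

/-!
# Comparison of the constant with the value at a ball
-/

namespace Vale.Agent.P237U

open Real Vale.Agent.P237

lemma unitBallVol_succ_sq {m : ℕ} (hm : 0 < m) :
    (unitBallVol (m + 1) / unitBallVol m) ^ 2 ≤ 2 * π / ((m + 1 : ℕ) : ℝ) ∧
      2 * π / ((m + 2 : ℕ) : ℝ) ≤ (unitBallVol (m + 1) / unitBallVol m) ^ 2 := by
  have hs : (√π) ^ 2 = π := sq_sqrt pi_pos.le
  have hsp : 0 < √π := sqrt_pos.2 pi_pos
  set a : ℝ := ((m : ℝ) + 1) / 2 with ha
  have ha0 : 0 < a := by positivity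
  have e1 : (((m + 1 : ℕ) : ℝ)) / 2 + 1 = a + 1 := by rw [ha]; push_cast; ring
  have e2 : (m : ℝ) / 2 + 1 = a + 1 / 2 := by rw [ha]; ring
  have g1 : 0 < Gamma a := Gamma_pos_of_pos ha0
  have g2 : 0 < Gamma (a + 1 / 2) := Gamma_pos_of_pos (by linarith)
  have hr : unitBallVol (m + 1) / unitBallVol m = √π * Gamma (a + 1 / 2) / (a * Gamma a) := by
    rw [unitBallVol_eq (Nat.succ_pos m), unitBallVol_eq hm, e1, e2, Gamma_add_one ha0.ne', pow_succ]
    have := pow_pos hsp m
    field_simp
  rw [hr, div_pow, mul_pow, hs]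
  have h1 := Gamma_sq_le ha0
  have h2 := Gamma_sq_le (a := a + 1 / 2) (by linarith)
  rw [show a + 1 / 2 + 1 / 2 = a + 1 by ring, Gamma_add_one ha0.ne'] at h2
  constructor
  · rw [show 2 * π / ((m + 1 : ℕ) : ℝ) = π / a by rw [ha]; push_cast; field_simp,
      div_le_div_iff₀ (by positivity) ha0]
    calc π * Gamma (a + 1 / 2) ^ 2 * a ≤ π * (a * Gamma a ^ 2) * a := by gcongr
      _ = π * (a * Gamma a) ^ 2 := by ring
  · rw [show 2 * π / ((m + 2 : ℕ) : ℝ) = π / (a + 1 / 2) by
        rw [ha]; push_cast; field_simp; ring, div_le_div_iff₀ (by positivity) (by positivity)]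
    calc π * (a * Gamma a) ^ 2 ≤ π * ((a + 1 / 2) * Gamma (a + 1 / 2) ^ 2) := by gcongr
      _ = π * Gamma (a + 1 / 2) ^ 2 * (a + 1 / 2) := by ring

lemma log_step {m : ℕ} (hm : 0 < m) :
    2 * (log (unitBallVol (m + 1)) - log (unitBallVol m))
        ≤ log (2 * π) - log ((m : ℝ) + 1) ∧
      log (2 * π) - log ((m : ℝ) + 2)
        ≤ 2 * (log (unitBallVol (m + 1)) - log (unitBallVol m)) := by
  have h0 := unitBallVol_pos hm
  have h1 := unitBallVol_pos (Nat.succ_pos m)
  obtain ⟨a, b⟩ := unitBallVol_succ_sq hm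
  have hp : 0 < 2 * π := by positivity
  have e : 2 * (log (unitBallVol (m + 1)) - log (unitBallVol m))
      = log ((unitBallVol (m + 1) / unitBallVol m) ^ 2) := by
    rw [log_pow, log_div h1.ne' h0.ne']; push_cast; ring
  rw [e, ← log_div hp.ne' (by positivity), ← log_div hp.ne' (by positivity)]
  push_cast at a b
  exact ⟨log_le_log (by positivity) a, log_le_log (by positivity) b⟩

lemma log_ball_bounds {n : ℕ} (hn : 1 ≤ n) :
    2 * log (unitBallVol n) ≤ n * log (2 * π) - log (n.factorial : ℝ) ∧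
      n * log (2 * π) - log ((n + 1).factorial : ℝ) ≤ 2 * log (unitBallVol n) := by
  induction n, hn using Nat.le_induction with
  | base =>
    rw [unitBallVol_one]
    have h2 : 2 * log 2 = log 4 := by
      rw [show (4 : ℝ) = 2 ^ 2 by norm_num, log_pow]; push_cast; ring
    constructor
    · simp only [Nat.cast_one, one_mul, Nat.factorial_one, log_one, sub_zero, h2]
      exact log_le_log (by norm_num) (by linarith [pi_gt_three])
    · rw [show ((Nat.factorial (1 + 1) : ℕ) : ℝ) = 2 by norm_num, h2, Nat.cast_one, one_mul,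
        ← log_div (by positivity) (by norm_num)]
      exact log_le_log (by positivity) (by linarith [pi_lt_four])
  | succ n hn ih =>
    obtain ⟨s1, s2⟩ := log_step (m := n) (by omega)
    have f1 : log ((n + 1).factorial : ℝ) = log ((n : ℝ) + 1) + log (n.factorial : ℝ) := by
      rw [Nat.factorial_succ, Nat.cast_mul, log_mul (by positivity) (by positivity)]
      push_cast; rfl
    have f2 : log ((n + 1 + 1).factorial : ℝ)
        = log ((n : ℝ) + 2) + log ((n + 1).factorial : ℝ) := by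
      rw [Nat.factorial_succ (n + 1), Nat.cast_mul, log_mul (by positivity) (by positivity)]
      push_cast; ring_nf
    push_cast
    constructor <;> linarith [ih.1, ih.2]

lemma log_factorial_ge (n : ℕ) : n * log (n : ℝ) - n ≤ log (n.factorial : ℝ) := by
  rcases Nat.eq_zero_or_pos n with rfl | hn
  · simp
  have h := pow_div_factorial_le_exp (n : ℝ) (Nat.cast_nonneg n) n
  have h2 := log_le_log (by positivity) h
  rw [log_exp, log_div (by positivity) (by positivity), log_pow] at h2
  linarith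

lemma log_factorial_le {n : ℕ} (hn : 1 ≤ n) :
    log (n.factorial : ℝ) ≤ n * log (n : ℝ) - n + log (n : ℝ) + 1 := by
  induction n, hn using Nat.le_induction with
  | base => simp
  | succ n hn ih =>
    have hn' : (0 : ℝ) < n := by exact_mod_cast hn
    have f1 : log ((n + 1).factorial : ℝ) = log ((n : ℝ) + 1) + log (n.factorial : ℝ) := by
      rw [Nat.factorial_succ, Nat.cast_mul, log_mul (by positivity) (by positivity)]
      push_cast; rfl
    have h := one_sub_inv_le_log_of_pos (x := ((n : ℝ) + 1) / n) (by positivity)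
    rw [log_div (by positivity) hn'.ne', inv_div] at h
    have h2 : 1 ≤ ((n : ℝ) + 1) * (log ((n : ℝ) + 1) - log (n : ℝ)) := by
      refine le_trans (le_of_eq ?_) (mul_le_mul_of_nonneg_left h (by positivity))
      field_simp
      ring
    push_cast
    linarith

lemma log_succ_le {k : ℝ} (hk : 0 < k) : log (k + 1) ≤ log k + 1 / k := by
  have h := log_le_sub_one_of_pos (x := (k + 1) / k) (by positivity)
  rw [log_div (by positivity) hk.ne'] at h
  have : (k + 1) / k - 1 = 1 / k := by field_simp; ring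
  linarith

theorem lowerConst_ge {n : ℕ} (hn : 3 ≤ n) :
    exp (-9 * log (n : ℝ) ^ 2) * (unitBallVol (n - 1) ^ n * unitBallVol n ^ (2 - (n : ℤ)))
      ≤ lowerConst n := by
  obtain ⟨p, rfl⟩ : ∃ p, n = p + 1 := ⟨n - 1, by omega⟩
  have hp : 0 < p := by omega
  set n := p + 1 with hnp
  have hn3 : (3 : ℝ) ≤ n := by exact_mod_cast hn
  have hnpos : (0 : ℝ) < n := by linarith
  have hk0 : ∀ k ∈ Finset.Icc 3 n, 0 < unitBallVol k := fun k hk =>
    unitBallVol_pos (by linarith [(Finset.mem_Icc.1 hk).1])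
  have hA := unitBallVol_pos hp
  have hB := unitBallVol_pos (show 0 < n by omega)
  have hpos : 0 < lowerConst n :=
    mul_pos (by norm_num) (Finset.prod_pos fun k hk => rpow_pos_of_pos (hk0 k hk) _)
  rw [Nat.add_sub_cancel, ← log_le_log_iff (by positivity) hpos, log_mul (exp_pos _).ne'
    (by positivity), log_exp, log_mul (by positivity) (by positivity), log_pow, log_zpow]
  have hlc : log (lowerConst n) = log 4 + ∑ k ∈ Finset.Icc 3 n, log (unitBallVol k) / k := by
    rw [lowerConst, log_mul (by norm_num) (Finset.prod_pos fun k hk =>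
      rpow_pos_of_pos (hk0 k hk) _).ne', log_prod fun k hk => (rpow_pos_of_pos (hk0 k hk) _).ne']
    congr 1
    refine Finset.sum_congr rfl fun k hk => ?_
    rw [log_rpow (hk0 k hk), inv_mul_eq_div]
  set l := log (n : ℝ) with hl
  have hl1 : 1 ≤ l := by
    rw [hl, le_log_iff_exp_le hnpos]
    linarith [exp_one_lt_d9]
  -- upper bound for the value at the ball
  obtain ⟨-, s2⟩ := log_step hp
  obtain ⟨u1, -⟩ := log_ball_bounds (show 1 ≤ n by omega)
  have hf := log_factorial_ge n
  have e1 : (p : ℝ) + 2 = (n : ℝ) + 1 := by rw [hnp]; push_cast; ring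
  rw [e1] at s2
  have hb := log_succ_le hnpos
  have hb' : (n : ℝ) * log ((n : ℝ) + 1) ≤ n * l + 1 := by
    have := mul_le_mul_of_nonneg_left hb hnpos.le
    rw [mul_add, mul_one_div, div_self hnpos.ne'] at this
    exact this
  have hP : (n : ℝ) * log (unitBallVol p) + (2 - (n : ℝ)) * log (unitBallVol n)
      ≤ n / 2 * (log (2 * π) - l) + n + 1 / 2 := by
    have := mul_le_mul_of_nonneg_left s2 hnpos.le
    nlinarith
  -- lower bound for the constant
  set D : ℝ := 2 * l + 2 with hD
  have hterm : ∀ k ∈ Finset.Icc 3 n, log (2 * π) + 1 - log (k : ℝ) - D * (k : ℝ)⁻¹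
      ≤ 2 * (log (unitBallVol k) / k) := by
    intro k hk
    obtain ⟨hk3, hkn⟩ := Finset.mem_Icc.1 hk
    have hk3' : (3 : ℝ) ≤ k := by exact_mod_cast hk3
    have hkp : (0 : ℝ) < k := by linarith
    have hkl : log (k : ℝ) ≤ l := log_le_log hkp (by exact_mod_cast hkn)
    have h := (log_ball_bounds (show 1 ≤ k by omega)).2
    have h2 := log_factorial_le (show 1 ≤ k + 1 by omega)
    push_cast at h2
    have h3 := log_succ_le hkp
    have h4 : ((k : ℝ) + 2) * log ((k : ℝ) + 1) ≤ k * log (k : ℝ) + 2 * l + 2 := by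
      have := mul_le_mul_of_nonneg_left h3 (by linarith : (0 : ℝ) ≤ (k : ℝ) + 2)
      have e : ((k : ℝ) + 2) * (1 / k) ≤ 2 := by
        rw [mul_one_div, div_le_iff₀ hkp]; linarith
      nlinarith
    rw [← mul_div_assoc, le_div_iff₀ hkp]
    have e3 : (log (2 * π) + 1 - log (k : ℝ) - D * (k : ℝ)⁻¹) * k
        = k * log (2 * π) + k - k * log (k : ℝ) - D := by
      field_simp
    rw [e3, hD]
    nlinarith
  have hcard : ((Finset.Icc 3 n).card : ℝ) = (n : ℝ) - 2 := by
    rw [Nat.card_Icc, Nat.cast_sub (by omega)]; push_cast; ring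
  have hlogs : ∑ k ∈ Finset.Icc 3 n, log (k : ℝ) ≤ log (n.factorial : ℝ) := by
    rw [← log_prod fun k hk => by
      have := (Finset.mem_Icc.1 hk).1; positivity]
    refine log_le_log (Finset.prod_pos fun k hk => by
      have := (Finset.mem_Icc.1 hk).1; positivity) ?_
    rw [← Nat.cast_prod]
    norm_cast
    rw [← Finset.prod_Ico_id_eq_factorial n]
    refine Finset.prod_le_prod_of_subset_of_one_le' ?_ fun k hk _ => ?_
    · intro k hk
      simp only [Finset.mem_Icc, Finset.mem_Ico] at hk ⊢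
      omega
    · exact (Finset.mem_Icc.1 hk).1
  have hharm : ∑ k ∈ Finset.Icc 3 n, ((k : ℝ))⁻¹ ≤ 1 + l := by
    refine le_trans ?_ (harmonic_le_one_add_log n)
    rw [harmonic_eq_sum_Icc]
    push_cast
    refine Finset.sum_le_sum_of_subset_of_nonneg ?_ fun k _ _ => by positivity
    intro k hk
    simp only [Finset.mem_Icc] at hk ⊢
    omega
  have hsum := Finset.sum_le_sum hterm
  rw [Finset.sum_sub_distrib, Finset.sum_sub_distrib, Finset.sum_const, nsmul_eq_mul, hcard,
    ← Finset.mul_sum, ← Finset.mul_sum] at hsum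
  have hfl := log_factorial_le (show 1 ≤ n by omega)
  have h2pi : log (2 * π) ≤ 2 := by
    rw [log_le_iff_le_exp (by positivity)]
    have h := exp_one_gt_d9
    have : exp 2 = exp 1 * exp 1 := by rw [← exp_add]; norm_num
    nlinarith [pi_lt_d2]
  have hD0 : 0 ≤ D := by rw [hD]; linarith
  have hDH := mul_le_mul_of_nonneg_left hharm hD0
  have h4 : 0 ≤ log (4 : ℝ) := log_nonneg (by norm_num)
  rw [hlc]
  push_cast
  simp only [hD] at hsum hDH
  nlinarith

theorem lowerConst_three :
    87 / 100 * (unitBallVol (3 - 1) ^ 3 * unitBallVol 3 ^ (2 - ((3 : ℕ) : ℤ))) ≤ lowerConst 3 := by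
  have h2 : unitBallVol 2 = π := by
    rw [unitBallVol_eq two_pos, show ((2 : ℕ) : ℝ) / 2 + 1 = ((1 : ℕ) : ℝ) + 1 by norm_num,
      Gamma_nat_eq_factorial, sq_sqrt pi_pos.le]
    norm_num
  have h3 : unitBallVol 3 = 4 * π / 3 := by
    rw [unitBallVol_eq three_pos, show ((3 : ℕ) : ℝ) / 2 + 1 = (1 / 2 + 1) + 1 by norm_num,
      Gamma_add_one (by norm_num), Gamma_add_one (by norm_num), Gamma_one_half_eq]
    have := sqrt_pos.2 pi_pos
    field_simp
    nlinarith [sq_sqrt pi_pos.le]
  have e : lowerConst 3 = 4 * unitBallVol 3 ^ ((3 : ℝ)⁻¹) := by simp [lowerConst]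
  rw [e, show 3 - 1 = 2 from rfl, h2, h3]
  have hz : (2 : ℤ) - ((3 : ℕ) : ℤ) = -1 := by norm_num
  rw [hz, zpow_neg_one]
  set y := (4 * π / 3) ^ ((3 : ℝ)⁻¹) with hy
  have hy3 : y ^ 3 = 4 * π / 3 := by
    rw [hy, ← rpow_natCast, ← rpow_mul (by positivity)]
    norm_num
  have hy0 : 0 ≤ y := by rw [hy]; positivity
  refine (pow_le_pow_iff_left₀ (by positivity) (by positivity) (by norm_num : (3 : ℕ) ≠ 0)).1 ?_
  rw [mul_pow 4 y, hy3]
  have hsimp : 87 / 100 * (π ^ 3 * (4 * π / 3)⁻¹) = 261 / 400 * π ^ 2 := by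
    field_simp
    ring
  rw [hsimp]
  have h5 : π ^ 5 ≤ 3.1416 ^ 5 := pow_le_pow_left₀ pi_pos.le pi_lt_d4.le 5
  nlinarith [pi_pos, mul_le_mul_of_nonneg_right h5 pi_pos.le]

end Vale.Agent.P237U
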