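import Mathlib

/-!
# The geometric Brascamp-Lieb inequality, by monotone transport
-/

namespace Vale.Agent.P237U

open MeasureTheory Set Filter Topology
open scoped RealInnerProductSpace ENNReal

variable {m N : ℕ}

/-- The distribution function of the density `exp (-π t ^ 2)`. -/
noncomputable def gcdf (x : ℝ) : ℝ :=
  1 / 2 + ∫ s in (0 : ℝ)..x, Real.exp (-Real.pi * s ^ 2)

/-- The inverse of `gcdf`. -/
noncomputable def gquant : ℝ → ℝ := Function.invFun gcdf

lemma hasDerivAt_gcdf (x : ℝ) : HasDerivAt gcdf (Real.exp (-Real.pi * x ^ 2)) x := by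
  have hc : Continuous fun s : ℝ => Real.exp (-Real.pi * s ^ 2) := by fun_prop
  exact (hc.integral_hasStrictDerivAt 0 x).hasDerivAt.const_add _

lemma continuous_gcdf : Continuous gcdf :=
  continuous_iff_continuousAt.2 fun x => (hasDerivAt_gcdf x).continuousAt

lemma strictMono_gcdf : StrictMono gcdf :=
  strictMono_of_hasDerivAt_pos hasDerivAt_gcdf fun _ => Real.exp_pos _

lemma tendsto_gcdf_atTop : Tendsto gcdf atTop (𝓝 1) := by
  have h1 := intervalIntegral_tendsto_integral_Ioi (0 : ℝ)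
    (integrable_exp_neg_mul_sq Real.pi_pos).integrableOn (tendsto_id (α := ℝ))
  rw [integral_gaussian_Ioi, div_self Real.pi_pos.ne', Real.sqrt_one] at h1
  have h2 := h1.const_add (1 / 2 : ℝ)
  rw [show (1 / 2 : ℝ) + 1 / 2 = 1 by norm_num] at h2
  exact h2

lemma gcdf_neg (x : ℝ) : gcdf (-x) = 1 - gcdf x := by
  have h := intervalIntegral.integral_comp_neg (fun s : ℝ => Real.exp (-Real.pi * s ^ 2))
    (a := 0) (b := x)
  simp only [neg_sq, neg_zero] at h
  unfold gcdf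
  rw [intervalIntegral.integral_symm (-x) 0, ← h]
  ring

lemma tendsto_gcdf_atBot : Tendsto gcdf atBot (𝓝 0) := by
  have h := (tendsto_gcdf_atTop.comp tendsto_neg_atBot_atTop).const_sub 1
  simp only [sub_self] at h
  refine h.congr fun x => ?_
  simp [gcdf_neg]

lemma gcdf_pos (x : ℝ) : 0 < gcdf x :=
  lt_of_le_of_lt (strictMono_gcdf.monotone.le_of_tendsto tendsto_gcdf_atBot (x - 1))
    (strictMono_gcdf (by linarith))

lemma gcdf_lt_one (x : ℝ) : gcdf x < 1 :=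
  lt_of_lt_of_le (strictMono_gcdf (by linarith))
    (strictMono_gcdf.monotone.ge_of_tendsto tendsto_gcdf_atTop (x + 1))

lemma gcdf_gquant {y : ℝ} (hy : y ∈ Ioo (0 : ℝ) 1) : gcdf (gquant y) = y := by
  refine Function.invFun_eq ?_
  exact mem_range_of_exists_le_of_exists_ge continuous_gcdf
    ((tendsto_gcdf_atBot.eventually (eventually_le_nhds hy.1)).exists)
    ((tendsto_gcdf_atTop.eventually (eventually_ge_nhds hy.2)).exists)

lemma gquant_gcdf (x : ℝ) : gquant (gcdf x) = x :=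
  Function.leftInverse_invFun strictMono_gcdf.injective x

lemma strictMonoOn_gquant : StrictMonoOn gquant (Ioo (0 : ℝ) 1) := fun a ha b hb hab =>
  strictMono_gcdf.lt_iff_lt.1 (by rwa [gcdf_gquant ha, gcdf_gquant hb])

lemma hasDerivAt_gquant {y : ℝ} (hy : y ∈ Ioo (0 : ℝ) 1) :
    HasDerivAt gquant (Real.exp (-Real.pi * gquant y ^ 2))⁻¹ y := by
  have hs : Ioo (0 : ℝ) 1 ∈ 𝓝 y := isOpen_Ioo.mem_nhds hy
  have hsurj : gquant '' Ioo (0 : ℝ) 1 = univ :=
    eq_univ_of_forall fun x => ⟨gcdf x, ⟨gcdf_pos x, gcdf_lt_one x⟩, gquant_gcdf x⟩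
  exact HasDerivAt.of_local_left_inverse
    (strictMonoOn_gquant.continuousAt_of_image_mem_nhds hs (by rw [hsurj]; exact univ_mem))
    (hasDerivAt_gcdf _) (Real.exp_pos _).ne'
    (eventually_of_mem hs fun z hz => gcdf_gquant hz)

lemma prod_rpow_le_det (v : Fin N → EuclideanSpace ℝ (Fin m)) (c x : Fin N → ℝ)
    (hc : ∀ i, 0 ≤ c i) (hx : ∀ i, 0 < x i)
    (hv : ∀ i, ‖v i‖ = 1)
    (hiso : ∀ z : EuclideanSpace ℝ (Fin m), ∑ i, c i * ⟪v i, z⟫ ^ 2 = ‖z‖ ^ 2) :
    ∏ i, x i ^ c i ≤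
      |LinearMap.det (∑ i, (c i * x i) • (innerₛₗ ℝ (v i)).smulRight (v i))| := by
  set T : EuclideanSpace ℝ (Fin m) →ₗ[ℝ] EuclideanSpace ℝ (Fin m) :=
    ∑ i, (c i * x i) • (innerₛₗ ℝ (v i)).smulRight (v i) with hT
  have hTa : ∀ z, T z = ∑ i, (c i * x i * ⟪v i, z⟫) • v i := fun z => by
    simp [hT, smul_smul]
  have hsym : T.IsSymmetric := by
    intro a b
    rw [hTa, hTa, sum_inner, inner_sum]
    refine Finset.sum_congr rfl fun i _ => ?_
    rw [real_inner_smul_left, real_inner_smul_right, real_inner_comm a (v i)]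
    ring
  have hn : Module.finrank ℝ (EuclideanSpace ℝ (Fin m)) = m := finrank_euclideanSpace_fin
  set e := hsym.eigenvectorBasis hn
  have hl : ∀ k, hsym.eigenvalues hn k = ∑ i, c i * ⟪v i, e k⟫ ^ 2 * x i := by
    intro k
    have h2 : ⟪e k, T (e k)⟫ = hsym.eigenvalues hn k := by
      rw [hsym.apply_eigenvectorBasis hn k, real_inner_smul_right, real_inner_self_eq_norm_sq,
        e.norm_eq_one]
      simp
    rw [← h2, hTa, inner_sum]
    refine Finset.sum_congr rfl fun i _ => ?_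
    rw [real_inner_smul_right, real_inner_comm (v i) (e k)]
    ring
  have hk : ∀ k, ∏ i, x i ^ (c i * ⟪v i, e k⟫ ^ 2) ≤ hsym.eigenvalues hn k := by
    intro k
    rw [hl k]
    exact Real.geom_mean_le_arith_mean_weighted _ _ _ (fun i _ => mul_nonneg (hc i) (sq_nonneg _))
      (by rw [hiso, e.norm_eq_one, one_pow]) (fun i _ => (hx i).le)
  rw [hsym.det_eq_prod_eigenvalues hn]
  refine le_trans ?_ (le_abs_self _)
  refine le_trans (le_of_eq ?_) (Finset.prod_le_prod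
    (fun k _ => Finset.prod_nonneg fun i _ => Real.rpow_nonneg (hx i).le _) (fun k _ => hk k))
  rw [Finset.prod_comm]
  refine Finset.prod_congr rfl fun i _ => ?_
  rw [← Real.rpow_sum_of_pos (hx i), ← Finset.mul_sum]
  have hsum : ∑ k, ⟪v i, e k⟫ ^ 2 = ‖v i‖ ^ 2 := by
    rw [← e.sum_sq_norm_inner_right (v i)]
    simp [real_inner_comm]
  rw [hsum, hv i, one_pow, mul_one]

theorem brascamp_lieb (v : Fin N → EuclideanSpace ℝ (Fin m)) (c : Fin N → ℝ)
    (hc : ∀ i, 0 ≤ c i) (hv : ∀ i, ‖v i‖ = 1)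
    (hiso : ∀ z : EuclideanSpace ℝ (Fin m), ∑ i, c i * ⟪v i, z⟫ ^ 2 = ‖z‖ ^ 2)
    (U : Set (EuclideanSpace ℝ (Fin m))) (hUo : IsOpen U) (hUne : U.Nonempty)
    (lo hi : Fin N → ℝ) (hU : ∀ x ∈ U, ∀ i, ⟪v i, x⟫ ∈ Ioo (lo i) (hi i))
    (f : Fin N → ℝ → ℝ) (hf : ∀ i, ContinuousOn (f i) (Ioo (lo i) (hi i)))
    (hpos : ∀ i, ∀ t ∈ Ioo (lo i) (hi i), 0 < f i t)
    (hint : ∀ i, IntervalIntegrable (f i) volume (lo i) (hi i)) :
    ∫⁻ x in U, ENNReal.ofReal (∏ i, f i ⟪v i, x⟫ ^ c i)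
      ≤ ENNReal.ofReal (∏ i, (∫ t in (lo i)..(hi i), f i t) ^ c i) := by
  obtain ⟨x₀, hx₀⟩ := hUne
  have hlh : ∀ i, lo i < hi i := fun i => (hU x₀ hx₀ i).1.trans (hU x₀ hx₀ i).2
  set M : Fin N → ℝ := fun i => ∫ t in (lo i)..(hi i), f i t with hM
  have hMpos : ∀ i, 0 < M i := fun i =>
    intervalIntegral.intervalIntegral_pos_of_pos_on (hint i) (hpos i) (hlh i)
  set F : Fin N → ℝ → ℝ := fun i t => (∫ s in (lo i)..t, f i s) / M i with hF
  have hFI : ∀ i, ∀ t ∈ Ioo (lo i) (hi i), F i t ∈ Ioo (0 : ℝ) 1 := by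
    intro i t ht
    have h1 : IntervalIntegrable (f i) volume (lo i) t := (hint i).mono_set (by
      rw [uIcc_of_le ht.1.le, uIcc_of_le (hlh i).le]; exact Icc_subset_Icc le_rfl ht.2.le)
    have h2 : IntervalIntegrable (f i) volume t (hi i) := (hint i).mono_set (by
      rw [uIcc_of_le ht.2.le, uIcc_of_le (hlh i).le]; exact Icc_subset_Icc ht.1.le le_rfl)
    have p1 := intervalIntegral.intervalIntegral_pos_of_pos_on h1
      (fun s hs => hpos i s ⟨hs.1, hs.2.trans ht.2⟩) ht.1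
    have p2 := intervalIntegral.intervalIntegral_pos_of_pos_on h2
      (fun s hs => hpos i s ⟨ht.1.trans hs.1, hs.2⟩) ht.2
    have h3 := intervalIntegral.integral_add_adjacent_intervals h1 h2
    exact ⟨div_pos p1 (hMpos i), (div_lt_one (hMpos i)).2 (by simp only [hM]; linarith)⟩
  have hFd : ∀ i, ∀ t ∈ Ioo (lo i) (hi i), HasDerivAt (F i) (f i t / M i) t := by
    intro i t ht
    refine (intervalIntegral.integral_hasDerivAt_right ((hint i).mono_set ?_)
      ((hf i).stronglyMeasurableAtFilter isOpen_Ioo t ht)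
      ((hf i).continuousAt (isOpen_Ioo.mem_nhds ht))).div_const _
    rw [uIcc_of_le ht.1.le, uIcc_of_le (hlh i).le]
    exact Icc_subset_Icc le_rfl ht.2.le
  set T : Fin N → ℝ → ℝ := fun i t => gquant (F i t) with hT
  set T' : Fin N → ℝ → ℝ := fun i t =>
    (Real.exp (-Real.pi * T i t ^ 2))⁻¹ * (f i t / M i) with hT'
  have hTd : ∀ i, ∀ t ∈ Ioo (lo i) (hi i), HasDerivAt (T i) (T' i t) t := fun i t ht =>
    (hasDerivAt_gquant (hFI i t ht)).comp t (hFd i t ht)
  have hT'pos : ∀ i, ∀ t ∈ Ioo (lo i) (hi i), 0 < T' i t := fun i t ht =>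
    mul_pos (inv_pos.2 (Real.exp_pos _)) (div_pos (hpos i t ht) (hMpos i))
  have hTmono : ∀ i, StrictMonoOn (T i) (Ioo (lo i) (hi i)) := fun i =>
    strictMonoOn_of_hasDerivWithinAt_pos (convex_Ioo _ _)
      (fun t ht => (hTd i t ht).continuousAt.continuousWithinAt)
      (fun t ht => (hTd i t (interior_subset ht)).hasDerivWithinAt)
      (fun t ht => hT'pos i t (interior_subset ht))
  set Θ : EuclideanSpace ℝ (Fin m) → EuclideanSpace ℝ (Fin m) :=
    fun x => ∑ i, (c i * T i ⟪v i, x⟫) • v i with hΘ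
  set D : EuclideanSpace ℝ (Fin m) → (EuclideanSpace ℝ (Fin m) →L[ℝ] EuclideanSpace ℝ (Fin m)) :=
    fun x => ∑ i, (c i * T' i ⟪v i, x⟫) • (innerSL ℝ (v i)).smulRight (v i) with hD
  have hΘd : ∀ x ∈ U, HasFDerivWithinAt Θ (D x) U x := by
    intro x hx
    refine (HasFDerivAt.fun_sum fun i _ => ?_).hasFDerivWithinAt
    have h := (((hTd i _ (hU x hx i)).comp_hasFDerivAt x
      (innerSL ℝ (v i)).hasFDerivAt).const_mul (c i)).smul_const (v i)
    refine h.congr_fderiv ?_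
    ext z
    simp [mul_assoc]
  have hinj : InjOn Θ U := by
    intro x hx y hy hxy
    by_contra hne
    have hz : ‖x - y‖ ^ 2 ≠ 0 := by simpa [sub_eq_zero] using hne
    rw [← hiso] at hz
    obtain ⟨j, -, hj⟩ := Finset.exists_ne_zero_of_sum_ne_zero hz
    have hterm : ∀ i, 0 ≤ c i * ((T i ⟪v i, x⟫ - T i ⟪v i, y⟫) * ⟪v i, x - y⟫) := by
      intro i
      refine mul_nonneg (hc i) ?_
      rw [inner_sub_right]
      rcases le_total ⟪v i, x⟫ ⟪v i, y⟫ with h | h
      · exact mul_nonneg_of_nonpos_of_nonpos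
          (sub_nonpos.2 ((hTmono i).monotoneOn (hU x hx i) (hU y hy i) h)) (sub_nonpos.2 h)
      · exact mul_nonneg (sub_nonneg.2 ((hTmono i).monotoneOn (hU y hy i) (hU x hx i) h))
          (sub_nonneg.2 h)
    have h0 : ∑ i, c i * ((T i ⟪v i, x⟫ - T i ⟪v i, y⟫) * ⟪v i, x - y⟫) = 0 := by
      have : ⟪Θ x - Θ y, x - y⟫ = 0 := by rw [hxy, sub_self, inner_zero_left]
      refine Eq.trans ?_ this
      simp only [hΘ, ← Finset.sum_sub_distrib, ← sub_smul, sum_inner, real_inner_smul_left]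
      exact Finset.sum_congr rfl fun i _ => by ring
    have hj0 := (Finset.sum_eq_zero_iff_of_nonneg fun i _ => hterm i).1 h0 j (Finset.mem_univ _)
    have hne2 : ⟪v j, x - y⟫ ≠ 0 := fun h => hj (by rw [h]; ring)
    have hc0 : c j ≠ 0 := fun h => hj (by rw [h]; ring)
    have hTne : T j ⟪v j, x⟫ - T j ⟪v j, y⟫ ≠ 0 := by
      intro h
      exact hne2 (by
        rw [inner_sub_right, (hTmono j).injOn (hU x hx j) (hU y hy j) (sub_eq_zero.1 h), sub_self])
    exact mul_ne_zero hc0 (mul_ne_zero hTne hne2) hj0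
  have hnorm : ∀ x, ‖Θ x‖ ^ 2 ≤ ∑ i, c i * T i ⟪v i, x⟫ ^ 2 := by
    intro x
    have h1 : ‖Θ x‖ ^ 2 = ∑ i, c i * T i ⟪v i, x⟫ * ⟪v i, Θ x⟫ := by
      rw [← real_inner_self_eq_norm_sq]
      nth_rw 1 [hΘ]
      simp only [sum_inner, real_inner_smul_left]
    have h2 := hiso (Θ x)
    have h3 : ∑ i, c i * T i ⟪v i, x⟫ * ⟪v i, Θ x⟫
        ≤ ∑ i, (c i * T i ⟪v i, x⟫ ^ 2 + c i * ⟪v i, Θ x⟫ ^ 2) / 2 := by
      refine Finset.sum_le_sum fun i _ => ?_
      nlinarith [mul_nonneg (hc i) (sq_nonneg (T i ⟪v i, x⟫ - ⟪v i, Θ x⟫))]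
    rw [← Finset.sum_div, Finset.sum_add_distrib, h2, ← h1] at h3
    linarith
  have hP : 0 < ∏ i, M i ^ c i := Finset.prod_pos fun i _ => Real.rpow_pos_of_pos (hMpos i) _
  have hpt : ∀ x ∈ U, ENNReal.ofReal (∏ i, f i ⟪v i, x⟫ ^ c i) ≤
      ENNReal.ofReal (∏ i, M i ^ c i) * (ENNReal.ofReal |(D x).det|
        * ENNReal.ofReal (Real.exp (-Real.pi * ‖Θ x‖ ^ 2))) := by
    intro x hx
    rw [← ENNReal.ofReal_mul (abs_nonneg _), ← ENNReal.ofReal_mul hP.le]
    refine ENNReal.ofReal_le_ofReal ?_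
    have hfe : ∀ i, f i ⟪v i, x⟫ ^ c i = M i ^ c i * (T' i ⟪v i, x⟫ ^ c i
        * Real.exp (-Real.pi * (c i * T i ⟪v i, x⟫ ^ 2))) := by
      intro i
      have he : f i ⟪v i, x⟫ =
          M i * (T' i ⟪v i, x⟫ * Real.exp (-Real.pi * T i ⟪v i, x⟫ ^ 2)) := by
        have := (hMpos i).ne'
        have := Real.exp_ne_zero (-Real.pi * T i ⟪v i, x⟫ ^ 2)
        simp only [hT']
        field_simp
      have hp := hT'pos i _ (hU x hx i)
      rw [he, Real.mul_rpow (hMpos i).le (by positivity),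
        Real.mul_rpow hp.le (Real.exp_pos _).le, ← Real.exp_mul]
      ring_nf
    rw [Finset.prod_congr rfl fun i _ => hfe i, Finset.prod_mul_distrib, Finset.prod_mul_distrib,
      ← Real.exp_sum, ← Finset.mul_sum]
    refine mul_le_mul_of_nonneg_left (mul_le_mul ?_ ?_ (Real.exp_pos _).le (abs_nonneg _)) hP.le
    · have := prod_rpow_le_det v c (fun i => T' i ⟪v i, x⟫) hc
        (fun i => hT'pos i _ (hU x hx i)) hv hiso
      refine this.trans (le_of_eq ?_)
      congr 1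
      simp only [hD, ContinuousLinearMap.det]
      congr 1
      ext z
      simp
    · refine Real.exp_le_exp.2 ?_
      nlinarith [hnorm x, Real.pi_pos]
  refine (setLIntegral_mono' hUo.measurableSet hpt).trans ?_
  rw [lintegral_const_mul' _ _ ENNReal.ofReal_ne_top]
  refine mul_le_of_le_one_right zero_le ?_
  rw [← lintegral_image_eq_lintegral_abs_det_fderiv_mul volume hUo.measurableSet hΘd hinj
    (fun y => ENNReal.ofReal (Real.exp (-Real.pi * ‖y‖ ^ 2)))]
  refine (setLIntegral_le_lintegral _ _).trans (le_of_eq ?_)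
  have hI : ∫ y : EuclideanSpace ℝ (Fin m), Real.exp (-Real.pi * ‖y‖ ^ 2) = 1 := by
    rw [GaussianFourier.integral_rexp_neg_mul_sq_norm Real.pi_pos, div_self Real.pi_pos.ne',
      Real.one_rpow]
  rw [← ofReal_integral_eq_lintegral_ofReal
    (Integrable.of_integral_ne_zero (by rw [hI]; exact one_ne_zero))
    (Eventually.of_forall fun y => (Real.exp_pos _).le), hI, ENNReal.ofReal_one]

end Vale.Agent.P237U
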