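import Vale.Agent.P237U.Mid

/-!
# The Brunn-Minkowski inequality for convex compact sets
-/

namespace Vale.Agent.P237U

open MeasureTheory Set Metric Filter Topology Vale.Agent.P237 Vale.Agent.P237R
open scoped RealInnerProductSpace ENNReal Pointwise

variable {n : ℕ} {A B : Set (EuclideanSpace ℝ (Fin n))}

lemma isCompact_combo (hA : IsCompact A) (hB : IsCompact B) (a b : ℝ) :
    IsCompact (a • A + b • B) :=
  (hA.smul a).add (hB.smul b)

/-- The multiplicative inequality at dyadic weights. -/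
lemma bm_dyadic (hA : IsCompact A) (hAc : Convex ℝ A) (hAn : A.Nonempty) (hB : IsCompact B)
    (hBc : Convex ℝ B) (hBn : B.Nonempty) (k : ℕ) : ∀ j : ℕ, j ≤ 2 ^ k →
    (volume A).toReal ^ ((j : ℝ) / 2 ^ k) * (volume B).toReal ^ (1 - (j : ℝ) / 2 ^ k)
      ≤ (volume (((j : ℝ) / 2 ^ k) • A + (1 - (j : ℝ) / 2 ^ k) • B)).toReal := by
  induction k with
  | zero =>
    intro j hj
    rw [pow_zero] at hj
    interval_cases j
    · simp [zero_smul_set hAn]
    · simp [zero_smul_set hBn]
  | succ k ih =>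
    intro j hj
    rw [pow_succ] at hj
    have h1 := ih (j / 2) (by omega)
    have h2 := ih ((j + 1) / 2) (by omega)
    set a : ℝ := ((j / 2 : ℕ) : ℝ) / 2 ^ k with ha
    set b : ℝ := (((j + 1) / 2 : ℕ) : ℝ) / 2 ^ k with hb
    have hab : (j : ℝ) / 2 ^ (k + 1) = (a + b) / 2 := by
      have : (((j / 2 : ℕ) : ℝ) + (((j + 1) / 2 : ℕ) : ℝ)) = (j : ℝ) := by
        exact_mod_cast (by omega : j / 2 + (j + 1) / 2 = j)
      rw [ha, hb, ← add_div, this, pow_succ, div_div]
    have hbd : ∀ i : ℕ, i ≤ 2 ^ k → 0 ≤ (i : ℝ) / 2 ^ k ∧ (i : ℝ) / 2 ^ k ≤ 1 := fun i hi =>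
      ⟨by positivity, by rw [div_le_one (by positivity)]; exact_mod_cast hi⟩
    obtain ⟨ha0, ha1⟩ : 0 ≤ a ∧ a ≤ 1 := hbd _ (by omega)
    obtain ⟨hb0, hb1⟩ : 0 ≤ b ∧ b ≤ 1 := hbd _ (by omega)
    rw [hab]
    set C1 := a • A + (1 - a) • B with hC1
    set C2 := b • A + (1 - b) • B with hC2
    set C := ((a + b) / 2) • A + (1 - (a + b) / 2) • B with hC
    have hCc : IsCompact C := isCompact_combo hA hB _ _
    have hsub : ∀ x ∈ C1, ∀ y ∈ C2, (1 / 2 : ℝ) • (x + y) ∈ C := by
      intro x hx y hy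
      have e : C = (1 / 2 : ℝ) • (C1 + C2) := by
        rw [hC1, hC2, add_add_add_comm, ← hAc.add_smul ha0 hb0,
          ← hBc.add_smul (by linarith) (by linarith), smul_add, smul_smul, smul_smul, hC,
          show (1 / 2 : ℝ) * (a + b) = (a + b) / 2 by ring,
          show (1 / 2 : ℝ) * (1 - a + (1 - b)) = 1 - (a + b) / 2 by ring]
      rw [e]
      exact ⟨x + y, ⟨x, hx, y, hy, rfl⟩, rfl⟩
    have hmid := midpoint_volume (isCompact_combo hA hB a (1 - a)).measurableSet
      (isCompact_combo hA hB b (1 - b)).measurableSet hCc.measurableSet hsub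
    have h3 := ENNReal.toReal_mono (ENNReal.pow_ne_top hCc.measure_lt_top.ne) hmid
    rw [ENNReal.toReal_mul, ENNReal.toReal_pow] at h3
    set α := (volume A).toReal
    set β := (volume B).toReal
    have hα : 0 ≤ α := ENNReal.toReal_nonneg
    have hβ : 0 ≤ β := ENNReal.toReal_nonneg
    refine (pow_le_pow_iff_left₀ (by positivity) ENNReal.toReal_nonneg two_ne_zero).1 ?_
    refine le_trans (le_of_eq ?_)
      ((mul_le_mul h1 h2 (by positivity) ENNReal.toReal_nonneg).trans h3)
    rw [mul_pow, ← Real.rpow_natCast (α ^ _) 2, ← Real.rpow_mul hα,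
      ← Real.rpow_natCast (β ^ _) 2, ← Real.rpow_mul hβ,
      mul_mul_mul_comm, ← Real.rpow_add_of_nonneg hα ha0 hb0,
      ← Real.rpow_add_of_nonneg hβ (sub_nonneg.2 ha1) (sub_nonneg.2 hb1)]
    congr 2 <;> push_cast <;> ring

lemma bm_degenerate (hB : IsCompact B) (hn : 0 < n) (hA : IsCompact A) (hAn : A.Nonempty)
    {a b : ℝ} (hb : 0 ≤ b) :
    b * (volume B).toReal ^ ((n : ℝ)⁻¹) ≤ (volume (a • A + b • B)).toReal ^ ((n : ℝ)⁻¹) := by
  obtain ⟨x, hx⟩ := hAn
  have hsub : (fun y => b • y + a • x) '' B ⊆ a • A + b • B := by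
    rintro _ ⟨y, hy, rfl⟩
    exact ⟨a • x, ⟨x, hx, rfl⟩, b • y, ⟨y, hy, rfl⟩, add_comm _ _⟩
  have h := ENNReal.toReal_mono (isCompact_combo hA hB a b).measure_lt_top.ne
    (measure_mono (μ := volume) hsub)
  rw [volume_image_scale b hb, ENNReal.toReal_mul, ENNReal.toReal_ofReal (by positivity)] at h
  have h2 := Real.rpow_le_rpow (by positivity) h (inv_nonneg.2 (Nat.cast_nonneg n))
  rwa [Real.mul_rpow (by positivity) ENNReal.toReal_nonneg,
    Real.pow_rpow_inv_natCast hb hn.ne'] at h2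

/-- The Brunn-Minkowski inequality for nonempty compact convex sets. -/
theorem bm_convex (hn : 0 < n) (hA : IsCompact A) (hAc : Convex ℝ A) (hAn : A.Nonempty)
    (hB : IsCompact B) (hBc : Convex ℝ B) (hBn : B.Nonempty)
    {a b : ℝ} (ha : 0 ≤ a) (hb : 0 ≤ b) :
    a * (volume A).toReal ^ ((n : ℝ)⁻¹) + b * (volume B).toReal ^ ((n : ℝ)⁻¹)
      ≤ (volume (a • A + b • B)).toReal ^ ((n : ℝ)⁻¹) := by
  have hni : (0 : ℝ) ≤ (n : ℝ)⁻¹ := by positivity
  set α := a * (volume A).toReal ^ ((n : ℝ)⁻¹) with hα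
  set β := b * (volume B).toReal ^ ((n : ℝ)⁻¹) with hβ
  have hα0 : 0 ≤ α := mul_nonneg ha (Real.rpow_nonneg ENNReal.toReal_nonneg _)
  have hβ0 : 0 ≤ β := mul_nonneg hb (Real.rpow_nonneg ENNReal.toReal_nonneg _)
  rcases hα0.eq_or_lt with hα1 | hα1
  · rw [← hα1, zero_add]
    exact bm_degenerate hB hn hA hAn hb
  rcases hβ0.eq_or_lt with hβ1 | hβ1
  · rw [← hβ1, add_zero, add_comm]
    exact bm_degenerate hA hn hB hBn ha
  set t := α / (α + β) with ht
  have ht0 : 0 < t := by positivity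
  have ht1 : t < 1 := by rw [ht, div_lt_one (by positivity)]; linarith
  set F : ℝ → ℝ := fun s => (α / s) ^ s * (β / (1 - s)) ^ (1 - s) with hF
  set θ : ℕ → ℝ := fun k => ((⌊t * 2 ^ k⌋₊ : ℕ) : ℝ) / 2 ^ k with hθ
  have hθt : Tendsto θ atTop (𝓝 t) :=
    (tendsto_nat_floor_mul_div_atTop ht0.le).comp (tendsto_pow_atTop_atTop_of_one_lt one_lt_two)
  have hFc : ContinuousAt F t := by
    have h1t : 1 - t ≠ 0 := by linarith
    refine ContinuousAt.mul ?_ ?_
    · exact (continuousAt_const.div continuousAt_id ht0.ne').rpow continuousAt_id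
        (Or.inl (by simp only [id_eq, ne_eq, Pi.div_apply]; positivity))
    · exact (continuousAt_const.div (continuousAt_const.sub continuousAt_id) h1t).rpow
        (continuousAt_const.sub continuousAt_id) (Or.inl (by
          simp only [id_eq, ne_eq, Pi.div_apply, Pi.sub_apply]; exact div_ne_zero hβ1.ne' h1t))
  have hFt : F t = α + β := by
    have e1 : α / t = α + β := by rw [ht]; field_simp
    have e2 : β / (1 - t) = α + β := by
      have : 1 - t = β / (α + β) := by rw [ht]; field_simp; ring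
      rw [this]; field_simp
    simp only [hF, e1, e2]
    rw [← Real.rpow_add (by positivity), add_sub_cancel, Real.rpow_one]
  rw [← hFt]
  refine le_of_tendsto (hFc.tendsto.comp hθt) ?_
  filter_upwards [hθt.eventually (eventually_gt_nhds ht0), hθt.eventually (eventually_lt_nhds ht1)]
    with k h0 h1
  have hjk : ⌊t * 2 ^ k⌋₊ ≤ 2 ^ k := by
    refine Nat.floor_le_of_le ?_
    push_cast
    exact mul_le_of_le_one_left (by positivity) ht1.le
  have h1' : 0 < 1 - θ k := by linarith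
  have h := bm_dyadic (hA.smul (a / θ k)) (hAc.smul _) (hAn.smul_set (a := a / θ k))
    (hB.smul (b / (1 - θ k))) (hBc.smul _) (hBn.smul_set (a := b / (1 - θ k))) k _ hjk
  change (volume ((a / θ k) • A)).toReal ^ θ k * (volume ((b / (1 - θ k)) • B)).toReal ^ (1 - θ k)
    ≤ (volume (θ k • (a / θ k) • A + (1 - θ k) • (b / (1 - θ k)) • B)).toReal at h
  rw [smul_smul, smul_smul, mul_div_cancel₀ _ h0.ne', mul_div_cancel₀ _ h1'.ne',
    Measure.addHaar_smul_of_nonneg _ (by positivity),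
    Measure.addHaar_smul_of_nonneg _ (by positivity), finrank_euclideanSpace_fin,
    ENNReal.toReal_mul, ENNReal.toReal_mul, ENNReal.toReal_ofReal (by positivity),
    ENNReal.toReal_ofReal (by positivity)] at h
  have h2 := Real.rpow_le_rpow (by positivity) h hni
  rw [Real.mul_rpow (by positivity) (by positivity), ← Real.rpow_mul (by positivity),
    ← Real.rpow_mul (by positivity), mul_comm (θ k), mul_comm (1 - θ k),
    Real.rpow_mul (by positivity), Real.rpow_mul (by positivity),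
    Real.mul_rpow (by positivity) ENNReal.toReal_nonneg,
    Real.mul_rpow (by positivity) ENNReal.toReal_nonneg,
    Real.pow_rpow_inv_natCast (by positivity) hn.ne',
    Real.pow_rpow_inv_natCast (by positivity) hn.ne', div_mul_eq_mul_div, div_mul_eq_mul_div] at h2
  simpa only [Function.comp_apply, hF] using h2

end Vale.Agent.P237U
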