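import Vale.Agent.P237U.Mid

/-!
# Equality in the midpoint inequality: the height distributions are translates
-/

namespace Vale.Agent.P237U

open MeasureTheory Set Metric Filter Topology Vale.Agent.P237 Vale.Agent.P237R
open scoped RealInnerProductSpace ENNReal Pointwise

variable {n : ℕ} {K L : Set (EuclideanSpace ℝ (Fin (n + 1)))}

/-- The volume below a height. -/
noncomputable def cumVol (K : Set (EuclideanSpace ℝ (Fin (n + 1)))) (t : ℝ) : ℝ :=
  ∫ s in (sLo K)..t, sv K s

lemma continuous_cumVol (hK : IsCompact K) : Continuous (cumVol K) :=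
  intervalIntegral.continuous_primitive (intervalIntegrable_sv hK) _

lemma sLo_lt_sHi (hK : IsCompact K) (hi : (interior K).Nonempty) : sLo K < sHi K := by
  obtain ⟨x, hx⟩ := hi
  exact (height_interior hK hx).1.trans (height_interior hK hx).2

lemma hasDerivAt_cumVol (hK : IsCompact K) (hc : Convex ℝ K) (hi : (interior K).Nonempty) {t : ℝ}
    (ht : t ∈ Ioo (sLo K) (sHi K)) : HasDerivAt (cumVol K) (sv K t) t := by
  refine intervalIntegral.integral_hasDerivAt_right (intervalIntegrable_sv hK _ _)
    (measurable_sv hK).stronglyMeasurable.stronglyMeasurableAtFilter ?_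
  exact (continuousOn_sv hK hc (hi.mono interior_subset)).continuousAt (isOpen_Ioo.mem_nhds ht)

lemma strictMonoOn_cumVol (hK : IsCompact K) (hc : Convex ℝ K) (hi : (interior K).Nonempty) :
    StrictMonoOn (cumVol K) (Icc (sLo K) (sHi K)) := by
  refine strictMonoOn_of_deriv_pos (convex_Icc _ _) (continuous_cumVol hK).continuousOn fun t ht => ?_
  rw [interior_Icc] at ht
  rw [(hasDerivAt_cumVol hK hc hi ht).deriv]
  exact sv_pos hK hc hi ht

lemma cumVol_top (hK : IsCompact K) (hi : (interior K).Nonempty) :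
    cumVol K (sHi K) = (volume K).toReal :=
  integral_sv hK (hi.mono interior_subset)

lemma amgm_half {a r : ℝ} (ha : 0 ≤ a) (hr : 0 < r) : a ≤ a * ((1 + r) / (2 * √r)) := by
  refine le_mul_of_one_le_right ha ?_
  rw [one_le_div (by positivity)]
  nlinarith [sq_nonneg (√r - 1), Real.sq_sqrt hr.le]

lemma amgm_half_lt {a r : ℝ} (ha : 0 < a) (hr : 0 < r) (h1 : r ≠ 1) :
    a < a * ((1 + r) / (2 * √r)) := by
  refine lt_mul_of_one_lt_right ha ?_
  rw [one_lt_div (by positivity)]
  have h : √r - 1 ≠ 0 := by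
    rw [sub_ne_zero]
    exact fun h => h1 (by rw [← Real.sq_sqrt hr.le, h, one_pow])
  nlinarith [sq_pos_of_ne_zero h, Real.sq_sqrt hr.le]

/-- Equal volumes and no gain at the midpoint force translated height distributions. -/
theorem heights_of_mid_le (hK : IsCompact K) (hKc : Convex ℝ K) (hKi : (interior K).Nonempty)
    (hL : IsCompact L) (hLc : Convex ℝ L) (hLi : (interior L).Nonempty)
    (hvol : (volume L).toReal = (volume K).toReal)
    (hmid : (volume (midSet K L)).toReal ≤ (volume K).toReal) :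
    ∃ c : ℝ, sHi L = sHi K + c ∧ sLo L = sLo K + c ∧
      ∀ t ∈ Ioo (sLo K) (sHi K), sv L (t + c) = sv K t := by
  set M := midSet K L with hM
  set V := (volume K).toReal with hV
  have hMc : IsCompact M := isCompact_midSet hK hL
  have hKl := sLo_lt_sHi hK hKi
  have hLl := sLo_lt_sHi hL hLi
  have hK0 : cumVol K (sLo K) = 0 := intervalIntegral.integral_same
  have hL0 : cumVol L (sLo L) = 0 := intervalIntegral.integral_same
  have hKV := cumVol_top hK hKi
  have hLV : cumVol L (sHi L) = V := (cumVol_top hL hLi).trans hvol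
  have hKs := strictMonoOn_cumVol hK hKc hKi
  have hLs := strictMonoOn_cumVol hL hLc hLi
  set S := Ioo (sLo K) (sHi K) with hS
  set I := Ioo (sLo L) (sHi L) with hI
  have hKin : ∀ t ∈ S, cumVol K t ∈ Ioo 0 V := fun t ht => by
    have h1 := hKs (left_mem_Icc.2 hKl.le) (Ioo_subset_Icc_self ht) ht.1
    have h2 := hKs (Ioo_subset_Icc_self ht) (right_mem_Icc.2 hKl.le) ht.2
    rw [hK0] at h1
    rw [hKV] at h2
    exact ⟨h1, h2⟩
  have hLin : ∀ s ∈ I, cumVol L s ∈ Ioo 0 V := fun s hs => by
    have h1 := hLs (left_mem_Icc.2 hLl.le) (Ioo_subset_Icc_self hs) hs.1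
    have h2 := hLs (Ioo_subset_Icc_self hs) (right_mem_Icc.2 hLl.le) hs.2
    rw [hL0] at h1
    rw [hLV] at h2
    exact ⟨h1, h2⟩
  set G : ℝ → ℝ := Function.invFunOn (cumVol L) I with hG
  have hex : ∀ y ∈ Ioo 0 V, ∃ s ∈ I, cumVol L s = y := fun y hy => by
    have h := intermediate_value_Ioo hLl.le (continuous_cumVol hL).continuousOn
    rw [hL0, hLV] at h
    exact h hy
  have hGm : ∀ y ∈ Ioo 0 V, G y ∈ I := fun y hy => Function.invFunOn_mem (hex y hy)
  have hGe : ∀ y ∈ Ioo 0 V, cumVol L (G y) = y := fun y hy => Function.invFunOn_eq (hex y hy)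
  have hGmono : StrictMonoOn G (Ioo 0 V) := fun x hx y hy hxy => by
    by_contra h
    push Not at h
    have h1 := hLs.monotoneOn (Ioo_subset_Icc_self (hGm y hy)) (Ioo_subset_Icc_self (hGm x hx)) h
    rw [hGe y hy, hGe x hx] at h1
    linarith
  have hGimg : G '' Ioo 0 V = I := by
    refine Subset.antisymm (image_subset_iff.2 hGm) fun s hs => ⟨_, hLin s hs, ?_⟩
    exact hLs.injOn (Ioo_subset_Icc_self (hGm _ (hLin s hs))) (Ioo_subset_Icc_self hs)
      (hGe _ (hLin s hs))
  set T : ℝ → ℝ := fun t => G (cumVol K t) with hT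
  have hTm : ∀ t ∈ S, T t ∈ I := fun t ht => hGm _ (hKin t ht)
  have hTe : ∀ t ∈ S, cumVol L (T t) = cumVol K t := fun t ht => hGe _ (hKin t ht)
  have hTmono : StrictMonoOn T S := fun s hs t ht hst =>
    hGmono (hKin s hs) (hKin t ht) (hKs (Ioo_subset_Icc_self hs) (Ioo_subset_Icc_self ht) hst)
  have hTimg : T '' S = I := by
    refine Subset.antisymm (image_subset_iff.2 hTm) fun s hs => ?_
    have h := intermediate_value_Ioo hKl.le (continuous_cumVol hK).continuousOn
    rw [hK0, hKV] at h
    obtain ⟨t, ht, he⟩ := h (hLin s hs)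
    exact ⟨t, ht, hLs.injOn (Ioo_subset_Icc_self (hTm t ht)) (Ioo_subset_Icc_self hs)
      (by rw [hTe t ht, he])⟩
  have hGc : ∀ y ∈ Ioo 0 V, ContinuousAt G y := fun y hy =>
    hGmono.continuousAt_of_image_mem_nhds (isOpen_Ioo.mem_nhds hy)
      (by rw [hGimg]; exact isOpen_Ioo.mem_nhds (hGm y hy))
  have hTc : ∀ t ∈ S, ContinuousAt T t := fun t ht =>
    (hGc _ (hKin t ht)).comp (continuous_cumVol hK).continuousAt
  have ha : ∀ t ∈ S, 0 < sv K t := fun t ht => sv_pos hK hKc hKi ht
  have hb : ∀ t ∈ S, 0 < sv L (T t) := fun t ht => sv_pos hL hLc hLi (hTm t ht)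
  set ρ : ℝ → ℝ := fun t => sv K t / sv L (T t) with hρ
  have hρ0 : ∀ t ∈ S, 0 < ρ t := fun t ht => div_pos (ha t ht) (hb t ht)
  have hρc : ContinuousOn ρ S := fun t ht =>
    (((continuousOn_sv hK hKc (hKi.mono interior_subset)).continuousAt
      (isOpen_Ioo.mem_nhds ht)).div
      (((continuousOn_sv hL hLc (hLi.mono interior_subset)).continuousAt
        (isOpen_Ioo.mem_nhds (hTm t ht))).comp (hTc t ht)) (hb t ht).ne').continuousWithinAt
  have hTd : ∀ t ∈ S, HasDerivAt T (ρ t) t := by
    intro t ht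
    have hd := HasDerivAt.of_local_left_inverse (hGc _ (hKin t ht))
      (hasDerivAt_cumVol hL hLc hLi (hTm t ht)) (hb t ht).ne'
      (by filter_upwards [isOpen_Ioo.mem_nhds (hKin t ht)] with y hy using hGe y hy)
    exact (hd.comp t (hasDerivAt_cumVol hK hKc hKi ht)).congr_deriv (by simp only [hρ]; ring)
  set Z : ℝ → ℝ := fun t => (t + T t) / 2 with hZ
  have hZd : ∀ t ∈ S, HasDerivWithinAt Z ((1 + ρ t) / 2) S t := fun t ht =>
    (((hasDerivAt_id' t).add (hTd t ht)).div_const 2).hasDerivWithinAt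
  have hZm : MonotoneOn Z S := fun s hs t ht hst => by
    have := hTmono.monotoneOn hs ht hst
    simp only [hZ]; linarith
  have hslice : ∀ t ∈ S, ENNReal.ofReal √(sv K t * sv L (T t)) ≤ volume (slice M (Z t)) := by
    intro t ht
    have hmid' := midpoint_volume (isCompact_slice hK t).measurableSet
      (isCompact_slice hL (T t)).measurableSet (isCompact_slice hMc (Z t)).measurableSet
      (fun a ha b hb => by
        have := mem_midSet (K := K) (L := L) ha hb
        rw [econs_add, smul_econs] at this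
        change econs (Z t) ((1 / 2 : ℝ) • (a + b)) ∈ M
        convert this using 2
        simp only [hZ]; ring)
    have h2 := ENNReal.toReal_mono (ENNReal.pow_ne_top (isCompact_slice hMc _).measure_lt_top.ne) hmid'
    rw [ENNReal.toReal_mul, ENNReal.toReal_pow] at h2
    rw [← ENNReal.ofReal_toReal (isCompact_slice hMc (Z t)).measure_lt_top.ne]
    exact ENNReal.ofReal_le_ofReal (Real.sqrt_le_iff.2 ⟨ENNReal.toReal_nonneg, h2⟩)
  have key : ∫⁻ t in S, ENNReal.ofReal (sv K t * ((1 + ρ t) / (2 * √(ρ t)))) ≤ ENNReal.ofReal V := by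
    calc ∫⁻ t in S, ENNReal.ofReal (sv K t * ((1 + ρ t) / (2 * √(ρ t))))
        ≤ ∫⁻ t in S, ENNReal.ofReal ((1 + ρ t) / 2) * volume (slice M (Z t)) := by
          refine setLIntegral_mono' measurableSet_Ioo fun t ht => ?_
          refine le_trans (le_of_eq ?_) (mul_le_mul_right (hslice t ht) _)
          rw [← ENNReal.ofReal_mul (by have := hρ0 t ht; positivity)]
          congr 1
          have h1 : √(sv K t * sv L (T t)) * √(ρ t) = sv K t := by
            rw [← Real.sqrt_mul (mul_nonneg (ha t ht).le (hb t ht).le), hρ]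
            simp only
            rw [show sv K t * sv L (T t) * (sv K t / sv L (T t)) = sv K t * sv K t by
              field_simp [(hb t ht).ne'], Real.sqrt_mul_self (ha t ht).le]
          have h2 : 0 < √(ρ t) := Real.sqrt_pos.2 (hρ0 t ht)
          nth_rw 1 [← h1]
          field_simp
      _ = ∫⁻ u in Z '' S, volume (slice M u) :=
          (lintegral_image_eq_lintegral_deriv_mul_of_monotoneOn measurableSet_Ioo hZd hZm
            (fun u => volume (slice M u))).symm
      _ ≤ volume M := by
          rw [volume_eq_lintegral_slice hMc.measurableSet]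
          exact setLIntegral_le_lintegral _ _
      _ ≤ ENNReal.ofReal V := by
          rw [← ENNReal.ofReal_toReal hMc.measure_lt_top.ne]
          exact ENNReal.ofReal_le_ofReal hmid
  have hVeq : ∫⁻ t in S, ENNReal.ofReal (sv K t) = ENNReal.ofReal V := by
    rw [← ofReal_integral_eq_lintegral_ofReal
      ((intervalIntegrable_iff_integrableOn_Ioo_of_le hKl.le).1 (intervalIntegrable_sv hK _ _))
      (Eventually.of_forall fun t => sv_nonneg t), ← integral_Ioc_eq_integral_Ioo,
      ← intervalIntegral.integral_of_le hKl.le]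
    exact congrArg ENNReal.ofReal hKV
  set D : ℝ → ℝ := fun t => sv K t * ((1 + ρ t) / (2 * √(ρ t))) - sv K t with hD
  have hDc : ContinuousOn D S := by
    have hKcS : ContinuousOn (sv K) S := continuousOn_sv hK hKc (hKi.mono interior_subset)
    exact ((hKcS.mul ((continuousOn_const.add hρc).div (continuousOn_const.mul hρc.sqrt)
      fun t ht => (mul_pos two_pos (Real.sqrt_pos.2 (hρ0 t ht))).ne'))).sub hKcS
  have hD0 : ∀ t ∈ S, 0 ≤ D t := fun t ht => sub_nonneg.2 (amgm_half (ha t ht).le (hρ0 t ht))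
  have hDzero : ∫⁻ t in S, ENNReal.ofReal (D t) = 0 := by
    have h1 : ∫⁻ t in S, ENNReal.ofReal (sv K t) + ENNReal.ofReal (D t)
        ≤ ENNReal.ofReal V := by
      refine le_trans (le_of_eq (setLIntegral_congr_fun measurableSet_Ioo fun t ht => ?_)) key
      rw [← ENNReal.ofReal_add (sv_nonneg t) (hD0 t ht)]
      simp [hD]
    rw [lintegral_add_left (measurable_sv hK).ennreal_ofReal, hVeq] at h1
    refine le_antisymm ?_ zero_le
    exact ENNReal.le_of_add_le_add_left ENNReal.ofReal_ne_top (by rwa [add_zero])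
  have hρ1 : ∀ t ∈ S, ρ t = 1 := by
    intro t ht
    by_contra hne
    have hpos : 0 < D t := sub_pos.2 (amgm_half_lt (ha t ht) (hρ0 t ht) hne)
    have hev : ∀ᶠ s in 𝓝 t, D t / 2 < D s :=
      (hDc.continuousAt (isOpen_Ioo.mem_nhds ht)).eventually (eventually_gt_nhds (half_lt_self hpos))
    obtain ⟨ε, hε, hball⟩ := Metric.eventually_nhds_iff.1 (hev.and (isOpen_Ioo.mem_nhds ht))
    have hlow : ENNReal.ofReal (D t / 2) * volume (ball t ε) ≤ 0 := by
      rw [← hDzero, ← setLIntegral_const]
      refine le_trans (setLIntegral_mono' measurableSet_ball fun s hs =>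
        ENNReal.ofReal_le_ofReal (hball (mem_ball.1 hs)).1.le) (lintegral_mono_set fun s hs => ?_)
      exact (hball (mem_ball.1 hs)).2
    have : 0 < ENNReal.ofReal (D t / 2) * volume (ball t ε) :=
      ENNReal.mul_pos (ENNReal.ofReal_pos.2 (by linarith)).ne' (measure_ball_pos volume t hε).ne'
    exact absurd hlow (not_le.2 this)
  set t0 := (sLo K + sHi K) / 2
  have ht0 : t0 ∈ S := ⟨by simp only [t0]; linarith, by simp only [t0]; linarith⟩
  set c := T t0 - t0 with hc
  have hTlin : ∀ t ∈ S, T t = t + c := by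
    intro t ht
    have hd : ∀ s ∈ S, HasDerivWithinAt (fun s => T s - s) 0 S s := fun s hs => by
      have := ((hTd s hs).sub (hasDerivAt_id' s)).hasDerivWithinAt (s := S)
      rwa [hρ1 s hs, sub_self] at this
    have := (convex_Ioo (sLo K) (sHi K)).norm_image_sub_le_of_norm_hasDerivWithin_le hd
      (fun s _ => by simp) ht0 ht (C := 0)
    rw [zero_mul, norm_le_zero_iff] at this
    linarith
  have himg : (fun t => t + c) '' S = Ioo (sLo L) (sHi L) := by
    rw [← hI, ← hTimg]; exact image_congr fun t ht => (hTlin t ht).symm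
  rw [hS, image_add_const_Ioo] at himg
  have hne : sLo K + c < sHi K + c := by linarith
  have e1 : sLo K + c = sLo L := by
    rw [← csInf_Ioo hne, himg, csInf_Ioo hLl]
  have e2 : sHi K + c = sHi L := by
    rw [← csSup_Ioo hne, himg, csSup_Ioo hLl]
  refine ⟨c, e2.symm, e1.symm, fun t ht => ?_⟩
  have := hρ1 t ht
  simp only [hρ, hTlin t ht] at this
  rw [div_eq_one_iff_eq] at this
  · exact this.symm
  · rw [← hTlin t ht]; exact (hb t ht).ne'

end Vale.Agent.P237U
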