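import Vale.Agent.P237U.Symmetric
import Vale.Agent.P237U.MidEquality

/-!
# What follows from equality in the projection inequality
-/

namespace Vale.Agent.P237U

open MeasureTheory Set Metric Filter Topology Vale.Agent.P237 Vale.Agent.P237R
open scoped RealInnerProductSpace ENNReal Pointwise

variable {j N : ℕ}

/-- The projection body of a polytope is its zonotope. -/
lemma projBody_subset_zono [NeZero N] (u : Fin N → EuclideanSpace ℝ (Fin (j + 1 + 1))) (b : Fin N → ℝ)
    (hb : ∀ i, 0 < b i) (hK : IsCompact (polyH u b)) :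
    projBody (polyH u b) ⊆ zono (gens u b) := by
  intro y hy
  by_contra hny
  obtain ⟨f, s, hf, hs⟩ := geometric_hahn_banach_closed_point (convex_zono _)
    (isCompact_zono (gens u b)).isClosed hny
  set z := (InnerProductSpace.toDual ℝ (EuclideanSpace ℝ (Fin (j + 1 + 1)))).symm f with hz
  have hfz : ∀ a, f a = ⟪z, a⟫ := fun a => by rw [hz, InnerProductSpace.toDual_symm_apply]
  have hs0 : 0 < s := by
    have := hf 0 (zono_zero_mem _)
    rwa [map_zero] at this
  have hz0 : z ≠ 0 := fun h => by
    rw [hfz, h, inner_zero_left] at hs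
    linarith
  set w := ‖z‖⁻¹ • z with hw
  have hw1 : ‖w‖ = 1 := by simp [hw, norm_smul, hz0]
  have h1 := (hy w hw1).trans (projVolume_le_sum u b hb hK w hw1)
  have hnn : 0 ≤ ∑ i, ((j + 1 + 1 : ℕ) : ℝ) * coneVol u b i / (2 * b i) * |⟪u i, w⟫| :=
    Finset.sum_nonneg fun i _ => by
      have := hb i
      have : 0 ≤ coneVol u b i := ENNReal.toReal_nonneg
      positivity
  rw [ENNReal.ofReal_le_ofReal_iff hnn] at h1
  set sg : Fin N → ℝ := fun i => if 0 ≤ ⟪u i, w⟫ then 1 else -1 with hsg
  have h2 := (hf _ ⟨sg, fun i _ => by simp only [hsg]; split_ifs <;> simp, rfl⟩).trans hs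
  rw [hfz, hfz] at h2
  have h3 : ⟪w, ∑ i, sg i • gens u b i⟫ < ⟪w, y⟫ := by
    rw [hw, real_inner_smul_left, real_inner_smul_left]
    exact mul_lt_mul_of_pos_left h2 (inv_pos.2 (norm_pos_iff.2 hz0))
  rw [inner_sum] at h3
  have h5 : ∑ i, ⟪w, sg i • gens u b i⟫
      = ∑ i, ((j + 1 + 1 : ℕ) : ℝ) * coneVol u b i / (2 * b i) * |⟪u i, w⟫| := by
    refine Finset.sum_congr rfl fun i _ => ?_
    rw [gens, real_inner_smul_right, real_inner_smul_right, real_inner_comm w]
    simp only [hsg]
    split_ifs with h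
    · rw [abs_of_nonneg (by rwa [real_inner_comm])]; ring
    · rw [abs_of_neg (by rw [real_inner_comm]; linarith)]; ring
  linarith

/-- The projection body of a dilate. -/
lemma smul_projBody_subset {m : ℕ} {K : Set (EuclideanSpace ℝ (Fin (m + 1)))} (hK : IsCompact K)
    {r : ℝ} (hr : 0 ≤ r) : r ^ m • projBody K ⊆ projBody (r • K) := by
  rintro _ ⟨y, hy, rfl⟩ u hu
  have e : (fun x => r • x + (0 : EuclideanSpace ℝ (Fin (m + 1)))) '' K = r • K := by
    simp [← Set.image_smul]
  rw [← e, projVolume_scale hK hr 0 hu, real_inner_smul_right, ENNReal.ofReal_mul (pow_nonneg hr m)]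
  exact mul_le_mul_right (hy u hu) _

/-- Volume preserving linear maps do not increase the volume of the projection body. -/
lemma volume_projBody_map_le {K : Set (EuclideanSpace ℝ (Fin (j + 1 + 1)))} (hK : IsCompact K)
    (hc : Convex ℝ K) (h0 : (0 : EuclideanSpace ℝ (Fin (j + 1 + 1))) ∈ interior K)
    (T : EuclideanSpace ℝ (Fin (j + 1 + 1)) →ₗ[ℝ] EuclideanSpace ℝ (Fin (j + 1 + 1)))
    (hT : |LinearMap.det T| = 1) :
    volume (projBody (T '' K)) ≤ volume (projBody K) := by
  have hne : LinearMap.det T ≠ 0 := fun h => by simp [h] at hT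
  set Te := LinearMap.equivOfDetNeZero T hne
  have hlim : Tendsto (fun l : ℝ => ENNReal.ofReal ((l ^ (j + 1)) ^ (j + 1 + 1)) *
      volume (projBody (T '' K))) (𝓝[<] 1) (𝓝 (volume (projBody (T '' K)))) := by
    have h := (ENNReal.continuous_ofReal.comp
      (by fun_prop : Continuous fun l : ℝ => (l ^ (j + 1)) ^ (j + 1 + 1))).tendsto 1
    simp only [Function.comp_apply, one_pow, ENNReal.ofReal_one] at h
    have h2 := ENNReal.Tendsto.mul_const (b := volume (projBody (T '' K))) h (Or.inl one_ne_zero)
    rw [one_mul] at h2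
    exact h2.mono_left nhdsWithin_le_nhds
  refine le_of_tendsto hlim ?_
  filter_upwards [self_mem_nhdsWithin, nhdsWithin_le_nhds (eventually_ge_nhds zero_lt_one)]
    with l hl1 hl0
  obtain ⟨M, hM, u, b, hb, hP, hlow, hsub⟩ := exists_polyH hK hc h0 hl0 hl1
  have hdet : |LinearMap.det Te.symm.toLinearMap| = 1 := by
    have h := LinearEquiv.det_coe_symm Te
    rw [h, abs_inv, show LinearMap.det Te.toLinearMap = LinearMap.det T from rfl, hT, inv_one]
  set A := LinearMap.adjoint Te.symm.toLinearMap with hA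
  have hAi : ∀ i x, ⟪A (u i), x⟫ = ⟪u i, Te.symm x⟫ := fun i x =>
    LinearMap.adjoint_inner_left Te.symm.toLinearMap x (u i)
  have hP' : IsCompact (polyH (fun i => A (u i)) b) :=
    isCompact_polyH_map u _ b Te.symm.toLinearMap hdet hAi hP
  have hz : volume (zono (gens (fun i => A (u i)) b)) = volume (zono (gens u b)) := by
    have e : zono (gens (fun i => A (u i)) b) = A '' zono (gens u b) := by
      rw [image_zono]
      congr 1
      funext i
      simp only [gens, map_smul]
      rw [coneVol_map u _ b Te.symm.toLinearMap hdet hAi i]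
    rw [e, Measure.addHaar_image_linearMap, hA, det_adjoint_eq, hdet, ENNReal.ofReal_one, one_mul]
  have hsubT : l • T '' K ⊆ polyH (fun i => A (u i)) b := by
    rintro _ ⟨_, ⟨x, hx, rfl⟩, rfl⟩ i
    change ⟪A (u i), l • Te x⟫ ≤ b i
    rw [hAi, map_smul, Te.symm_apply_apply]
    exact hlow (smul_mem_smul_set hx) i
  have h1 : volume ((l ^ (j + 1)) • projBody (T '' K)) ≤ volume (projBody K) :=
    calc volume ((l ^ (j + 1)) • projBody (T '' K))
        ≤ volume (zono (gens (fun i => A (u i)) b)) := measure_mono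
          (((smul_projBody_subset (hK.image T.continuous_of_finiteDimensional) hl0).trans
            (projBody_mono hsubT)).trans (projBody_subset_zono _ b hb hP'))
      _ = volume (zono (gens u b)) := hz
      _ ≤ volume (projBody K) :=
          measure_mono ((zono_subset_projBody u b hb hP).trans (projBody_mono hsub))
  rwa [Measure.addHaar_smul_of_nonneg _ (by positivity), finrank_euclideanSpace_fin] at h1

/-- Equality passes to the projection body and forces a homothety to the second one at the
midpoint. -/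
theorem equality_step {c : ℝ} (hc0 : 0 < c) (hLB : LowerBound (j + 1 + 1) c)
    {K : Set (EuclideanSpace ℝ (Fin (j + 1 + 1)))} (hK : IsCompact K) (hKc : Convex ℝ K)
    (h0 : (0 : EuclideanSpace ℝ (Fin (j + 1 + 1))) ∈ interior K)
    (heq : (volume (projBody K)).toReal = c * (volume K).toReal ^ (j + 1)) :
    IsCompact (projBody K) ∧ Convex ℝ (projBody K) ∧
      (0 : EuclideanSpace ℝ (Fin (j + 1 + 1))) ∈ interior (projBody K) ∧
      (∀ x ∈ projBody K, -x ∈ projBody K) ∧
      (volume (projBody (projBody K))).toReal = c * (volume (projBody K)).toReal ^ (j + 1) ∧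
      (volume ((1 / (c * (volume K).toReal ^ j)) • projBody (projBody K))).toReal
        = (volume K).toReal ∧
      (volume (midSet K ((1 / (c * (volume K).toReal ^ j)) • projBody (projBody K)))).toReal
        ≤ (volume K).toReal := by
  set Z := projBody K with hZ
  set L := projBody Z with hLdef
  set V := (volume K).toReal with hV
  have hVp : 0 < V := toReal_pos_of_interior (n := j + 1) hK ⟨0, h0⟩
  have hZc : IsCompact Z := isCompact_projBody hK
  have hZv : Convex ℝ Z := convex_projBody hK
  set W := (volume Z).toReal with hW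
  have hWp : 0 < W := by rw [heq]; positivity
  have hZi : (interior Z).Nonempty := interior_nonempty_of_volume_pos hZv hWp
  have hZs : ∀ x ∈ Z, -x ∈ Z := fun x hx => neg_mem_projBody hK hx
  have hZ0 := zero_mem_interior hZv hZi hZs
  have hLc : IsCompact L := isCompact_projBody hZc
  set C := (volume L).toReal with hC
  set lam := 1 / (c * V ^ j) with hlam
  have hlam0 : 0 < lam := by positivity
  have hClow : c * W ^ (j + 1) ≤ C :=
    (ENNReal.ofReal_le_iff_le_toReal hLc.measure_lt_top.ne).1 (by
      have := hLB Z hZc hZv hZi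
      simpa using this)
  -- the estimates at a fixed dilation
  have key : ∀ l : ℝ, 0 < l → l < 1 →
      (l ^ (j + 1 + 1) * V) ^ (j + 1) * (((l ^ (j + 1)) ^ (j + 1)) ^ (j + 1 + 1) * C) ≤ W ^ (j + 1 + 1) ∧
      (l ^ (j + 1 + 1) * V) ^ (j + 1) *
        (((l ^ (j + 1)) ^ (j + 1)) ^ (j + 1 + 1) * (volume (midSet K (lam • L))).toReal)
        ≤ V ^ (j + 1 + 1) := by
    intro l hl0 hl1
    obtain ⟨M, hM, u, b, hb, hP, hlow, hsub⟩ := exists_polyH hK hKc h0 hl0.le hl1
    set VP := (volume (polyH u b)).toReal with hVP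
    have hVPp : 0 < VP := volume_toReal_pos u b hb hP
    have hVle : l ^ (j + 1 + 1) * V ≤ VP := by
      have h := ENNReal.toReal_mono hP.measure_lt_top.ne (measure_mono (μ := volume) hlow)
      rwa [Measure.addHaar_smul_of_nonneg _ hl0.le, finrank_euclideanSpace_fin, ENNReal.toReal_mul,
        ENNReal.toReal_ofReal (by positivity)] at h
    have hVPle : VP ≤ V := ENNReal.toReal_mono hK.measure_lt_top.ne (measure_mono hsub)
    have hWZ : (volume (zono (gens u b))).toReal ≤ W := ENNReal.toReal_mono hZc.measure_lt_top.ne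
      (measure_mono ((zono_subset_projBody u b hb hP).trans (projBody_mono hsub)))
    set q := (l ^ (j + 1)) ^ (j + 1) with hq
    have hq0 : 0 < q := by positivity
    have hql : q ≤ l := by
      rw [hq, ← pow_mul]
      exact (pow_le_pow_of_le_one hl0.le hl1.le (Nat.one_le_iff_ne_zero.2 (by positivity))).trans_eq
        (pow_one l)
    have hqL : q • L ⊆ projBody (zono (gens u b)) :=
      (smul_projBody_subset hZc (pow_nonneg hl0.le _)).trans (projBody_mono
        (((smul_projBody_subset hK hl0.le).trans (projBody_mono hlow)).trans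
          (projBody_subset_zono u b hb hP)))
    obtain ⟨cw, hcw, hle, hsum⟩ := step_bound u b hb hP
    set X := ∑ i, coneVol u b i * (cw i / b i) with hX
    have hX0 : 0 ≤ X := Finset.sum_nonneg fun i _ =>
      mul_nonneg ENNReal.toReal_nonneg (div_nonneg (hcw i) (hb i).le)
    have hXW : X ≤ W := hsum.trans hWZ
    have main : ∀ (S : Set (EuclideanSpace ℝ (Fin (j + 1 + 1)))) (cf : Fin M → ℝ) (B : ℝ),
        IsCompact S → 0 ≤ ∑ i, coneVol u b i * (cf i / b i) →
        ∑ i, coneVol u b i * (cf i / b i) ≤ B → (∀ y ∈ S, ∀ i, ⟪u i, y⟫ ≤ cf i) →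
        (l ^ (j + 1 + 1) * V) ^ (j + 1) * (volume S).toReal ≤ B ^ (j + 1 + 1) := by
      intro S cf B hS h0s hsB hcf
      have h := minkowski_pow u b hb hP hVPp S cf hcf
      rw [← ENNReal.ofReal_toReal hS.measure_lt_top.ne, ← ENNReal.ofReal_mul (by positivity),
        ENNReal.ofReal_le_ofReal_iff (by positivity)] at h
      exact (mul_le_mul_of_nonneg_right (pow_le_pow_left₀ (by positivity) hVle _)
        ENNReal.toReal_nonneg).trans (h.trans (pow_le_pow_left₀ h0s hsB _))
    constructor
    · have h := main (q • L) cw W (hLc.smul q) hX0 hXW (fun y hy => hle y (hqL hy))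
      rwa [Measure.addHaar_smul_of_nonneg _ hq0.le, finrank_euclideanSpace_fin, ENNReal.toReal_mul,
        ENNReal.toReal_ofReal (by positivity)] at h
    · have hsub2 : q • midSet K (lam • L) ⊆ midSet (polyH u b) (lam • q • L) := by
        rintro _ ⟨_, ⟨_, ⟨x, hx, _, ⟨y, hy, rfl⟩, rfl⟩, rfl⟩, rfl⟩
        have hqx : q • x ∈ polyH u b := by
          have h1 : (q / l) • x ∈ K :=
            (hKc.starConvex (interior_subset h0)).smul_mem hx (by positivity) ((div_le_one hl0).2 hql)
          have h2 := hlow (smul_mem_smul_set h1 : l • (q / l) • x ∈ l • K)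
          rwa [smul_smul, mul_div_cancel₀ _ hl0.ne'] at h2
        refine ⟨q • x + lam • q • y, ⟨q • x, hqx, lam • q • y,
          smul_mem_smul_set (smul_mem_smul_set hy), rfl⟩, ?_⟩
        simp only [smul_add, smul_smul, mul_comm, mul_left_comm]
      have hcs := isCompact_midSet hP ((hLc.smul q).smul lam)
      have hsum2 : ∑ i, coneVol u b i * ((b i + lam * cw i) / 2 / b i) = (VP + lam * X) / 2 := by
        rw [hX, hVP, ← sum_coneVol u b hP, Finset.mul_sum, ← Finset.sum_add_distrib, Finset.sum_div]
        refine Finset.sum_congr rfl fun i _ => ?_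
        have := (hb i).ne'
        field_simp
      have hlW : lam * W = V := by rw [hlam, heq, pow_succ]; field_simp
      have h := main (midSet (polyH u b) (lam • q • L)) (fun i => (b i + lam * cw i) / 2) V hcs
        (by rw [hsum2]; positivity)
        (by rw [hsum2]; linarith [mul_le_mul_of_nonneg_left hXW hlam0.le]) (by
          rintro _ ⟨_, ⟨x, hx, _, ⟨y, hy, rfl⟩, rfl⟩, rfl⟩ i
          rw [real_inner_smul_right, inner_add_right, real_inner_smul_right]
          linarith [hx i, mul_le_mul_of_nonneg_left (hle y (hqL hy) i) hlam0.le])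
      refine le_trans (mul_le_mul_of_nonneg_left ?_ (by positivity)) h
      have h2 := ENNReal.toReal_mono hcs.measure_lt_top.ne (measure_mono (μ := volume) hsub2)
      rwa [Measure.addHaar_smul_of_nonneg _ hq0.le, finrank_euclideanSpace_fin, ENNReal.toReal_mul,
        ENNReal.toReal_ofReal (by positivity)] at h2
  have lim : ∀ A B : ℝ, (∀ l : ℝ, 0 < l → l < 1 →
      (l ^ (j + 1 + 1) * V) ^ (j + 1) * (((l ^ (j + 1)) ^ (j + 1)) ^ (j + 1 + 1) * A) ≤ B) →
      V ^ (j + 1) * A ≤ B := by
    intro A B h
    have t := (by fun_prop : Continuous fun l : ℝ =>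
      (l ^ (j + 1 + 1) * V) ^ (j + 1) * (((l ^ (j + 1)) ^ (j + 1)) ^ (j + 1 + 1) * A)).tendsto 1
    simp only [one_pow, one_mul] at t
    refine le_of_tendsto (t.mono_left (nhdsWithin_le_nhds (s := Iio 1))) ?_
    filter_upwards [self_mem_nhdsWithin, nhdsWithin_le_nhds (eventually_gt_nhds zero_lt_one)]
      with l hl1 hl0 using h l hl0 hl1
  have hCeq : C = c * W ^ (j + 1) := by
    refine le_antisymm ?_ hClow
    refine le_of_mul_le_mul_left ?_ (pow_pos hVp (j + 1))
    refine (lim C _ fun l h1 h2 => (key l h1 h2).1).trans (le_of_eq ?_)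
    rw [pow_succ W (j + 1)]
    nth_rw 2 [heq]
    ring
  refine ⟨hZc, hZv, hZ0, hZs, hCeq, ?_, ?_⟩
  · rw [Measure.addHaar_smul_of_nonneg _ hlam0.le, finrank_euclideanSpace_fin, ENNReal.toReal_mul,
      ENNReal.toReal_ofReal (by positivity), ← hC, hCeq, hlam, heq, div_pow, one_pow]
    simp only [mul_pow, ← pow_mul, div_mul_eq_mul_div, one_mul]
    rw [div_eq_iff (by positivity)]
    ring
  · refine le_of_mul_le_mul_left ?_ (pow_pos hVp (j + 1))
    refine (lim _ _ fun l h1 h2 => (key l h1 h2).2).trans (le_of_eq ?_)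
    ring

end Vale.Agent.P237U
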