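import Vale.Agent.P237U.Three
import Vale.Agent.P237U.EqualityStep

/-!
# The equality case in dimension three
-/

namespace Vale.Agent.P237U

open MeasureTheory Set Metric Filter Topology Vale.Agent.P237 Vale.Agent.P237R
open scoped RealInnerProductSpace ENNReal Pointwise

lemma petty3_pos : 0 < petty3 := by unfold petty3; positivity

lemma volume_ball3 {r : ℝ} (hr : 0 ≤ r) (a : EuclideanSpace ℝ (Fin (1 + 1 + 1))) :
    (volume (closedBall a r)).toReal = 4 * Real.pi / 3 * r ^ 3 := by
  rw [volume_closedBall_eq a hr, kap_eq_unitBallVol (by norm_num)]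
  have h : unitBallVol (1 + 1 + 1) = 4 * Real.pi / 3 := by
    rw [show 1 + 1 + 1 = 3 from rfl, unitBallVol_eq three_pos,
      show ((3 : ℕ) : ℝ) / 2 + 1 = (1 / 2 + 1) + 1 by norm_num,
      Real.Gamma_add_one (by norm_num), Real.Gamma_add_one (by norm_num), Real.Gamma_one_half_eq]
    have := Real.sqrt_pos.2 Real.pi_pos
    field_simp
    rw [Real.sq_sqrt Real.pi_pos.le]
    ring
  rw [h, ENNReal.toReal_ofReal (by positivity)]

lemma eq_closedBall {K : Set (EuclideanSpace ℝ (Fin (1 + 1 + 1)))} (hK : IsCompact K)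
    {a : EuclideanSpace ℝ (Fin (1 + 1 + 1))} {r : ℝ} (hr : 0 < r)
    (hsub : K ⊆ closedBall a r ∨ closedBall a r ⊆ K) (hKi : K ⊆ closure (interior K))
    (hvol : (volume K).toReal = 4 * Real.pi / 3 * r ^ 3) : K = closedBall a r := by
  rw [← volume_ball3 hr.le a, ENNReal.toReal_eq_toReal_iff' hK.measure_lt_top.ne
    measure_closedBall_lt_top.ne] at hvol
  have key : ∀ A B : Set (EuclideanSpace ℝ (Fin (1 + 1 + 1))), IsCompact A → IsCompact B →
      A ⊆ B → volume A = volume B → B ⊆ closure (interior B) → A = B := by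
    intro A B hA hB hAB hv hcl
    refine Subset.antisymm hAB fun x hx => ?_
    by_contra hxA
    have hne : ((interior B) ∩ Aᶜ).Nonempty := by
      obtain ⟨y, hy⟩ := mem_closure_iff.1 (hcl hx) Aᶜ hA.isClosed.isOpen_compl hxA
      exact ⟨y, hy.2, hy.1⟩
    have hpos := (isOpen_interior.inter hA.isClosed.isOpen_compl).measure_pos volume hne
    have h2 : volume A + volume (interior B ∩ Aᶜ) ≤ volume A :=
      calc volume A + volume (interior B ∩ Aᶜ) = volume (A ∪ (interior B ∩ Aᶜ)) :=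
            (measure_union (Set.disjoint_left.2 fun z hz hz' => hz'.2 hz)
              (measurableSet_interior.inter hA.measurableSet.compl)).symm
        _ ≤ volume B := measure_mono (union_subset hAB (inter_subset_left.trans interior_subset))
        _ = volume A := hv.symm
    exact hpos.ne' (le_antisymm
      (ENNReal.le_of_add_le_add_left hA.measure_lt_top.ne (by rwa [add_zero])) zero_le)
  rcases hsub with h | h
  · exact key K _ hK (isCompact_closedBall a r) h hvol (by
      rw [interior_closedBall a hr.ne', closure_ball a hr.ne'])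
  · exact (key _ K (isCompact_closedBall a r) hK h hvol.symm hKi).symm

lemma subset_closure_interior {m : ℕ} {K : Set (EuclideanSpace ℝ (Fin m))} (hc : Convex ℝ K)
    (hi : (interior K).Nonempty) : K ⊆ closure (interior K) := by
  rw [hc.closure_interior_eq_closure_of_nonempty_interior hi]
  exact subset_closure

/-- Equality holds for bodies with smaller projection body. -/
lemma eq_of_le {K : Set (EuclideanSpace ℝ (Fin (1 + 1 + 1)))} (hK : IsCompact K) (hc : Convex ℝ K)
    (hi : (interior K).Nonempty) {v : ℝ}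
    (hle : (volume (projBody K)).toReal ≤ petty3 * v ^ (1 + 1)) (hv : (volume K).toReal = v) :
    (volume (projBody K)).toReal = petty3 * v ^ (1 + 1) := by
  refine le_antisymm hle ?_
  have h := petty_three K hK hc hi
  rw [hv, Nat.add_sub_cancel] at h
  exact (ENNReal.ofReal_le_iff_le_toReal (isCompact_projBody hK).measure_lt_top.ne).1 h

lemma map_equality {K : Set (EuclideanSpace ℝ (Fin (1 + 1 + 1)))} (hK : IsCompact K) (hc : Convex ℝ K)
    (h0 : (0 : EuclideanSpace ℝ (Fin (1 + 1 + 1))) ∈ interior K)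
    (heq : (volume (projBody K)).toReal = petty3 * (volume K).toReal ^ (1 + 1))
    (T : EuclideanSpace ℝ (Fin (1 + 1 + 1)) →ₗ[ℝ] EuclideanSpace ℝ (Fin (1 + 1 + 1)))
    (hT : |LinearMap.det T| = 1) :
    (0 : EuclideanSpace ℝ (Fin (1 + 1 + 1))) ∈ interior (T '' K) ∧
      (volume (T '' K)).toReal = (volume K).toReal ∧
      (volume (projBody (T '' K))).toReal = petty3 * (volume (T '' K)).toReal ^ (1 + 1) := by
  have hne : LinearMap.det T ≠ 0 := fun h => by simp [h] at hT
  have hv : (volume (T '' K)).toReal = (volume K).toReal := by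
    rw [Measure.addHaar_image_linearMap, hT, ENNReal.ofReal_one, one_mul]
  set Te := (LinearMap.equivOfDetNeZero T hne).toContinuousLinearEquiv
  have hint : interior (T '' K) = T '' interior K := (Te.toHomeomorph.image_interior K).symm
  have h00 : (0 : EuclideanSpace ℝ (Fin (1 + 1 + 1))) ∈ interior (T '' K) := by
    rw [hint]; exact ⟨0, h0, map_zero T⟩
  refine ⟨h00, hv, ?_⟩
  rw [hv]
  exact eq_of_le (hK.image T.continuous_of_finiteDimensional) (hc.linear_image T) ⟨_, h00⟩
    ((ENNReal.toReal_mono (isCompact_projBody hK).measure_lt_top.ne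
      (volume_projBody_map_le hK hc h0 T hT)).trans_eq heq) hv

lemma sliceInt_le_shadow {K : Set (EuclideanSpace ℝ (Fin (1 + 1 + 1)))} (hK : IsCompact K)
    (hc : Convex ℝ K) (h0 : (0 : EuclideanSpace ℝ (Fin (1 + 1 + 1))) ∈ interior K) :
    4 * sliceInt K ^ (1 + 1) ≤ (volume (etail (1 + 1) '' projBody K)).toReal := by
  have hfin : volume (etail (1 + 1) '' projBody K) ≠ ⊤ :=
    ((isCompact_projBody hK).image (continuous_etail _)).measure_lt_top.ne
  have h4 : LowerBound (1 + 1) 4 := by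
    have h := lowerBound_all 0
    simpa [lowerConst] using h
  refine (ENNReal.ofReal_le_iff_le_toReal hfin).1 ?_
  refine (flatBody_ge hK hc ⟨0, h0⟩ (by norm_num) h4).trans ?_
  have hlim : Tendsto (fun l : ℝ => ENNReal.ofReal ((l ^ (1 + 1)) ^ (1 + 1)) * volume (flatBody K))
      (𝓝[<] 1) (𝓝 (volume (flatBody K))) := by
    have h := (ENNReal.continuous_ofReal.comp
      (by fun_prop : Continuous fun l : ℝ => (l ^ (1 + 1)) ^ (1 + 1))).tendsto 1
    simp only [Function.comp_apply, one_pow, ENNReal.ofReal_one] at h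
    have h2 := ENNReal.Tendsto.mul_const (b := volume (flatBody K)) h (Or.inl one_ne_zero)
    rw [one_mul] at h2
    exact h2.mono_left nhdsWithin_le_nhds
  refine le_of_tendsto hlim ?_
  filter_upwards [self_mem_nhdsWithin, nhdsWithin_le_nhds (eventually_ge_nhds zero_lt_one)]
    with l hl1 hl0
  obtain ⟨M, hM, u, b, hb, hP, hlow, hsub⟩ := exists_polyH hK hc h0 hl0 hl1
  have hsub2 : (l ^ (1 + 1)) • flatBody K ⊆ etail (1 + 1) '' projBody K := by
    refine subset_trans ?_ ((flatBody_subset u b hb hP).trans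
      (image_mono ((zono_subset_projBody u b hb hP).trans (projBody_mono hsub))))
    rintro _ ⟨y, hy, rfl⟩ w hw
    have he : ‖econs 0 w‖ = 1 := by
      have h := norm_econs_sq 0 w
      rw [hw] at h
      nlinarith [norm_nonneg (econs 0 w), h]
    have e : (fun x => l • x + (0 : EuclideanSpace ℝ (Fin (1 + 1 + 1)))) '' K = l • K := by
      simp [← Set.image_smul]
    rw [real_inner_smul_right, ENNReal.ofReal_mul (by positivity)]
    refine (mul_le_mul_right (hy w hw) _).trans ?_
    rw [← projVolume_scale hK hl0 0 he, e]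
    refine measure_mono ?_
    rintro z ⟨x, hx, s, hs, rfl⟩
    exact ⟨x, hlow hx, s, hs, rfl⟩
  have h := measure_mono (μ := volume) hsub2
  rwa [Measure.addHaar_smul_of_nonneg _ (by positivity), finrank_euclideanSpace_fin] at h

lemma exists_inradius {K : Set (EuclideanSpace ℝ (Fin (1 + 1 + 1)))} (hK : IsCompact K)
    (hc : Convex ℝ K) (h0 : (0 : EuclideanSpace ℝ (Fin (1 + 1 + 1))) ∈ interior K) :
    ∃ (r : ℝ) (v : EuclideanSpace ℝ (Fin (1 + 1 + 1))), 0 < r ∧ ‖v‖ = 1 ∧ closedBall 0 r ⊆ K ∧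
      ∀ x ∈ K, ⟪v, x⟫ ≤ r := by
  have hfr : (frontier K).Nonempty := nonempty_frontier_iff.2
    ⟨⟨0, interior_subset h0⟩, fun h => noncompact_univ (EuclideanSpace ℝ (Fin (1 + 1 + 1))) (h ▸ hK)⟩
  obtain ⟨p, hp, hmin⟩ := (hK.of_isClosed_subset isClosed_frontier hK.isClosed.frontier_subset).exists_isMinOn
    hfr continuous_norm.continuousOn
  have hp0 : p ≠ 0 := fun h => hp.2 (h ▸ h0)
  set r := ‖p‖ with hr
  have hr0 : 0 < r := norm_pos_iff.2 hp0
  have hball : ball 0 r ⊆ interior K := by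
    intro z hz
    have hpre : ball (0 : EuclideanSpace ℝ (Fin (1 + 1 + 1))) r ⊆ interior K ∪ (closure K)ᶜ :=
      fun w hw => by
        by_cases h1 : w ∈ interior K
        · exact Or.inl h1
        · refine Or.inr fun h2 => ?_
          have h3 : r ≤ ‖w‖ := hmin ⟨h2, h1⟩
          exact absurd (mem_ball_zero_iff.1 hw) (not_lt.2 h3)
    rcases (convex_ball (0 : EuclideanSpace ℝ (Fin (1 + 1 + 1))) r).isPreconnected.subset_or_subset
      isOpen_interior isClosed_closure.isOpen_compl
      (Set.disjoint_left.2 fun w hw hw' => hw' (subset_closure (interior_subset hw))) hpre with h | h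
    · exact h hz
    · exact absurd (subset_closure (interior_subset h0)) (h (mem_ball_self hr0))
  have hcb : closedBall 0 r ⊆ K := by
    rw [← closure_ball (0 : EuclideanSpace ℝ (Fin (1 + 1 + 1))) hr0.ne']
    exact hK.isClosed.closure_subset_iff.2 (hball.trans interior_subset)
  obtain ⟨f, hf⟩ := geometric_hahn_banach_open_point hc.interior isOpen_interior hp.2
  set z := (InnerProductSpace.toDual ℝ (EuclideanSpace ℝ (Fin (1 + 1 + 1)))).symm f with hz
  have hfz : ∀ a, f a = ⟪z, a⟫ := fun a => by rw [hz, InnerProductSpace.toDual_symm_apply]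
  have hzp : 0 < ⟪z, p⟫ := by
    have h := hf 0 h0
    rwa [map_zero, hfz] at h
  have hz0 : z ≠ 0 := fun h => by simp [h] at hzp
  have hzn : 0 < ‖z‖ := norm_pos_iff.2 hz0
  refine ⟨r, ‖z‖⁻¹ • z, hr0, by simp [norm_smul, hz0], hcb, fun x hx => ?_⟩
  have hle : ⟪z, x⟫ ≤ ⟪z, p⟫ := by
    have hcl : closure (interior K) ⊆ {y | ⟪z, y⟫ ≤ ⟪z, p⟫} := closure_minimal
      (fun y hy => (by rw [← hfz, ← hfz]; exact (hf y hy).le : ⟪z, y⟫ ≤ ⟪z, p⟫))
      (isClosed_le (by fun_prop) continuous_const)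
    exact hcl (subset_closure_interior hc ⟨0, h0⟩ hx)
  rw [real_inner_smul_left, inv_mul_le_iff₀ hzn]
  exact hle.trans (real_inner_le_norm z p)

/-- Symmetric bodies with equality are ellipsoids. -/
theorem symmetric_equality {K : Set (EuclideanSpace ℝ (Fin (1 + 1 + 1)))} (hK : IsCompact K)
    (hc : Convex ℝ K) (h0 : (0 : EuclideanSpace ℝ (Fin (1 + 1 + 1))) ∈ interior K)
    (hs : ∀ x ∈ K, -x ∈ K)
    (heq : (volume (projBody K)).toReal = petty3 * (volume K).toReal ^ (1 + 1)) :
    ∃ (A : EuclideanSpace ℝ (Fin (1 + 1 + 1)) ≃ₗ[ℝ] EuclideanSpace ℝ (Fin (1 + 1 + 1))),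
      K = A '' closedBall 0 1 := by
  obtain ⟨T, c, hT, hiso⟩ := exists_isotropic (n := 1 + 1 + 1) (by norm_num) hK ⟨0, h0⟩
  have hne : LinearMap.det T ≠ 0 := fun h => by simp [h] at hT
  set Te := LinearMap.equivOfDetNeZero T hne
  set K1 := T '' K with hK1
  obtain ⟨h01, hv1, heq1⟩ := map_equality hK hc h0 heq T hT
  have hc1 : IsCompact K1 := hK.image T.continuous_of_finiteDimensional
  have hx1 : Convex ℝ K1 := hc.linear_image T
  obtain ⟨r, v, hr, hv, hball, hsupp⟩ := exists_inradius hc1 hx1 h01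
  obtain ⟨R, hR⟩ := exists_align v
  rw [hv, one_smul] at hR
  set K2 := R '' K1 with hK2
  have hK2' : K2 = R.toLinearEquiv.toLinearMap '' K1 := rfl
  obtain ⟨h02, hv2, heq2⟩ := map_equality hc1 hx1 h01 heq1 R.toLinearEquiv.toLinearMap
    (abs_det_isometry R)
  rw [← hK2'] at h02 hv2 heq2
  have hc2 : IsCompact K2 := hc1.image R.continuous
  have hx2 : Convex ℝ K2 := hx1.linear_image R.toLinearEquiv.toLinearMap
  have hs2 : ∀ x ∈ K2, -x ∈ K2 := by
    rintro _ ⟨_, ⟨y, hy, rfl⟩, rfl⟩
    exact ⟨_, ⟨-y, hs y hy, rfl⟩, by rw [map_neg, map_neg]⟩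
  have hball2 : closedBall 0 r ⊆ K2 := fun x hx =>
    ⟨R.symm x, hball (by simpa using hx), R.apply_symm_apply x⟩
  have hslab : ∀ x ∈ K2, |x 0| ≤ r := by
    have key : ∀ y ∈ K1, R y 0 ≤ r := fun y hy => by
      have h := hsupp y hy
      rw [← R.inner_map_map, hR] at h
      simpa [e0, EuclideanSpace.inner_single_left] using h
    rintro _ ⟨y, hy, rfl⟩
    refine abs_le.2 ⟨?_, key y hy⟩
    obtain ⟨y', hy', rfl⟩ := hy
    have := key (-T y') ⟨-y', hs y' hy', map_neg T y'⟩
    rw [map_neg, PiLp.neg_apply] at this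
    linarith
  have hiso2 : ∀ w, ∫ x in K2, ⟪w, x⟫ ^ 2 = c * ‖w‖ ^ 2 := fun w => by
    have h := hiso (R.symm w)
    rw [LinearIsometryEquiv.norm_map] at h
    rw [← h, hK2, R.measurePreserving.setIntegral_image_emb R.toHomeomorph.measurableEmbedding]
    refine setIntegral_congr_fun hc1.measurableSet fun y _ => ?_
    conv_lhs => rw [← R.apply_symm_apply w, R.inner_map_map]
  obtain ⟨hZc, hZv, hZ0, hZs, -, hLv, hmid⟩ := equality_step petty3_pos petty_three hc2 hx2 h02 heq2
  set V := (volume K2).toReal with hV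
  have hVp : 0 < V := toReal_pos_of_interior (n := 2) hc2 ⟨0, h02⟩
  set lam := 1 / (petty3 * V ^ 1) with hlam
  set L := projBody (projBody K2) with hL
  have hLc : IsCompact L := isCompact_projBody hZc
  have hLx : Convex ℝ (lam • L) := (convex_projBody hZc).smul lam
  have hLi : (interior (lam • L)).Nonempty :=
    interior_nonempty_of_volume_pos hLx (by rw [hLv]; exact hVp)
  obtain ⟨d, hd1, hd2, -⟩ := heights_of_mid_le (n := 1 + 1) hc2 hx2 ⟨0, h02⟩ (hLc.smul lam) hLx hLi
    hLv hmid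
  have hLs : ∀ x ∈ lam • L, -x ∈ lam • L := by
    rintro _ ⟨y, hy, rfl⟩
    exact ⟨-y, neg_mem_projBody hZc hy, smul_neg _ _⟩
  rw [sLo_eq_neg (hLc.smul lam) (hLi.mono interior_subset) hLs,
    sLo_eq_neg hc2 ⟨0, interior_subset h02⟩ hs2] at hd2
  obtain ⟨hhi, -⟩ := height_eq_of_ball hc2 hr.le hball2 hslab
  have hLne : L.Nonempty := by
    obtain ⟨x, y, hy, -⟩ := hLi.mono interior_subset
    exact ⟨y, hy⟩
  obtain ⟨p, hp, hp0⟩ := exists_hi hLc hLne
  have hup : lam * sHi L ≤ r := by
    have h := (height_mem (hLc.smul lam) (smul_mem_smul_set hp : lam • p ∈ lam • L)).2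
    rw [PiLp.smul_apply, smul_eq_mul, hp0] at h
    linarith
  have hslice : 4 * sliceInt K2 ^ (1 + 1) ≤ 3 * Real.pi ^ 2 / 4 * r * V := by
    have h1 := (sliceInt_le_shadow hc2 hx2 h02).trans
      (shadow_le_sHi_projBody hZc hZv ⟨0, hZ0⟩ hZs)
    refine h1.trans ?_
    rw [hlam, pow_one, div_mul_eq_mul_div, one_mul,
      div_le_iff₀ (mul_pos petty3_pos hVp)] at hup
    simp only [petty3] at hup
    linarith
  have hvol := volume_of_sliceInt_le hc2 hx2 hs2 hr hball2 hslab hiso2 hslice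
  have hK2eq := eq_closedBall hc2 hr (Or.inr hball2) (subset_closure_interior hx2 ⟨0, h02⟩) hvol
  refine ⟨((LinearEquiv.smulOfNeZero ℝ _ r hr.ne').trans R.symm.toLinearEquiv).trans Te.symm, ?_⟩
  have hb : closedBall (0 : EuclideanSpace ℝ (Fin (1 + 1 + 1))) r = r • closedBall 0 1 := by
    rw [smul_unitClosedBall, Real.norm_of_nonneg hr.le]
  ext x
  constructor
  · intro hx
    have h : R (T x) ∈ K2 := ⟨_, ⟨x, hx, rfl⟩, rfl⟩
    rw [hK2eq, hb] at h
    obtain ⟨y, hy, hye⟩ := h
    refine ⟨y, hy, ?_⟩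
    change Te.symm (R.symm (r • y)) = x
    rw [show r • y = R (T x) from hye, R.symm_apply_apply]
    exact Te.symm_apply_apply x
  · rintro ⟨y, hy, rfl⟩
    have h : r • y ∈ K2 := by rw [hK2eq, hb]; exact smul_mem_smul_set hy
    obtain ⟨_, ⟨x, hx, rfl⟩, hxe⟩ := h
    change Te.symm (R.symm (r • y)) ∈ K
    rw [← hxe, R.symm_apply_apply]
    rwa [show Te.symm (T x) = x from Te.symm_apply_apply x]

end Vale.Agent.P237U
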