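import Vale.Agent.P237U.Equality

/-!
# The complete equality case in dimension three
-/

namespace Vale.Agent.P237U

open MeasureTheory Set Metric Filter Topology Vale.Agent.P237 Vale.Agent.P237R
open scoped RealInnerProductSpace ENNReal Pointwise

lemma setIntegral_height_shift {n : ℕ} {K : Set (EuclideanSpace ℝ (Fin (n + 1)))} (hK : IsCompact K) :
    ∫ x in K, (x 0 - sLo K) = ∫ t in Icc (sLo K) (sHi K), (t - sLo K) * sv K t := by
  have hf : Continuous fun x : EuclideanSpace ℝ (Fin (n + 1)) => x 0 - sLo K :=
    continuous_height.sub continuous_const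
  have h1 : 0 ≤ᵐ[volume.restrict K] fun x : EuclideanSpace ℝ (Fin (n + 1)) => x 0 - sLo K := by
    filter_upwards [ae_restrict_mem hK.measurableSet] with x hx using sub_nonneg.2 (height_mem hK hx).1
  have h2 : 0 ≤ᵐ[volume.restrict (Icc (sLo K) (sHi K))] fun t => (t - sLo K) * sv K t := by
    filter_upwards [ae_restrict_mem measurableSet_Icc] with t ht
    exact mul_nonneg (sub_nonneg.2 ht.1) (sv_nonneg t)
  have h3 : Measurable fun t : ℝ => (t - sLo K) * sv K t :=
    (measurable_id.sub_const _).mul (measurable_sv hK)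
  rw [integral_eq_lintegral_of_nonneg_ae h1 hf.aestronglyMeasurable.restrict,
    integral_eq_lintegral_of_nonneg_ae h2 h3.aestronglyMeasurable.restrict]
  congr 1
  have hm : Measurable fun x : EuclideanSpace ℝ (Fin (n + 1)) => ENNReal.ofReal (x 0 - sLo K) :=
    hf.measurable.ennreal_ofReal
  rw [← lintegral_indicator hK.measurableSet, lintegral_econs (hm.indicator hK.measurableSet),
    ← lintegral_indicator measurableSet_Icc]
  refine lintegral_congr fun t => ?_
  by_cases ht : t ∈ Icc (sLo K) (sHi K)
  · rw [indicator_of_mem ht, ENNReal.ofReal_mul (sub_nonneg.2 ht.1), sv,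
      ENNReal.ofReal_toReal (isCompact_slice hK t).measure_lt_top.ne,
      ← lintegral_indicator_const (isCompact_slice hK t).measurableSet]
    refine lintegral_congr fun y => ?_
    by_cases hy : econs t y ∈ K
    · rw [indicator_of_mem hy, indicator_of_mem (show y ∈ slice K t from hy), econs_apply_zero]
    · rw [indicator_of_notMem hy, indicator_of_notMem (show y ∉ slice K t from hy)]
  · rw [indicator_of_notMem ht]
    refine (lintegral_congr fun y => indicator_of_notMem (fun h => ht ?_) _).trans lintegral_zero
    simpa [econs_apply_zero] using height_mem hK h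

lemma setIntegral_height {n : ℕ} {K : Set (EuclideanSpace ℝ (Fin (n + 1)))} (hK : IsCompact K)
    (hne : K.Nonempty) : ∫ x in K, x 0 = ∫ t in (sLo K)..(sHi K), t * sv K t := by
  obtain ⟨p, hp, hp0⟩ := exists_lo hK hne
  have hle : sLo K ≤ sHi K := by
    have := height_mem hK hp
    linarith [this.1, this.2]
  have hint : IntegrableOn (fun x : EuclideanSpace ℝ (Fin (n + 1)) => x 0) K :=
    continuous_height.continuousOn.integrableOn_compact hK
  have hint2 : IntervalIntegrable (fun t => t * sv K t) volume (sLo K) (sHi K) :=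
    (intervalIntegrable_sv hK _ _).continuousOn_mul continuousOn_id
  have key := setIntegral_height_shift hK
  rw [integral_Icc_eq_integral_Ioc, ← intervalIntegral.integral_of_le hle,
    integral_sub hint (integrableOn_const hK.measure_lt_top.ne)] at key
  simp only [sub_mul] at key
  rw [intervalIntegral.integral_sub hint2 ((intervalIntegrable_sv hK _ _).const_mul _),
    intervalIntegral.integral_const_mul, integral_sv hK hne, setIntegral_const, smul_eq_mul,
    measureReal_def] at key
  linarith

lemma height_moment_ball {n : ℕ} :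
    ∫ x in closedBall (0 : EuclideanSpace ℝ (Fin (n + 1))) 1, x 0 = 0 := by
  set B := closedBall (0 : EuclideanSpace ℝ (Fin (n + 1))) 1
  have hne : B.Nonempty := ⟨0, mem_closedBall_self zero_le_one⟩
  have hc : IsCompact B := isCompact_closedBall 0 1
  have hs : ∀ x ∈ B, -x ∈ B := fun x hx => by simpa [B] using hx
  rw [setIntegral_height hc hne, sLo_eq_neg hc hne hs]
  have h := intervalIntegral.integral_comp_neg (fun t => t * sv B t) (a := -sHi B) (b := sHi B)
  simp only [sv_even hs, neg_mul, intervalIntegral.integral_neg, neg_neg] at h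
  linarith

lemma sHi_closedBall {n : ℕ} : sHi (closedBall (0 : EuclideanSpace ℝ (Fin (n + 1))) 1) = 1 := by
  set B := closedBall (0 : EuclideanSpace ℝ (Fin (n + 1))) 1
  obtain ⟨p, hp, hp0⟩ := exists_hi (isCompact_closedBall (0 : EuclideanSpace ℝ (Fin (n + 1))) 1)
    ⟨0, mem_closedBall_self zero_le_one⟩
  refine le_antisymm ?_ ?_
  · have h := (abs_le.1 ((PiLp.norm_apply_le p 0).trans (mem_closedBall_zero_iff.1 hp))).2
    linarith
  · have h := (height_mem (isCompact_closedBall (0 : EuclideanSpace ℝ (Fin (n + 1))) 1)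
      (show e0 n ∈ B from by simp [B, e0])).2
    simpa [e0] using h

/-- A body of the volume of the ball with no gain at the midpoint is a translated ball. -/
lemma eq_ball_of_mid {K : Set (EuclideanSpace ℝ (Fin (1 + 1 + 1)))} (hK : IsCompact K)
    (hc : Convex ℝ K) (hi : (interior K).Nonempty)
    (hvol : (volume (closedBall (0 : EuclideanSpace ℝ (Fin (1 + 1 + 1))) 1)).toReal = (volume K).toReal)
    (hmid : (volume (midSet K (closedBall 0 1))).toReal ≤ (volume K).toReal) :
    ∃ g, K = closedBall g 1 := by
  set V := (volume K).toReal with hV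
  have hVp : 0 < V := toReal_pos_of_interior (n := 2) hK hi
  set g := V⁻¹ • ∫ x in K, x with hg
  refine ⟨g, eq_closedBall hK one_pos (Or.inl fun x hx => ?_) (subset_closure_interior hc hi)
    (hvol.symm.trans (volume_ball3 zero_le_one 0))⟩
  rw [mem_closedBall_iff_norm]
  rcases eq_or_ne (x - g) 0 with h0 | h0
  · simp [h0]
  set v := ‖x - g‖⁻¹ • (x - g) with hv
  have hv1 : ‖v‖ = 1 := by simp [hv, norm_smul, h0]
  obtain ⟨R, hR⟩ := exists_align v
  rw [hv1, one_smul] at hR
  set B := closedBall (0 : EuclideanSpace ℝ (Fin (1 + 1 + 1))) 1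
  have hRB : R '' B = B := by simp [B, LinearIsometryEquiv.image_closedBall]
  have hK' : IsCompact (R '' K) := hK.image R.continuous
  have hKi' : (interior (R '' K)).Nonempty := by
    rw [show interior (R '' K) = R '' interior K from (R.toHomeomorph.image_interior K).symm]
    exact hi.image _
  have hBi : (interior B).Nonempty := ⟨0, ball_subset_interior_closedBall (mem_ball_self one_pos)⟩
  obtain ⟨d, hd1, hd2, hsv⟩ := heights_of_mid_le (n := 1 + 1) hK'
    (hc.linear_image R.toLinearEquiv.toLinearMap) hKi' (isCompact_closedBall _ _) (convex_closedBall _ _) hBi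
    (by rw [volume_image_isometry]; exact hvol) (by
      rw [volume_image_isometry]
      refine le_of_eq_of_le ?_ hmid
      change (volume (midSet (R '' K) B)).toReal = _
      conv_lhs => rw [← hRB]
      rw [show midSet (R '' K) (R '' B) = R '' midSet K B from ?_, volume_image_isometry]
      change (1 / 2 : ℝ) • (R.toLinearEquiv.toLinearMap '' K + R.toLinearEquiv.toLinearMap '' B)
        = R.toLinearEquiv.toLinearMap '' ((1 / 2 : ℝ) • (K + B))
      rw [image_smul_set, Set.image_add])
  rw [sHi_closedBall] at hd1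
  have hne' : (R '' K).Nonempty := hKi'.mono interior_subset
  have hmom : ∫ y in R '' K, y 0 = -(d * V) := by
    have h0' := height_moment_ball (n := 1 + 1)
    rw [setIntegral_height (isCompact_closedBall _ _) (hBi.mono interior_subset)] at h0'
    rw [setIntegral_height hK' hne']
    change ∫ t in (sLo B)..(sHi B), t * sv B t = 0 at h0'
    have hsub := intervalIntegral.integral_comp_add_right (fun t => t * sv B t) d
      (a := sLo (R '' K)) (b := sHi (R '' K))
    rw [← hd2, ← hd1] at hsub
    have hB1 : sHi B = 1 := sHi_closedBall (n := 1 + 1)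
    rw [hB1] at h0'
    rw [h0'] at hsub
    have heq : ∫ t in (sLo (R '' K))..(sHi (R '' K)), (t + d) * sv B (t + d)
        = ∫ t in (sLo (R '' K))..(sHi (R '' K)), (t * sv (R '' K) t + d * sv (R '' K) t) := by
      refine intervalIntegral.integral_congr_ae ?_
      filter_upwards [compl_mem_ae_iff.2 (Real.volume_singleton (a := sHi (R '' K)))] with t hne ht
      rw [uIoc_of_le (sLo_lt_sHi hK' hKi').le] at ht
      rw [hsv t ⟨ht.1, lt_of_le_of_ne ht.2 hne⟩, add_mul]
    have hmul : IntervalIntegrable (fun t => t * sv (R '' K) t) volume (sLo (R '' K)) (sHi (R '' K)) :=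
      (intervalIntegrable_sv hK' _ _).continuousOn_mul continuousOn_id
    rw [heq, intervalIntegral.integral_add hmul
      ((intervalIntegrable_sv hK' _ _).const_mul d), intervalIntegral.integral_const_mul,
      integral_sv hK' hne', volume_image_isometry, ← hV] at hsub
    linarith
  have hcoord : ∀ z, ⟪v, z⟫ = R z 0 := fun z => by
    rw [← R.inner_map_map v z, hR]
    simp [e0, EuclideanSpace.inner_single_left]
  have hgv : ⟪v, g⟫ = -d := by
    have hid : IntegrableOn (fun x : EuclideanSpace ℝ (Fin (1 + 1 + 1)) => x) K :=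
      continuous_id.continuousOn.integrableOn_compact hK
    rw [hg, real_inner_smul_right, ← integral_inner (𝕜 := ℝ) hid v]
    simp only [hcoord]
    rw [← R.measurePreserving.setIntegral_image_emb R.toHomeomorph.measurableEmbedding (fun y => y 0),
      hmom]
    field_simp
  have hle : ⟪v, x⟫ ≤ sHi (R '' K) := by
    rw [hcoord]; exact (height_mem hK' ⟨x, hx, rfl⟩).2
  have hxv : ⟪v, x - g⟫ = ‖x - g‖ := by
    rw [hv, real_inner_smul_left, real_inner_self_eq_norm_sq]
    field_simp
  rw [inner_sub_right, hgv] at hxv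
  linarith

/-- Bodies with equality are ellipsoids. -/
theorem ellipsoid_of_equality {K : Set (EuclideanSpace ℝ (Fin (1 + 1 + 1)))} (hK : IsCompact K)
    (hc : Convex ℝ K) (hi : (interior K).Nonempty)
    (heq : (volume (projBody K)).toReal = petty3 * (volume K).toReal ^ (1 + 1)) :
    ∃ (a : EuclideanSpace ℝ (Fin (1 + 1 + 1)))
      (T : EuclideanSpace ℝ (Fin (1 + 1 + 1)) ≃ₗ[ℝ] EuclideanSpace ℝ (Fin (1 + 1 + 1))),
      K = (fun x => a + T x) '' closedBall 0 1 := by
  obtain ⟨x₀, hx₀⟩ := hi
  set K₀ := (fun x => x + x₀) ⁻¹' K with hK₀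
  have hK₀c : IsCompact K₀ := (Homeomorph.addRight x₀).isCompact_preimage.2 hK
  have hK₀v : Convex ℝ K₀ := hc.translate_preimage_left x₀
  have h0 : (0 : EuclideanSpace ℝ (Fin (1 + 1 + 1))) ∈ interior K₀ := by
    have he : interior K₀ = (fun x => x + x₀) ⁻¹' interior K :=
      ((Homeomorph.addRight x₀).preimage_interior K).symm
    rw [he]
    simpa using hx₀
  have hv0 : (volume K₀).toReal = (volume K).toReal := by rw [hK₀, measure_preimage_add_right]
  obtain ⟨hZc, hZv, hZ0, hZs, hZe, hLv, hmid⟩ := equality_step petty3_pos petty_three hK₀c hK₀v h0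
    (by rw [hK₀, projBody_shift, ← hK₀, hv0]; exact heq)
  obtain ⟨hLc, hLx, hL0, hLs, hLe, -, -⟩ := equality_step petty3_pos petty_three hZc hZv hZ0 hZe
  obtain ⟨A, hA⟩ := symmetric_equality hLc hLx hL0 hLs hLe
  set lam := 1 / (petty3 * (volume K₀).toReal ^ 1) with hlam
  have hlam0 : lam ≠ 0 := by
    have := petty3_pos
    have := toReal_pos_of_interior (n := 2) hK₀c ⟨0, h0⟩
    positivity
  set A' := A.trans (LinearEquiv.smulOfNeZero ℝ _ lam hlam0) with hA'
  set B := closedBall (0 : EuclideanSpace ℝ (Fin (1 + 1 + 1))) 1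
  have hLam : lam • projBody (projBody K₀) = A'.toLinearMap '' B := by
    rw [hA, ← Set.image_smul, Set.image_image]
    rfl
  rw [hLam] at hLv hmid
  set M := A'.symm.toLinearMap with hM
  set K' := M '' K₀ with hK'
  have hMB : M '' (A'.toLinearMap '' B) = B := by
    rw [Set.image_image]
    simp [hM]
  have hdM : 0 ≤ |LinearMap.det M| := abs_nonneg _
  have hi' : (interior K').Nonempty := by
    rw [hK', show interior (M '' K₀) = M '' interior K₀ from
      (A'.symm.toContinuousLinearEquiv.toHomeomorph.image_interior K₀).symm]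
    exact ⟨_, mem_image_of_mem M h0⟩
  obtain ⟨g, hg⟩ := eq_ball_of_mid (hK₀c.image M.continuous_of_finiteDimensional)
    (hK₀v.linear_image M) hi' (by
      change (volume B).toReal = _
      rw [← hMB, Measure.addHaar_image_linearMap volume M, Measure.addHaar_image_linearMap volume M K₀,
        ENNReal.toReal_mul, ENNReal.toReal_mul, hLv]) (by
      change (volume (midSet (M '' K₀) B)).toReal ≤ _
      rw [← hMB, show midSet (M '' K₀) (M '' (A'.toLinearMap '' B))
        = M '' midSet K₀ (A'.toLinearMap '' B) by
          rw [midSet, midSet, image_smul_set, Set.image_add],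
        Measure.addHaar_image_linearMap, Measure.addHaar_image_linearMap volume M K₀,
        ENNReal.toReal_mul, ENNReal.toReal_mul]
      exact mul_le_mul_of_nonneg_left hmid ENNReal.toReal_nonneg)
  refine ⟨x₀ + A' g, A', ?_⟩
  ext x
  constructor
  · intro hx
    have h : M (x - x₀) ∈ M '' K₀ := mem_image_of_mem M (by simpa [hK₀] using hx)
    rw [hg, mem_closedBall_iff_norm] at h
    refine ⟨M (x - x₀) - g, by simpa [B] using h, ?_⟩
    simp only [hM, map_sub, LinearEquiv.coe_coe, LinearEquiv.apply_symm_apply]
    abel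
  · rintro ⟨y, hy, rfl⟩
    have h : g + y ∈ M '' K₀ := by
      rw [hg, mem_closedBall_iff_norm]; simpa [B] using hy
    obtain ⟨z, hz, hze⟩ := h
    have hz' : z = A' (g + y) := by rw [← hze]; simp [hM]
    rw [hz'] at hz
    simp only [hK₀, mem_preimage, map_add] at hz
    convert hz using 1
    abel

end Vale.Agent.P237U
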