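import Vale.Agent.P237U.Mid

/-!
# The isotropic position of a body
-/

namespace Vale.Agent.P237U

open MeasureTheory Set Metric Filter Topology Vale.Agent.P237 Vale.Agent.P237R
open scoped RealInnerProductSpace ENNReal Pointwise

variable {n : ℕ} {K : Set (EuclideanSpace ℝ (Fin n))}

/-- The second moment operator of a set. -/
noncomputable def momOp (K : Set (EuclideanSpace ℝ (Fin n))) (v : EuclideanSpace ℝ (Fin n)) :
    EuclideanSpace ℝ (Fin n) :=
  ∫ x in K, ⟪v, x⟫ • x

lemma integrableOn_momOp (hK : IsCompact K) (v : EuclideanSpace ℝ (Fin n)) :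
    IntegrableOn (fun x => ⟪v, x⟫ • x) K :=
  (by fun_prop : Continuous fun x : EuclideanSpace ℝ (Fin n) => ⟪v, x⟫ • x).continuousOn
    |>.integrableOn_compact hK

lemma inner_momOp (hK : IsCompact K) (v w : EuclideanSpace ℝ (Fin n)) :
    ⟪momOp K v, w⟫ = ∫ x in K, ⟪v, x⟫ * ⟪w, x⟫ := by
  rw [real_inner_comm, momOp, ← integral_inner (integrableOn_momOp hK v)]
  simp [real_inner_smul_right]

lemma quad_pos (hK : IsCompact K) (hi : (interior K).Nonempty) {v : EuclideanSpace ℝ (Fin n)}
    (hv : v ≠ 0) : 0 < ∫ x in K, ⟪v, x⟫ ^ 2 := by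
  have hc : Continuous fun x : EuclideanSpace ℝ (Fin n) => ⟪v, x⟫ ^ 2 := by fun_prop
  rw [setIntegral_pos_iff_support_of_nonneg_ae (Eventually.of_forall fun x => sq_nonneg _)
    (hc.continuousOn.integrableOn_compact hK)]
  obtain ⟨x, hx⟩ := hi
  obtain ⟨ρ, hρ, hball⟩ := Metric.isOpen_iff.1 isOpen_interior x hx
  have hv0 : 0 < ⟪v, v⟫ := real_inner_self_pos.2 hv
  have hne : (Function.support (fun x : EuclideanSpace ℝ (Fin n) => ⟪v, x⟫ ^ 2) ∩ interior K).Nonempty := by
    by_cases h : ⟪v, x⟫ = 0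
    · have hn : 0 < ‖v‖ := norm_pos_iff.2 hv
      refine ⟨x + (ρ / (2 * ‖v‖)) • v, ?_, hball ?_⟩
      · rw [Function.mem_support, inner_add_right, real_inner_smul_right, h, zero_add]
        positivity
      · rw [mem_ball_iff_norm, add_sub_cancel_left, norm_smul,
          Real.norm_of_nonneg (by positivity), div_mul_eq_mul_div, div_lt_iff₀ (by positivity)]
        nlinarith
    · exact ⟨x, by simpa using h, hx⟩
  exact (((isOpen_compl_singleton.preimage hc).inter isOpen_interior).measure_pos volume hne).trans_le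
    (measure_mono (inter_subset_inter_right _ interior_subset))

/-- A volume preserving linear image has equal second moments in all directions. -/
theorem exists_isotropic (hn : 0 < n) (hK : IsCompact K) (hi : (interior K).Nonempty) :
    ∃ (T : EuclideanSpace ℝ (Fin n) →ₗ[ℝ] EuclideanSpace ℝ (Fin n)) (c : ℝ),
      |LinearMap.det T| = 1 ∧ ∀ v, ∫ y in T '' K, ⟪v, y⟫ ^ 2 = c * ‖v‖ ^ 2 := by
  let A : EuclideanSpace ℝ (Fin n) →ₗ[ℝ] EuclideanSpace ℝ (Fin n) :=
    { toFun := momOp K
      map_add' := fun v w => by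
        refine ext_inner_right ℝ fun z => ?_
        rw [inner_add_left, inner_momOp hK, inner_momOp hK, inner_momOp hK]
        simp only [inner_add_left, add_mul]
        exact integral_add
          ((by fun_prop : Continuous fun x : EuclideanSpace ℝ (Fin n) => ⟪v, x⟫ * ⟪z, x⟫).continuousOn.integrableOn_compact hK)
          ((by fun_prop : Continuous fun x : EuclideanSpace ℝ (Fin n) => ⟪w, x⟫ * ⟪z, x⟫).continuousOn.integrableOn_compact hK)
      map_smul' := fun r v => by
        refine ext_inner_right ℝ fun z => ?_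
        simp only [RingHom.id_apply, real_inner_smul_left, inner_momOp hK, mul_assoc]
        rw [← integral_const_mul] }
  have hA : A.IsSymmetric := fun v w => by
    change ⟪momOp K v, w⟫ = ⟪v, momOp K w⟫
    rw [real_inner_comm (momOp K w) v, inner_momOp hK, inner_momOp hK]
    simp_rw [mul_comm]
  have hfr : Module.finrank ℝ (EuclideanSpace ℝ (Fin n)) = n := finrank_euclideanSpace_fin
  set e := hA.eigenvectorBasis hfr with he
  set l := hA.eigenvalues hfr with hl
  have hAe : ∀ i, momOp K (e i) = l i • e i := fun i => hA.apply_eigenvectorBasis hfr i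
  have hlp : ∀ i, 0 < l i := fun i => by
    have h := inner_momOp hK (e i) (e i)
    rw [hAe, real_inner_smul_left, real_inner_self_eq_norm_sq, e.orthonormal.1 i] at h
    rw [show l i = ∫ x in K, ⟪e i, x⟫ ^ 2 by simpa [sq] using h]
    exact quad_pos hK hi (norm_ne_zero_iff.1 (by rw [e.orthonormal.1 i]; exact one_ne_zero))
  set std := EuclideanSpace.basisFun (Fin n) ℝ
  set Q : EuclideanSpace ℝ (Fin n) →ₗ[ℝ] EuclideanSpace ℝ (Fin n) :=
    e.repr.toLinearEquiv.toLinearMap with hQ
  set P : ℝ := ∏ i, (√(l i))⁻¹ with hP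
  have hP0 : 0 < P := Finset.prod_pos fun i _ => inv_pos.2 (Real.sqrt_pos.2 (hlp i))
  set s : ℝ := (P⁻¹) ^ ((n : ℝ)⁻¹) with hs
  set d : Fin n → ℝ := fun i => s * (√(l i))⁻¹ with hd
  set D : EuclideanSpace ℝ (Fin n) →ₗ[ℝ] EuclideanSpace ℝ (Fin n) :=
    Matrix.toLin std.toBasis std.toBasis (Matrix.diagonal d) with hDdef
  have hDdet : LinearMap.det D = 1 := by
    rw [hDdef, LinearMap.det_toLin, Matrix.det_diagonal, Finset.prod_mul_distrib, Finset.prod_const,
      Finset.card_univ, Fintype.card_fin, ← hP, hs, Real.rpow_inv_natCast_pow (by positivity) hn.ne',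
      inv_mul_cancel₀ hP0.ne']
  have hDapp : ∀ y i, D y i = d i * y i := fun y i => by
    rw [hDdef, Matrix.toLin_apply]
    simp [std, Matrix.mulVec_diagonal, Pi.single_apply, Finset.sum_ite_eq]
  refine ⟨D ∘ₗ Q, s ^ 2, ?_, fun v => ?_⟩
  · rw [LinearMap.det_comp, hDdet, one_mul, hQ]
    exact abs_det_isometry e.repr
  set T := D ∘ₗ Q with hT
  have hdet : |LinearMap.det T| = 1 := by
    rw [hT, LinearMap.det_comp, hDdet, one_mul, hQ]
    exact abs_det_isometry e.repr
  have hne : LinearMap.det T ≠ 0 := fun h => by simp [h] at hdet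
  set w : EuclideanSpace ℝ (Fin n) := ∑ i, (d i * v i) • e i with hw
  have hin : ∀ x, ⟪v, T x⟫ = ⟪w, x⟫ := fun x => by
    rw [hw, sum_inner, PiLp.inner_apply]
    refine Finset.sum_congr rfl fun i _ => ?_
    rw [real_inner_smul_left, ← e.repr_apply_apply x i]
    simp only [hT, LinearMap.comp_apply, hDapp, RCLike.inner_apply, conj_trivial]
    simp [hQ]
    ring
  have hTK : ∫ y in T '' K, ⟪v, y⟫ ^ 2 = ∫ x in K, ⟪w, x⟫ ^ 2 := by
    set Te := (LinearMap.equivOfDetNeZero T hne).toContinuousLinearEquiv with hTe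
    have hme : MeasurableEmbedding (Te : EuclideanSpace ℝ (Fin n) → EuclideanSpace ℝ (Fin n)) :=
      Te.toHomeomorph.measurableEmbedding
    have hmap : Measure.map Te volume = (volume : Measure (EuclideanSpace ℝ (Fin n))) := by
      change Measure.map T volume = _
      rw [Measure.map_linearMap_addHaar_eq_smul_addHaar _ hne, abs_inv, hdet, inv_one,
        ENNReal.ofReal_one, one_smul]
    change ∫ y in Te '' K, ⟪v, y⟫ ^ 2 = _
    conv_lhs => rw [← hmap]
    rw [hme.setIntegral_map, hme.injective.preimage_image]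
    exact setIntegral_congr_fun hK.measurableSet fun x _ => by
      change ⟪v, T x⟫ ^ 2 = _
      rw [hin]
  rw [hTK]
  have h := inner_momOp hK w w
  rw [show ∫ x in K, ⟪w, x⟫ ^ 2 = ⟪momOp K w, w⟫ by rw [h]; simp [sq]]
  have hAw : momOp K w = ∑ i, (d i * v i * l i) • e i := by
    change A w = _
    rw [hw, map_sum]
    refine Finset.sum_congr rfl fun i _ => ?_
    rw [map_smul, show A (e i) = l i • e i from hAe i, smul_smul]
  rw [hAw, hw, sum_inner, EuclideanSpace.norm_sq_eq, Finset.mul_sum]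
  refine Finset.sum_congr rfl fun i _ => ?_
  rw [real_inner_smul_left, inner_sum]
  simp only [real_inner_smul_right, e.inner_eq_ite]
  simp only [mul_ite, mul_one, mul_zero, Finset.sum_ite_eq, Finset.mem_univ, if_true]
  rw [Real.norm_eq_abs, sq_abs]
  have hl2 := Real.sq_sqrt (hlp i).le
  have hl3 : √(l i) ≠ 0 := (Real.sqrt_pos.2 (hlp i)).ne'
  simp only [hd]
  field_simp
  rw [hl2]
  ring

end Vale.Agent.P237U
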