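import Vale.Agent.P237.Master
import Vale.Agent.P237R.Slicing

/-!
# Linear changes of variables and lower bounds for zonotopes through their projections
-/

namespace Vale.Agent.P237U

open MeasureTheory Set Metric Filter Topology Vale.Agent.P237
open scoped RealInnerProductSpace ENNReal Pointwise

variable {n N : ℕ}

lemma polyH_map (u u' : Fin N → EuclideanSpace ℝ (Fin n)) (b : Fin N → ℝ)
    (M : EuclideanSpace ℝ (Fin n) →ₗ[ℝ] EuclideanSpace ℝ (Fin n))
    (h : ∀ i x, ⟪u' i, x⟫ = ⟪u i, M x⟫) : polyH u' b = M ⁻¹' polyH u b := by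
  ext x; simp [polyH, h]

lemma volume_polyH_map (u u' : Fin N → EuclideanSpace ℝ (Fin n)) (b : Fin N → ℝ)
    (M : EuclideanSpace ℝ (Fin n) →ₗ[ℝ] EuclideanSpace ℝ (Fin n)) (hM : |LinearMap.det M| = 1)
    (h : ∀ i x, ⟪u' i, x⟫ = ⟪u i, M x⟫) :
    volume (polyH u' b) = volume (polyH u b) := by
  have hne : LinearMap.det M ≠ 0 := fun h0 => by simp [h0] at hM
  rw [polyH_map u u' b M h, Measure.addHaar_preimage_linearMap _ hne, abs_inv, hM, inv_one,
    ENNReal.ofReal_one, one_mul]

lemma isCompact_polyH_map (u u' : Fin N → EuclideanSpace ℝ (Fin n)) (b : Fin N → ℝ)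
    (M : EuclideanSpace ℝ (Fin n) →ₗ[ℝ] EuclideanSpace ℝ (Fin n)) (hM : |LinearMap.det M| = 1)
    (h : ∀ i x, ⟪u' i, x⟫ = ⟪u i, M x⟫) (hK : IsCompact (polyH u b)) :
    IsCompact (polyH u' b) := by
  have hne : LinearMap.det M ≠ 0 := fun h0 => by simp [h0] at hM
  rw [polyH_map u u' b M h]
  exact (LinearMap.equivOfDetNeZero M hne).toContinuousLinearEquiv.toHomeomorph.isCompact_preimage.2
    hK

lemma coneVol_map (u u' : Fin N → EuclideanSpace ℝ (Fin n)) (b : Fin N → ℝ)
    (M : EuclideanSpace ℝ (Fin n) →ₗ[ℝ] EuclideanSpace ℝ (Fin n)) (hM : |LinearMap.det M| = 1)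
    (h : ∀ i x, ⟪u' i, x⟫ = ⟪u i, M x⟫) (i : Fin N) :
    coneVol u' b i = coneVol u b i := by
  have hne : LinearMap.det M ≠ 0 := fun h0 => by simp [h0] at hM
  have hp : conePiece u' b i = M ⁻¹' conePiece u b i := by
    ext x; simp [conePiece, polyH, h]
  rw [coneVol, coneVol, hp, Measure.addHaar_preimage_linearMap _ hne, abs_inv, hM, inv_one,
    ENNReal.ofReal_one, one_mul]

lemma abs_det_isometry (R : EuclideanSpace ℝ (Fin n) ≃ₗᵢ[ℝ] EuclideanSpace ℝ (Fin n)) :
    |LinearMap.det (R.toLinearEquiv.toLinearMap)| = 1 := by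
  have h := Measure.addHaar_preimage_linearMap (volume : Measure (EuclideanSpace ℝ (Fin n)))
    (f := R.toLinearEquiv.toLinearMap) (R.toLinearEquiv.isUnit_det').ne_zero (Metric.ball 0 1)
  have h2 : volume (R ⁻¹' Metric.ball (0 : EuclideanSpace ℝ (Fin n)) 1)
      = volume (Metric.ball (0 : EuclideanSpace ℝ (Fin n)) 1) :=
    R.measurePreserving.measure_preimage measurableSet_ball.nullMeasurableSet
  rw [show (R.toLinearEquiv.toLinearMap : _ → _) = R from rfl, h2] at h
  have h3 := congrArg ENNReal.toReal h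
  rw [ENNReal.toReal_mul, ENNReal.toReal_ofReal (abs_nonneg _), abs_inv] at h3
  have hp : 0 < (volume (Metric.ball (0 : EuclideanSpace ℝ (Fin n)) 1)).toReal :=
    ENNReal.toReal_pos (measure_ball_pos volume _ one_pos).ne' measure_ball_lt_top.ne
  exact inv_eq_one.1 (mul_eq_right₀ hp.ne' |>.1 h3.symm)

lemma volume_image_isometry (R : EuclideanSpace ℝ (Fin n) ≃ₗᵢ[ℝ] EuclideanSpace ℝ (Fin n))
    (S : Set (EuclideanSpace ℝ (Fin n))) : volume (R '' S) = volume S := by
  change volume (R.toMeasurableEquiv '' S) = _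
  rw [MeasurableEquiv.image_eq_preimage_symm]
  exact (R.symm.measurePreserving).measure_preimage_equiv (f := R.toMeasurableEquiv.symm) _

lemma projVolume_le_sum [NeZero N] (u : Fin N → EuclideanSpace ℝ (Fin (n + 1))) (b : Fin N → ℝ)
    (hb : ∀ i, 0 < b i) (hK : IsCompact (polyH u b)) (e : EuclideanSpace ℝ (Fin (n + 1)))
    (he : ‖e‖ = 1) :
    projVolume (polyH u b) e ≤ ENNReal.ofReal
      (∑ i, ((n + 1 : ℕ) : ℝ) * coneVol u b i / (2 * b i) * |⟪u i, e⟫|) := by
  obtain ⟨R, hR⟩ := exists_align e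
  rw [he, one_smul] at hR
  have hK' := hK.image R.continuous
  have hfin : volume (etail n '' (R '' polyH u b)) ≠ ⊤ :=
    ((hK'.image (etail n).continuous_of_finiteDimensional).measure_lt_top).ne
  rw [projVolume_eq he R hR hK, ← ENNReal.ofReal_toReal hfin]
  refine ENNReal.ofReal_le_ofReal ?_
  set P := (volume (etail n '' (R '' polyH u b))).toReal with hP
  have hcv : Convex ℝ (R '' polyH u b) :=
    (convex_polyH u b).linear_image R.toLinearEquiv.toLinearMap
  have hV0 : ∀ i, 0 ≤ coneVol u b i := fun i => ENNReal.toReal_nonneg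
  have key : 0 ≤ ((n + 1 : ℕ) : ℝ) * (∑ i, coneVol u b i * (|⟪u i, e⟫| / b i)) + -(2 * P) := by
    refine first_variation (n + 1) _ _ _ fun q hq => ?_
    set δ : ℝ := (1 / 2) ^ q with hδ
    have hδ0 : 0 < δ := by positivity
    have hb' : ∀ i, (1 + δ * (|⟪u i, e⟫| / b i)) * b i = b i + δ * |⟪u i, e⟫| := fun i => by
      have := (hb i).ne'
      field_simp
    have hS : MeasurableSet
        (R '' polyH u (fun i => (1 + δ * (|⟪u i, e⟫| / b i)) * b i)) :=
      (R.toHomeomorph.isClosedEmbedding.isClosedMap _ (isClosed_polyH _ _)).measurableSet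
    have hsw := volume_add_sweep_le hK' hcv hS hδ0.le (by
      rintro _ ⟨x, hx, rfl⟩ s hs
      refine ⟨x + s • e, fun i => ?_, by rw [map_add, map_smul, hR]⟩
      change ⟪u i, x + s • e⟫ ≤ (1 + δ * (|⟪u i, e⟫| / b i)) * b i
      rw [hb', inner_add_right, real_inner_smul_right]
      refine add_le_add (hx i) ?_
      calc s * ⟪u i, e⟫ ≤ |s * ⟪u i, e⟫| := le_abs_self _
        _ ≤ δ * |⟪u i, e⟫| := by rw [abs_mul]; exact mul_le_mul_of_nonneg_right hs (abs_nonneg _))
    rw [volume_image_isometry, volume_image_isometry] at hsw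
    have h2 := hsw.trans (volume_polyH_le u b (fun i => δ * (|⟪u i, e⟫| / b i)) hb hq hK)
    have h3 := ENNReal.toReal_mono ENNReal.ofReal_ne_top h2
    rw [ENNReal.toReal_add hK.measure_lt_top.ne (by finiteness), ENNReal.toReal_mul,
      ENNReal.toReal_ofReal (by positivity), ENNReal.toReal_ofReal (Finset.sum_nonneg fun i _ =>
        mul_nonneg (pow_nonneg (hq i).le _) (hV0 i)), ← sum_coneVol u b hK, ← hP] at h3
    linarith
  have e2 : ∑ i, ((n + 1 : ℕ) : ℝ) * coneVol u b i / (2 * b i) * |⟪u i, e⟫|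
      = ((n + 1 : ℕ) : ℝ) * (∑ i, coneVol u b i * (|⟪u i, e⟫| / b i)) / 2 := by
    rw [Finset.mul_sum, Finset.sum_div]
    exact Finset.sum_congr rfl fun i _ => by
      have := (hb i).ne'
      field_simp
  rw [e2]
  linarith

lemma zono_subset_of_scale (w : Fin N → EuclideanSpace ℝ (Fin n)) (r r' : Fin N → ℝ)
    (h : ∀ i, 0 ≤ r i ∧ r i ≤ r' i) :
    zono (fun i => r i • w i) ⊆ zono (fun i => r' i • w i) := by
  rintro _ ⟨s, hs, rfl⟩
  refine ⟨fun i => s i * (r i / r' i), fun i _ => ?_, ?_⟩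
  · have hsi := hs i trivial
    have h1 : r i / r' i ≤ 1 := div_le_one_of_le₀ (h i).2 ((h i).1.trans (h i).2)
    have h0 : 0 ≤ r i / r' i := div_nonneg (h i).1 ((h i).1.trans (h i).2)
    rw [mem_Icc, ← abs_le, abs_mul, abs_of_nonneg h0]
    exact mul_le_one₀ (abs_le.2 hsi) h0 h1
  · refine Finset.sum_congr rfl fun i _ => ?_
    simp only [smul_smul]
    rcases eq_or_ne (r' i) 0 with h0 | h0
    · have : r i = 0 := le_antisymm (h0 ▸ (h i).2) (h i).1
      simp [this, h0]
    · rw [mul_assoc, div_mul_cancel₀ _ h0]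

/-- The volume of a zonotope dominates the projections orthogonal to its generators. -/
lemma zono_volume_ge_proj (w : Fin N → EuclideanSpace ℝ (Fin (n + 1)))
    (R : Fin N → EuclideanSpace ℝ (Fin (n + 1)) ≃ₗᵢ[ℝ] EuclideanSpace ℝ (Fin (n + 1)))
    (hR : ∀ i, R i (w i) = ‖w i‖ • e0 n) :
    ∑ i, 2 * ‖w i‖ * (volume (etail n '' (R i '' zono w))).toReal
      ≤ ((n + 1 : ℕ) : ℝ) * (volume (zono w)).toReal := by
  set Sg := ∑ i, 2 * ‖w i‖ * (volume (etail n '' (R i '' zono w))).toReal with hSg
  set V := (volume (zono w)).toReal with hV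
  have key : ∀ ε : ℝ, 0 < ε → Sg ≤ ((n + 1 : ℕ) : ℝ) * (1 + ε) ^ (n + 1) * V := by
    intro ε hε
    set W : ℕ → Fin N → EuclideanSpace ℝ (Fin (n + 1)) :=
      fun j l => (if (l : ℕ) < j then 1 + ε else 1) • w l with hW
    set F : ℕ → ℝ := fun j => (volume (zono (W j))).toReal with hF
    have hfin : ∀ w' : Fin N → EuclideanSpace ℝ (Fin (n + 1)), volume (zono w') ≠ ⊤ := fun w' =>
      (isCompact_zono w').measure_lt_top.ne
    have hstep : ∀ j : Fin N, F j + ε * (2 * ‖w j‖ *
        (volume (etail n '' (R j '' zono w))).toReal) ≤ F ((j : ℕ) + 1) := by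
      intro j
      have hc1 := (isCompact_zono (W j)).image (R j).continuous
      have hcv : Convex ℝ (R j '' zono (W j)) :=
        (convex_zono (W j)).linear_image (R j).toLinearEquiv.toLinearMap
      have hsw := volume_add_sweep_le hc1 hcv
        ((isCompact_zono (W ((j : ℕ) + 1))).image (R j).continuous).measurableSet
        (c := ε * ‖w j‖) (by positivity) (by
        rintro _ ⟨_, ⟨s, hs, rfl⟩, rfl⟩ t ht
        obtain ⟨q, hq, hqe⟩ : ∃ q : ℝ, |q| ≤ ε ∧ q • (‖w j‖ • e0 n) = t • e0 n := by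
          rcases eq_or_ne ‖w j‖ 0 with h0 | h0
          · rw [h0, mul_zero, abs_nonpos_iff] at ht
            exact ⟨0, by simp [hε.le], by simp [ht]⟩
          · refine ⟨t / ‖w j‖, ?_, by rw [smul_smul, div_mul_cancel₀ _ h0]⟩
            rw [abs_div, abs_norm, div_le_iff₀ (lt_of_le_of_ne (norm_nonneg _) h0.symm)]
            exact ht
        refine ⟨_, ⟨fun l => if l = j then (s l + q) / (1 + ε) else s l, fun l _ => ?_, rfl⟩, ?_⟩
        · dsimp only
          split_ifs with hl
          · rw [mem_Icc, ← abs_le, abs_div, abs_of_pos (by linarith : (0 : ℝ) < 1 + ε),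
              div_le_one (by linarith)]
            exact (abs_add_le _ _).trans (add_le_add (abs_le.2 (hs l trivial)) hq)
          · exact hs l trivial
        · rw [← hqe, ← hR, ← map_smul, ← map_add]
          congr 1
          have hl : ∀ l, (if l = j then (s l + q) / (1 + ε) else s l) • W ((j : ℕ) + 1) l
              = s l • W j l + if l = j then q • w j else 0 := by
            intro l
            rcases eq_or_ne l j with rfl | hl
            · simp only [hW, if_true, lt_add_one, lt_irrefl, if_false, smul_smul, one_smul,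
                ← add_smul]
              rw [div_mul_cancel₀ _ (by linarith : (1 : ℝ) + ε ≠ 0)]
            · have hlj : ((l : ℕ) < (j : ℕ) + 1) = ((l : ℕ) < (j : ℕ)) := by
                have : (l : ℕ) ≠ (j : ℕ) := fun h => hl (Fin.ext h)
                apply propext; omega
              simp only [hW, if_neg hl, hlj, add_zero]
          simp only [hl, Finset.sum_add_distrib, Finset.sum_ite_eq', Finset.mem_univ, if_true])
      rw [volume_image_isometry, volume_image_isometry] at hsw
      have hsub : zono w ⊆ zono (W j) := by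
        have := zono_subset_of_scale w (fun _ => 1) (fun l => if (l : ℕ) < j then 1 + ε else 1)
          (fun l => ⟨zero_le_one, by split_ifs <;> linarith⟩)
        simp only [one_smul] at this
        exact this
      have h2 := le_trans (add_le_add le_rfl (mul_le_mul_right
        (measure_mono (image_mono (image_mono (f := R j) hsub))) _)) hsw
      have hp : volume (etail n '' (R j '' zono w)) ≠ ⊤ :=
        ((((isCompact_zono w).image (R j).continuous).image
          (etail n).continuous_of_finiteDimensional).measure_lt_top).ne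
      have h3 := ENNReal.toReal_mono (hfin _) h2
      rw [ENNReal.toReal_add (hfin _) (ENNReal.mul_ne_top ENNReal.ofReal_ne_top hp),
        ENNReal.toReal_mul, ENNReal.toReal_ofReal (by positivity)] at h3
      simp only [hF]
      linarith
    have htot : F 0 + ε * Sg ≤ F N := by
      have h1 : ∑ j : Fin N, (F ((j : ℕ) + 1) - F j) = F N - F 0 := by
        rw [Fin.sum_univ_eq_sum_range (fun j => F (j + 1) - F j), Finset.sum_range_sub]
      have h2 : ε * Sg ≤ ∑ j : Fin N, (F ((j : ℕ) + 1) - F j) := by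
        rw [hSg, Finset.mul_sum]
        exact Finset.sum_le_sum fun j _ => by linarith [hstep j]
      linarith
    have h0 : F 0 = V := by simp [hF, hW, hV]
    have hN : F N = (1 + ε) ^ (n + 1) * V := by
      have : zono (W N) = (1 + ε) • zono w := by
        change _ = (fun x => (1 + ε) • x) '' zono w
        rw [show ((fun x : EuclideanSpace ℝ (Fin (n + 1)) => (1 + ε) • x) '' zono w)
          = (LinearMap.lsmul ℝ _ (1 + ε)) '' zono w from rfl, image_zono]
        simp [hW, add_smul]
      simp only [hF, this]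
      rw [Measure.addHaar_smul_of_nonneg _ (by linarith), finrank_euclideanSpace_fin,
        ENNReal.toReal_mul, ENNReal.toReal_ofReal (by positivity)]
    rw [h0, hN] at htot
    have hb : (1 + ε) ^ (n + 1) - 1 ≤ ((n + 1 : ℕ) : ℝ) * ε * (1 + ε) ^ (n + 1) := by
      have h1 := one_add_mul_le_pow (a := -ε / (1 + ε)) (by
        rw [le_div_iff₀ (by linarith)]; linarith) (n + 1)
      rw [show 1 + -ε / (1 + ε) = 1 / (1 + ε) by field_simp; ring, div_pow, one_pow,
        le_div_iff₀ (by positivity)] at h1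
      have h2 : ε / (1 + ε) ≤ ε := div_le_self hε.le (by linarith)
      have h3 : (0 : ℝ) ≤ ((n + 1 : ℕ) : ℝ) := Nat.cast_nonneg _
      have h4 : (0 : ℝ) ≤ (1 + ε) ^ (n + 1) := by positivity
      rw [neg_div] at h1
      nlinarith [mul_le_mul_of_nonneg_left h2 (mul_nonneg h3 h4)]
    have hVnn : 0 ≤ V := ENNReal.toReal_nonneg
    have h5 : ε * Sg ≤ ε * (((n + 1 : ℕ) : ℝ) * (1 + ε) ^ (n + 1) * V) := by
      nlinarith [mul_le_mul_of_nonneg_right hb hVnn]
    exact le_of_mul_le_mul_left h5 hε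
  have hc : Tendsto (fun ε : ℝ => ((n + 1 : ℕ) : ℝ) * (1 + ε) ^ (n + 1) * V) (𝓝[>] 0)
      (𝓝 (((n + 1 : ℕ) : ℝ) * V)) := by
    have hcont : Continuous fun ε : ℝ => ((n + 1 : ℕ) : ℝ) * (1 + ε) ^ (n + 1) * V := by fun_prop
    have h := hcont.tendsto 0
    simp only [add_zero, one_pow, mul_one] at h
    exact h.mono_left nhdsWithin_le_nhds
  exact ge_of_tendsto hc (eventually_nhdsWithin_of_forall fun ε hε => key ε hε)

end Vale.Agent.P237U
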