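import Vale.Agent.P237U.Step

/-!
# The inequality for polytopes
-/

namespace Vale.Agent.P237U

open MeasureTheory Set Metric Filter Topology Vale.Agent.P237 Vale.Agent.P237R
open scoped RealInnerProductSpace ENNReal Pointwise Matrix

variable {j N : ℕ}

lemma momMatrix_quad {n : ℕ} (g : Fin N → ℝ) (w : Fin N → EuclideanSpace ℝ (Fin n))
    (z : EuclideanSpace ℝ (Fin n)) :
    z.ofLp ⬝ᵥ (momMatrix g w *ᵥ z.ofLp) = ∑ i, g i * ⟪w i, z⟫ ^ 2 := by
  have hin : ∀ i, ⟪w i, z⟫ = (w i).ofLp ⬝ᵥ z.ofLp := fun i => by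
    rw [EuclideanSpace.inner_eq_star_dotProduct, star_trivial, dotProduct_comm]
  rw [momMatrix, Matrix.sum_mulVec, dotProduct_sum]
  refine Finset.sum_congr rfl fun i _ => ?_
  rw [hin, Matrix.smul_mulVec, Matrix.vecMulVec_mulVec, op_smul_eq_smul, smul_smul,
    dotProduct_smul, smul_eq_mul, dotProduct_comm z.ofLp]
  ring

lemma polyH_image_isometry {n : ℕ} (u : Fin N → EuclideanSpace ℝ (Fin n)) (b : Fin N → ℝ)
    (R : EuclideanSpace ℝ (Fin n) ≃ₗᵢ[ℝ] EuclideanSpace ℝ (Fin n)) :
    polyH (fun l => R (u l)) b = R '' polyH u b := by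
  ext x
  obtain ⟨y, rfl⟩ := R.surjective x
  rw [R.injective.mem_set_image]
  simp only [polyH, Set.mem_ofPred_eq, LinearIsometryEquiv.inner_map_map]

lemma coneVol_isometry {n : ℕ} (u : Fin N → EuclideanSpace ℝ (Fin n)) (b : Fin N → ℝ)
    (R : EuclideanSpace ℝ (Fin n) ≃ₗᵢ[ℝ] EuclideanSpace ℝ (Fin n)) (i : Fin N) :
    coneVol (fun l => R (u l)) b i = coneVol u b i := by
  refine coneVol_map u _ b R.symm.toLinearEquiv.toLinearMap (abs_det_isometry R.symm) (fun l x => ?_) i
  change ⟪R (u l), x⟫ = ⟪u l, R.symm x⟫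
  rw [← R.inner_map_map (u l), R.apply_symm_apply]

/-- The zonotope is bounded below by the slice integrals in the facet directions. -/
lemma zono_sum_ge [NeZero N] {c : ℝ} (hc0 : 0 ≤ c) (hQ : LowerBound (j + 1) c)
    (u : Fin N → EuclideanSpace ℝ (Fin (j + 1 + 1))) (b : Fin N → ℝ)
    (hb : ∀ i, 0 < b i) (hK : IsCompact (polyH u b))
    (R : Fin N → EuclideanSpace ℝ (Fin (j + 1 + 1)) ≃ₗᵢ[ℝ] EuclideanSpace ℝ (Fin (j + 1 + 1)))
    (hR : ∀ i, R i (u i) = ‖u i‖ • e0 (j + 1)) (hint : (interior (polyH u b)).Nonempty) :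
    ∑ i, coneVol u b i * (‖u i‖ / b i) * (c * sliceInt (R i '' polyH u b) ^ (j + 1))
      ≤ (volume (zono (gens u b))).toReal := by
  have hV0 : ∀ i, 0 ≤ coneVol u b i := fun i => ENNReal.toReal_nonneg
  have hn : ∀ i, ‖gens u b i‖
      = ((j + 1 + 1 : ℕ) : ℝ) / 2 * (coneVol u b i * (‖u i‖ / b i)) := fun i => by
    have := hb i
    rw [gens, norm_smul, Real.norm_of_nonneg (by have := hV0 i; positivity)]
    field_simp
  have h := zono_volume_ge_proj (gens u b) R (fun i => by
    rw [gens, map_smul, hR, norm_smul, Real.norm_of_nonneg (by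
      have := hV0 i; have := hb i; positivity), smul_smul])
  have hm : (0 : ℝ) < ((j + 1 + 1 : ℕ) : ℝ) := by positivity
  refine le_of_mul_le_mul_left (le_trans ?_ h) hm
  rw [Finset.mul_sum]
  refine Finset.sum_le_sum fun i _ => ?_
  rw [hn]
  have hP : c * sliceInt (R i '' polyH u b) ^ (j + 1)
      ≤ (volume (etail (j + 1) '' (R i '' zono (gens u b)))).toReal := by
    have hfin : volume (etail (j + 1) '' (R i '' zono (gens u b))) ≠ ⊤ :=
      ((((isCompact_zono _).image (R i).continuous).image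
        (continuous_etail (j + 1))).measure_lt_top).ne
    have hK' : IsCompact (R i '' polyH u b) := hK.image (R i).continuous
    have hc' : Convex ℝ (R i '' polyH u b) :=
      (convex_polyH u b).linear_image (R i).toLinearEquiv.toLinearMap
    have hi' : (interior (R i '' polyH u b)).Nonempty := by
      have he : interior (R i '' polyH u b) = R i '' interior (polyH u b) :=
        ((R i).toHomeomorph.image_interior _).symm
      rw [he]; exact hint.image _
    have hsub : flatBody (R i '' polyH u b) ⊆ etail (j + 1) '' (R i '' zono (gens u b)) := by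
      have h1 := flatBody_subset (fun l => R i (u l)) b hb (by rwa [polyH_image_isometry])
      rw [polyH_image_isometry] at h1
      refine h1.trans_eq ?_
      congr 1
      change _ = (R i).toLinearEquiv.toLinearMap '' zono (gens u b)
      rw [image_zono]
      congr 1
      funext l
      simp [gens, coneVol_isometry, map_smul]
    have hle := (flatBody_ge hK' hc' hi' hc0 hQ).trans (measure_mono hsub)
    exact (ENNReal.ofReal_le_iff_le_toReal hfin).1 hle
  refine le_trans (mul_le_mul_of_nonneg_left (mul_le_mul_of_nonneg_left hP (by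
    have := hV0 i; have := hb i; positivity)) hm.le) (le_of_eq ?_)
  ring

lemma exists_frame {n : ℕ} (u : Fin N → EuclideanSpace ℝ (Fin (n + 1))) :
    ∃ (v : Fin N → EuclideanSpace ℝ (Fin (n + 1)))
      (R : Fin N → EuclideanSpace ℝ (Fin (n + 1)) ≃ₗᵢ[ℝ] EuclideanSpace ℝ (Fin (n + 1))),
      (∀ i, ‖v i‖ = 1) ∧ (∀ i, R i (v i) = e0 n) ∧ (∀ i, u i = ‖u i‖ • v i) := by
  classical
  set v : Fin N → EuclideanSpace ℝ (Fin (n + 1)) :=
    fun i => if u i = 0 then e0 n else ‖u i‖⁻¹ • u i with hv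
  have hv1 : ∀ i, ‖v i‖ = 1 := fun i => by
    simp only [hv]
    split_ifs with h
    · simp [e0]
    · simp [norm_smul, h]
  choose R hR using fun i => exists_align (v i)
  refine ⟨v, R, hv1, fun i => by rw [hR, hv1, one_smul], fun i => ?_⟩
  simp only [hv]
  split_ifs with h
  · simp [h]
  · rw [smul_smul, mul_inv_cancel₀ (norm_ne_zero_iff.2 h), one_smul]

lemma unitBallVol_eq_closedBall {n : ℕ} (hn : 0 < n) :
    volume (closedBall (0 : EuclideanSpace ℝ (Fin n)) 1) = ENNReal.ofReal (unitBallVol n) := by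
  rw [← kap_eq_unitBallVol hn, kap, ENNReal.ofReal_toReal measure_closedBall_lt_top.ne]

lemma unitBallVol_pos {n : ℕ} (hn : 0 < n) : 0 < unitBallVol n := by
  rw [← kap_eq_unitBallVol hn]; exact kap_pos n

lemma interior_polyH_nonempty {n : ℕ} (u : Fin N → EuclideanSpace ℝ (Fin n)) (b : Fin N → ℝ)
    (hb : ∀ i, 0 < b i) : (interior (polyH u b)).Nonempty := by
  have hopen : IsOpen {x : EuclideanSpace ℝ (Fin n) | ∀ i, ⟪u i, x⟫ < b i} := by
    rw [Set.ofPred_forall]
    exact isOpen_iInter_of_finite fun i => isOpen_lt (by fun_prop) continuous_const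
  have hsub : {x : EuclideanSpace ℝ (Fin n) | ∀ i, ⟪u i, x⟫ < b i} ⊆ polyH u b :=
    fun x hx i => (hx i).le
  exact ⟨0, interior_maximal hsub hopen (fun i => by simpa using hb i)⟩

lemma balanced_ge [NeZero N] {c : ℝ} (hc0 : 0 ≤ c) (hQ : LowerBound (j + 1) c)
    (u : Fin N → EuclideanSpace ℝ (Fin (j + 1 + 1))) (b : Fin N → ℝ)
    (hb : ∀ i, 0 < b i) (hK : IsCompact (polyH u b))
    (hbal : momMatrix (fun i => ((j + 1 + 1 : ℕ) : ℝ) * coneVol u b i / (2 * b i) / ‖u i‖) u
      = Matrix.diagonal (fun _ => (∑ i, ((j + 1 + 1 : ℕ) : ℝ) * coneVol u b i / (2 * b i) * ‖u i‖)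
          / ((j + 1 + 1 : ℕ) : ℝ))) :
    c * unitBallVol (j + 1 + 1) ^ (((j + 1 + 1 : ℕ) : ℝ))⁻¹
        * (volume (polyH u b)).toReal ^ (j + 1)
      ≤ (volume (zono (gens u b))).toReal := by
  have hint := interior_polyH_nonempty u b hb
  have hV := volume_toReal_pos u b hb hK
  have hκ := unitBallVol_pos (n := j + 1 + 1) (Nat.succ_pos _)
  obtain ⟨v, R, hv1, hRv, huv⟩ := exists_frame u
  have hRu : ∀ i, R i (u i) = ‖u i‖ • e0 (j + 1) := fun i => by
    conv_lhs => rw [huv i, map_smul, hRv]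
  set V := (volume (polyH u b)).toReal with hVdef
  set κ := unitBallVol (j + 1 + 1) with hκdef
  set σ : Fin N → ℝ := fun i => coneVol u b i * (‖u i‖ / b i) with hσdef
  set X := ∑ i, σ i with hXdef
  set G : Fin N → ℝ := fun i => sliceInt (R i '' polyH u b) with hGdef
  set m : ℝ := ((j + 1 + 1 : ℕ) : ℝ) with hm
  have hm0 : 0 < m := by rw [hm]; positivity
  have hσ : ∀ i, 0 ≤ σ i := fun i =>
    mul_nonneg ENNReal.toReal_nonneg (div_nonneg (norm_nonneg _) (hb i).le)
  have hX0 : 0 ≤ X := Finset.sum_nonneg fun i _ => hσ i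
  have hiso1 := minkowski_pow u b hb hK hV (closedBall 0 1) (fun i => ‖u i‖) (fun x hx i => by
    rw [mem_closedBall_zero_iff] at hx
    exact (real_inner_le_norm _ _).trans (mul_le_of_le_one_right (norm_nonneg _) hx))
  rw [unitBallVol_eq_closedBall (Nat.succ_pos _), ← ENNReal.ofReal_mul (by positivity),
    ENNReal.ofReal_le_ofReal_iff (pow_nonneg hX0 _)] at hiso1
  have hiso1 : V ^ (j + 1) * κ ≤ X ^ (j + 1 + 1) := hiso1
  have hX : 0 < X := by
    rcases eq_or_lt_of_le hX0 with h | h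
    · rw [← h, zero_pow (Nat.succ_ne_zero _)] at hiso1
      have : 0 < V ^ (j + 1) * κ := by positivity
      linarith
    · exact h
  set cw : Fin N → ℝ := fun i => m * σ i / X with hcw
  have hcw0 : ∀ i, 0 ≤ cw i := fun i => div_nonneg (mul_nonneg hm0.le (hσ i)) hX0
  have hcsum : ∑ i, cw i = m := by
    simp only [hcw, ← Finset.sum_div, ← Finset.mul_sum, ← hXdef]
    field_simp
  have hiso : ∀ z, ∑ i, cw i * ⟪v i, z⟫ ^ 2 = ‖z‖ ^ 2 := by
    intro z
    have hq := momMatrix_quad (fun i => m * coneVol u b i / (2 * b i) / ‖u i‖) u z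
    rw [hbal] at hq
    have hT : ∑ i, m * coneVol u b i / (2 * b i) * ‖u i‖ = m / 2 * X := by
      rw [hXdef, Finset.mul_sum]
      refine Finset.sum_congr rfl fun i _ => ?_
      have := (hb i).ne'
      simp only [hσdef]
      field_simp
    have hd : z.ofLp ⬝ᵥ (Matrix.diagonal (fun _ : Fin (j + 1 + 1) =>
        (∑ i, m * coneVol u b i / (2 * b i) * ‖u i‖) / m) *ᵥ z.ofLp) = X / 2 * ‖z‖ ^ 2 := by
      rw [hT, EuclideanSpace.norm_sq_eq]
      conv_rhs => rw [Finset.mul_sum]
      simp only [dotProduct]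
      refine Finset.sum_congr rfl fun l _ => ?_
      rw [Matrix.mulVec_diagonal, Real.norm_eq_abs, sq_abs]
      field_simp
    rw [hd] at hq
    have h2 : ‖z‖ ^ 2 = 2 / X * ∑ i, m * coneVol u b i / (2 * b i) / ‖u i‖ * ⟪u i, z⟫ ^ 2 := by
      rw [← hq]
      field_simp
    rw [h2, Finset.mul_sum]
    refine Finset.sum_congr rfl fun i _ => ?_
    have hbi := (hb i).ne'
    have hXne := hX.ne'
    rcases eq_or_ne ‖u i‖ 0 with h0 | h0
    · simp [hcw, hσdef, h0]
    · conv_rhs => arg 2; arg 2; rw [huv i, real_inner_smul_left]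
      simp only [hcw, hσdef]
      field_simp
  have hsum := zono_sum_ge hc0 hQ u b hb hK R hRu hint
  have hcore := core_sum v R hRv cw hcw0 hv1 hcsum hiso hK (convex_polyH u b) hint
  have hG0 : ∀ i, 0 ≤ G i := fun i => by
    refine sliceInt_nonneg ?_
    obtain ⟨x, hx⟩ := hint
    have := height_mem (hK.image (R i).continuous)
      (mem_image_of_mem (R i) (interior_subset hx))
    linarith [this.1, this.2]
  set k : ℝ := ((j + 1 : ℕ) : ℝ) with hk
  have hk0 : 0 ≤ k := by rw [hk]; positivity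
  have hmk : k + 1 = m := by rw [hk, hm]; push_cast; ring
  have hgm : (V ^ (j + 1)) ^ (k / m) ≤ ∑ i, σ i / X * G i ^ (j + 1) := by
    refine le_trans ?_ (Real.geom_mean_le_arith_mean_weighted Finset.univ (fun i => σ i / X)
      (fun i => G i ^ (j + 1)) (fun i _ => div_nonneg (hσ i) hX0)
      (by rw [← Finset.sum_div, ← hXdef, div_self hX.ne']) (fun i _ => pow_nonneg (hG0 i) _))
    refine (Real.rpow_le_rpow (by positivity) hcore (div_nonneg hk0 hm0.le)).trans (le_of_eq ?_)
    rw [← Real.finsetProd_rpow _ _ (fun i _ => Real.rpow_nonneg (hG0 i) _)]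
    refine Finset.prod_congr rfl fun i _ => ?_
    rw [← Real.rpow_natCast (G i) (j + 1), ← Real.rpow_mul (hG0 i), ← Real.rpow_mul (hG0 i)]
    congr 1
    simp only [hcw, ← hk]
    field_simp
  have hXlow : κ ^ m⁻¹ * V ^ (k / m) ≤ X := by
    have h := Real.rpow_le_rpow (by positivity) hiso1 (inv_nonneg.2 hm0.le)
    rw [Real.mul_rpow (by positivity) hκ.le, ← Real.rpow_natCast V, ← Real.rpow_mul hV.le,
      Real.pow_rpow_inv_natCast hX0 (Nat.succ_ne_zero _), ← div_eq_mul_inv] at h
    rw [mul_comm]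
    exact h
  have hfin : c * X * (V ^ (j + 1)) ^ (k / m)
      ≤ ∑ i, σ i * (c * G i ^ (j + 1)) := by
    refine (mul_le_mul_of_nonneg_left hgm (mul_nonneg hc0 hX0)).trans (le_of_eq ?_)
    rw [Finset.mul_sum]
    refine Finset.sum_congr rfl fun i _ => ?_
    field_simp
  refine le_trans ?_ (hfin.trans hsum)
  have hVk : V ^ (k / m) * (V ^ (j + 1)) ^ (k / m) = V ^ (j + 1) := by
    rw [← Real.rpow_natCast V (j + 1), ← hk, ← Real.rpow_mul hV.le, ← Real.rpow_add hV]
    congr 1
    rw [← hmk]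
    field_simp
    ring
  calc c * κ ^ m⁻¹ * V ^ (j + 1)
      = c * (κ ^ m⁻¹ * V ^ (k / m)) * (V ^ (j + 1)) ^ (k / m) := by
        nth_rw 1 [← hVk]; ring
    _ ≤ c * X * (V ^ (j + 1)) ^ (k / m) := by gcongr

lemma planar_ge [NeZero N] (hQ : LowerBound (0 + 1) 2)
    (u : Fin N → EuclideanSpace ℝ (Fin (0 + 1 + 1))) (b : Fin N → ℝ)
    (hb : ∀ i, 0 < b i) (hK : IsCompact (polyH u b)) :
    4 * (volume (polyH u b)).toReal ≤ (volume (zono (gens u b))).toReal := by
  have hint := interior_polyH_nonempty u b hb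
  have hV := volume_toReal_pos u b hb hK
  obtain ⟨v, R, hv1, hRv, huv⟩ := exists_frame u
  have hRu : ∀ i, R i (u i) = ‖u i‖ • e0 (0 + 1) := fun i => by
    conv_lhs => rw [huv i, map_smul, hRv]
  have hsum := zono_sum_ge zero_le_two hQ u b hb hK R hRu hint
  refine le_trans ?_ hsum
  set K := polyH u b with hKdef
  set hi' : Fin N → ℝ := fun i => ‖u i‖ * sHi (R i '' K) with hhi
  set lo' : Fin N → ℝ := fun i => -(‖u i‖ * sLo (R i '' K)) with hlo
  have h0K : (0 : EuclideanSpace ℝ (Fin (0 + 1 + 1))) ∈ K := fun i => by simpa using (hb i).le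
  have hcoord : ∀ i x, ⟪u i, x⟫ = ‖u i‖ * R i x 0 := fun i x => by
    rw [← LinearIsometryEquiv.inner_map_map (R i) (u i) x, hRu, real_inner_smul_left]
    simp [e0, EuclideanSpace.inner_single_left]
  have hmem : ∀ i, ∀ x ∈ K, R i x 0 ∈ Icc (sLo (R i '' K)) (sHi (R i '' K)) := fun i x hx =>
    height_mem (hK.image (R i).continuous) (mem_image_of_mem (R i) hx)
  have key : ∀ c : Fin N → ℝ, ∀ L : Set (EuclideanSpace ℝ (Fin (0 + 1 + 1))),
      volume L = volume K → (∀ x ∈ L, ∀ i, ⟪u i, x⟫ ≤ c i) → (∀ i, 0 ≤ c i) →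
      (volume K).toReal ≤ ∑ i, coneVol u b i * (c i / b i) := by
    intro c L hL hLc hcnn
    have h := minkowski_pow u b hb hK hV L c hLc
    have hnn : 0 ≤ ∑ i, coneVol u b i * (c i / b i) := Finset.sum_nonneg fun i _ =>
      mul_nonneg ENNReal.toReal_nonneg (div_nonneg (hcnn i) (hb i).le)
    rw [hL, ← ENNReal.ofReal_toReal hK.measure_lt_top.ne, ← ENNReal.ofReal_mul (by positivity),
      ENNReal.ofReal_le_ofReal_iff (by positivity), ENNReal.toReal_ofReal hV.le] at h
    refine (pow_le_pow_iff_left₀ hV.le hnn two_ne_zero).1 ?_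
    simpa [sq] using h
  have h1 := key hi' K rfl (fun x hx i => by
    rw [hcoord]; exact mul_le_mul_of_nonneg_left (hmem i x hx).2 (norm_nonneg _)) (fun i => by
    have := (hmem i 0 h0K).2
    rw [map_zero] at this
    exact mul_nonneg (norm_nonneg _) this)
  have h2 := key lo' (-K) (Measure.measure_neg volume K) (fun x hx i => by
    have := mul_le_mul_of_nonneg_left (hmem i (-x) hx).1 (norm_nonneg (u i))
    rw [← hcoord, inner_neg_right] at this
    simp only [hlo]; linarith) (fun i => by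
    have := (hmem i 0 h0K).1
    rw [map_zero] at this
    simp only [hlo]
    exact neg_nonneg.2 (mul_nonpos_of_nonneg_of_nonpos (norm_nonneg _) this))
  have hG : ∀ i, sliceInt (R i '' K) = sHi (R i '' K) - sLo (R i '' K) := fun i => by
    simp [sliceInt, gfun]
  calc 4 * (volume K).toReal
      ≤ 2 * ((∑ i, coneVol u b i * (hi' i / b i)) + ∑ i, coneVol u b i * (lo' i / b i)) := by
        linarith
    _ = _ := by
        rw [← Finset.sum_add_distrib, Finset.mul_sum]
        refine Finset.sum_congr rfl fun i _ => ?_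
        simp only [hG, hhi, hlo, pow_one, zero_add]
        ring

/-- From the balanced case to all polytopes. -/
lemma poly_ge [NeZero N] {C : ℝ} (u : Fin N → EuclideanSpace ℝ (Fin (j + 1 + 1))) (b : Fin N → ℝ)
    (hb : ∀ i, 0 < b i) (hK : IsCompact (polyH u b))
    (H : ∀ w : Fin N → EuclideanSpace ℝ (Fin (j + 1 + 1)), IsCompact (polyH w b) →
      momMatrix (fun i => ((j + 1 + 1 : ℕ) : ℝ) * coneVol w b i / (2 * b i) / ‖w i‖) w
        = Matrix.diagonal (fun _ =>
          (∑ i, ((j + 1 + 1 : ℕ) : ℝ) * coneVol w b i / (2 * b i) * ‖w i‖)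
            / ((j + 1 + 1 : ℕ) : ℝ)) →
      C * (volume (polyH w b)).toReal ^ (j + 1) ≤ (volume (zono (gens w b))).toReal) :
    ENNReal.ofReal (C * (volume (polyH u b)).toReal ^ (j + 1)) ≤ volume (projBody (polyH u b)) := by
  set β : Fin N → ℝ := fun i => ((j + 1 + 1 : ℕ) : ℝ) * coneVol u b i / (2 * b i) with hβdef
  have hV0 : ∀ i, 0 ≤ coneVol u b i := fun i => ENNReal.toReal_nonneg
  have hβ : ∀ i, 0 ≤ β i := fun i => by have := hb i; have := hV0 i; positivity
  obtain ⟨A, hdet, hM⟩ := exists_balanced (Nat.succ_pos _) β hβ u (fun x hx => by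
    obtain ⟨i, hi⟩ := span_of_compact u b hb hK x hx
    refine ⟨i, fun h => hi ?_⟩
    have := hb i
    simp only [hβdef] at h
    field_simp at h
    simpa [mul_assoc, (by positivity : ((j : ℝ) + 1 + 1) ≠ 0)] using h)
  set A' : Fin (j + 1 + 1) → EuclideanSpace ℝ (Fin (j + 1 + 1)) :=
    fun k => WithLp.toLp 2 (fun l => A l k) with hA'
  have hdet' : |LinearMap.det (rowAct A')| = 1 := by
    rw [det_rowAct, show rowMatrix A' = (rowMatrix A).transpose from rfl, Matrix.det_transpose,
      hdet, abs_one]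
  have hadj : ∀ x y, ⟪rowAct A x, y⟫ = ⟪x, rowAct A' y⟫ := by
    intro x y
    simp only [PiLp.inner_apply, rowAct, LinearMap.coe_mk, AddHom.coe_mk, RCLike.inner_apply,
      conj_trivial, hA', Finset.sum_mul, Finset.mul_sum]
    rw [Finset.sum_comm]
    exact Finset.sum_congr rfl (fun k _ => Finset.sum_congr rfl (fun l _ => by ring))
  set w : Fin N → EuclideanSpace ℝ (Fin (j + 1 + 1)) := fun i => rowAct A (u i) with hw
  have hcone : ∀ i, coneVol w b i = coneVol u b i :=
    coneVol_map u w b (rowAct A') hdet' (fun i x => hadj (u i) x)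
  have hz : volume (zono (gens w b)) = volume (zono (gens u b)) := by
    have : zono (gens w b) = rowAct A '' zono (gens u b) := by
      rw [image_zono]
      congr 1
      funext i
      simp only [gens, hcone]
      rw [map_smul]
    rw [this, Measure.addHaar_image_linearMap, det_rowAct, hdet, abs_one, ENNReal.ofReal_one,
      one_mul]
  have hbal : momMatrix (fun i => ((j + 1 + 1 : ℕ) : ℝ) * coneVol w b i / (2 * b i) / ‖w i‖) w
      = Matrix.diagonal (fun _ =>
          (∑ i, ((j + 1 + 1 : ℕ) : ℝ) * coneVol w b i / (2 * b i) * ‖w i‖)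
            / ((j + 1 + 1 : ℕ) : ℝ)) := by
    simp only [hcone]
    exact hM
  have h := H w (isCompact_polyH_map u w b (rowAct A') hdet' (fun i x => hadj (u i) x) hK) hbal
  rw [volume_polyH_map u w b (rowAct A') hdet' (fun i x => hadj (u i) x), hz] at h
  refine (ENNReal.ofReal_le_ofReal h).trans ?_
  rw [ENNReal.ofReal_toReal (isCompact_zono _).measure_lt_top.ne]
  exact measure_mono (zono_subset_projBody u b hb hK)

end Vale.Agent.P237U
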