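import Vale.Agent.P237U.Profile3Cert

/-!
# The profile inequality in dimension three
-/

namespace Vale.Agent.P237U

open MeasureTheory Set Real

/-- The derivative in the height of the test integrand. -/
noncomputable def psi3 (t y : ℝ) : ℝ :=
  π / 2 - 3 * π ^ 2 / 16 * y + 2 / 5 * (y ^ 3 - 2 * t ^ 2 * y)

/-- The test integrand. -/
noncomputable def hfun3 (t y : ℝ) : ℝ :=
  π / 2 * y - 3 * π ^ 2 / 32 * y ^ 2 + 2 / 5 * (y ^ 4 / 4 - t ^ 2 * y ^ 2)

/-- The right end of the superlevel set. -/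
noncomputable def levelEnd (g : ℝ → ℝ) (y : ℝ) : ℝ :=
  sSup (insert 0 {t | t ∈ Icc (0 : ℝ) 1 ∧ y ≤ g t})

/-- The length gained at height `y`. -/
noncomputable def gain (g : ℝ → ℝ) (y : ℝ) : ℝ := levelEnd g y - √(1 - y ^ 2)

section
variable {g : ℝ → ℝ}

lemma levelEnd_bdd (g : ℝ → ℝ) (y : ℝ) :
    BddAbove (insert 0 {t | t ∈ Icc (0 : ℝ) 1 ∧ y ≤ g t}) :=
  ⟨1, by rintro t (rfl | ⟨ht, -⟩); exacts [zero_le_one, ht.2]⟩

lemma le_levelEnd {t y : ℝ} (ht : t ∈ Icc (0 : ℝ) 1) (h : y ≤ g t) : t ≤ levelEnd g y :=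
  le_csSup (levelEnd_bdd g y) (Or.inr ⟨ht, h⟩)

lemma levelEnd_nonneg (g : ℝ → ℝ) (y : ℝ) : 0 ≤ levelEnd g y :=
  le_csSup (levelEnd_bdd g y) (Or.inl rfl)

lemma levelEnd_le_one (g : ℝ → ℝ) (y : ℝ) : levelEnd g y ≤ 1 :=
  csSup_le ⟨0, Or.inl rfl⟩ (by rintro t (rfl | ⟨ht, -⟩); exacts [zero_le_one, ht.2])

lemma le_of_lt_levelEnd (hg : Antitone g) {t y : ℝ} (ht : 0 ≤ t) (h : t < levelEnd g y) :
    y ≤ g t := by
  obtain ⟨s, hs, hts⟩ := exists_lt_of_lt_csSup (Set.insert_nonempty _ _) h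
  rcases hs with rfl | ⟨-, hs⟩
  · exact absurd hts (not_lt.2 ht)
  · exact hs.trans (hg hts.le)

lemma levelEnd_antitone (g : ℝ → ℝ) : Antitone (levelEnd g) := fun a b hab =>
  csSup_le_csSup (levelEnd_bdd g a) ⟨0, Or.inl rfl⟩
    (Set.insert_subset_insert fun t ht => ⟨ht.1, hab.trans ht.2⟩)

lemma intervalIntegrable_gain (g : ℝ → ℝ) (a b : ℝ) :
    IntervalIntegrable (gain g) volume a b :=
  (levelEnd_antitone g).intervalIntegrable.sub
    ((by fun_prop : Continuous fun y : ℝ => √(1 - y ^ 2)).intervalIntegrable a b)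

lemma gain_nonneg (hge : ∀ t ∈ Icc (0 : ℝ) 1, √(1 - t ^ 2) ≤ g t) {y : ℝ} (hy : 0 ≤ y) :
    0 ≤ gain g y := by
  rw [gain, sub_nonneg]
  rcases le_or_gt (1 - y ^ 2) 0 with h | h
  · rw [sqrt_eq_zero'.2 h]; exact levelEnd_nonneg g y
  · have hm : √(1 - y ^ 2) ∈ Icc (0 : ℝ) 1 :=
      ⟨sqrt_nonneg _, sqrt_le_one.2 (by nlinarith)⟩
    refine le_levelEnd hm (le_trans ?_ (hge _ hm))
    rw [sq_sqrt h.le, sub_sub_cancel, sqrt_sq hy]

lemma gain_ge (hconc : ConcaveOn ℝ (Icc (0 : ℝ) 1) g) (hg : Antitone g)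
    (hnn : ∀ t ∈ Icc (0 : ℝ) 1, 0 ≤ g t) {s y : ℝ} (hs : 0 ≤ s) (hsy : s ≤ y) (hy : 0 < y)
    (hyY : y ≤ g 0) :
    1 - (1 - levelEnd g y) * s / y - √(1 - s ^ 2) ≤ gain g s := by
  rw [gain, sub_le_sub_iff_right]
  set T := levelEnd g y with hT
  have hl0 : 0 ≤ s / y := div_nonneg hs hy.le
  have hl1 : s / y ≤ 1 := (div_le_one hy).2 hsy
  have key : ∀ t, 0 ≤ t → t ≤ 1 → y ≤ g t → 1 - (1 - t) * s / y ≤ levelEnd g s := by
    intro t ht0 ht1 hgt
    have h := hconc.2 (⟨ht0, ht1⟩ : t ∈ Icc (0 : ℝ) 1)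
      (⟨zero_le_one, le_rfl⟩ : (1 : ℝ) ∈ Icc (0 : ℝ) 1) hl0 (sub_nonneg.2 hl1) (add_sub_cancel _ 1)
    simp only [smul_eq_mul, mul_one] at h
    have e : s / y * t + (1 - s / y) = 1 - (1 - t) * s / y := by ring
    rw [e] at h
    refine le_levelEnd ⟨?_, ?_⟩ ?_
    · rw [← e]
      have := sub_nonneg.2 hl1
      positivity
    · have : 0 ≤ (1 - t) * s / y := div_nonneg (mul_nonneg (sub_nonneg.2 ht1) hs) hy.le
      linarith
    · refine le_trans ?_ h
      have h1 := mul_le_mul_of_nonneg_left hgt hl0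
      rw [div_mul_cancel₀ _ hy.ne'] at h1
      have := mul_nonneg (sub_nonneg.2 hl1) (hnn 1 ⟨zero_le_one, le_rfl⟩)
      linarith
  refine le_of_forall_pos_le_add fun ε hε => ?_
  rcases le_or_gt T ε with hTe | hTe
  · have h := key 0 le_rfl zero_le_one hyY
    have : (1 - (0 : ℝ)) * s / y - (1 - T) * s / y = T * (s / y) := by ring
    nlinarith [levelEnd_nonneg g y]
  · have h := key (T - ε) (by linarith) (by linarith [levelEnd_le_one g y])
      (le_of_lt_levelEnd hg (by linarith) (by linarith))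
    have : (1 - (T - ε)) * s / y - (1 - T) * s / y = ε * (s / y) := by ring
    nlinarith

lemma sqrt_le_series {s : ℝ} (hs0 : 0 ≤ s) (hs1 : s ≤ 1) :
    √(1 - s ^ 2) ≤ 1 - s ^ 2 / 2 - s ^ 4 / 8 - s ^ 6 / 16 := by
  have h2 : s ^ 2 ≤ 1 := pow_le_one₀ hs0 hs1
  have h4 : s ^ 4 ≤ 1 := pow_le_one₀ hs0 hs1
  have h6 : s ^ 6 ≤ 1 := pow_le_one₀ hs0 hs1
  rw [sqrt_le_left (by linarith)]
  have e : (1 - s ^ 2 / 2 - s ^ 4 / 8 - s ^ 6 / 16) ^ 2
      = 1 - s ^ 2 + (5 / 64 * s ^ 8 + 1 / 64 * s ^ 10 + 1 / 256 * s ^ 12) := by ring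
  rw [e]
  have : 0 ≤ 5 / 64 * s ^ 8 + 1 / 64 * s ^ 10 + 1 / 256 * s ^ 12 := by positivity
  linarith

lemma lpart_le (hconc : ConcaveOn ℝ (Icc (0 : ℝ) 1) g) (hg : Antitone g)
    (hnn : ∀ t ∈ Icc (0 : ℝ) 1, 0 ≤ g t) {p q y : ℝ} (hp : 0 ≤ p) (hpq : p ≤ q) (hq : q ≤ 1)
    (hqy : q ≤ y) (hy : 0 < y) (hyY : y ≤ g 0) :
    lpart (levelEnd g y) y p q ≤ ∫ s in p..q, gain g s := by
  have hle : ∫ s in p..q, (s ^ 2 / 2 + s ^ 4 / 8 + s ^ 6 / 16
      - (1 - levelEnd g y) / y * s) ≤ ∫ s in p..q, gain g s := by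
    refine intervalIntegral.integral_mono_on hpq
      ((by fun_prop : Continuous _).intervalIntegrable _ _) (intervalIntegrable_gain g _ _)
      fun s hs => ?_
    have h := gain_ge hconc hg hnn (hp.trans hs.1) (hs.2.trans hqy) hy hyY
    have h2 := sqrt_le_series (hp.trans hs.1) (hs.2.trans hq)
    rw [mul_div_right_comm] at h
    linarith
  refine le_trans (le_of_eq ?_) hle
  rw [intervalIntegral.integral_eq_sub_of_hasDerivAt
    (f := fun s => s ^ 3 / 6 + s ^ 5 / 40 + s ^ 7 / 112 - (1 - levelEnd g y) / y * (s ^ 2 / 2))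
    (fun s _ => ((((hasDerivAt_pow 3 s).div_const 6).fun_add
      ((hasDerivAt_pow 5 s).div_const 40)).fun_add ((hasDerivAt_pow 7 s).div_const 112)).fun_sub
      (((hasDerivAt_pow 2 s).div_const 2).const_mul _) |>.congr_deriv (by norm_num; ring))
    ((by fun_prop : Continuous _).intervalIntegrable _ _)]
  unfold lpart
  field_simp
  ring

lemma top_le (hconc : ConcaveOn ℝ (Icc (0 : ℝ) 1) g) (hg : Antitone g)
    (hnn : ∀ t ∈ Icc (0 : ℝ) 1, 0 ≤ g t) {y : ℝ} (hy : 1 ≤ y) (hyY : y ≤ g 0) :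
    (y - 1) - (1 - levelEnd g y) * (y ^ 2 - 1) / (2 * y) ≤ ∫ s in (1 : ℝ)..y, gain g s := by
  have hle : ∫ s in (1 : ℝ)..y, (1 - (1 - levelEnd g y) / y * s) ≤ ∫ s in (1 : ℝ)..y, gain g s := by
    refine intervalIntegral.integral_mono_on hy
      ((by fun_prop : Continuous _).intervalIntegrable _ _) (intervalIntegrable_gain g _ _)
      fun s hs => ?_
    have h := gain_ge hconc hg hnn (zero_le_one.trans hs.1) hs.2 (by linarith) hyY
    rw [sqrt_eq_zero'.2 (by nlinarith [hs.1]), mul_div_right_comm] at h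
    linarith
  refine le_trans (le_of_eq ?_) hle
  rw [intervalIntegral.integral_eq_sub_of_hasDerivAt
    (f := fun s => s - (1 - levelEnd g y) / y * (s ^ 2 / 2))
    (fun s _ => (hasDerivAt_id' s).fun_sub (((hasDerivAt_pow 2 s).div_const 2).const_mul _)
      |>.congr_deriv (by norm_num))
    ((by fun_prop : Continuous _).intervalIntegrable _ _)]
  have : y ≠ 0 := by linarith
  field_simp
  ring

lemma level_ineq (hconc : ConcaveOn ℝ (Icc (0 : ℝ) 1) g) (hg : Antitone g)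
    (hnn : ∀ t ∈ Icc (0 : ℝ) 1, 0 ≤ g t) (hge : ∀ t ∈ Icc (0 : ℝ) 1, √(1 - t ^ 2) ≤ g t)
    {y : ℝ} (hy : 0 < y) (hyY : y ≤ g 0) :
    1 / 1000 * gain g y ≤ (∫ t in √(1 - y ^ 2)..levelEnd g y, psi3 t y)
      + 2 * gain g y * ∫ s in (0 : ℝ)..y, gain g s := by
  set T := levelEnd g y with hT
  set a := √(1 - y ^ 2) with ha
  have hl := gain_nonneg hge hy.le
  have hT0 : 0 ≤ T := levelEnd_nonneg g y
  have hT1 : T ≤ 1 := levelEnd_le_one g y
  have ha0 : 0 ≤ a := sqrt_nonneg _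
  have hga : gain g y = T - a := rfl
  have hint : ∫ t in a..T, psi3 t y = gain g y *
      (π / 2 - 3 * π ^ 2 / 16 * y + 2 / 5 * y ^ 3 - 4 / 15 * y * (T ^ 2 + T * a + a ^ 2)) := by
    rw [intervalIntegral.integral_eq_sub_of_hasDerivAt
      (f := fun t => (π / 2 - 3 * π ^ 2 / 16 * y + 2 / 5 * y ^ 3) * t - 4 / 15 * y * t ^ 3)
      (fun t _ => ((hasDerivAt_id' t).const_mul _).fun_sub ((hasDerivAt_pow 3 t).const_mul _)
        |>.congr_deriv (by unfold psi3; norm_num; ring))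
      ((by unfold psi3; fun_prop : Continuous fun t => psi3 t y).intervalIntegrable _ _), hga]
    ring
  have hbrk : brk T a y ≤
      π / 2 - 3 * π ^ 2 / 16 * y + 2 / 5 * y ^ 3 - 4 / 15 * y * (T ^ 2 + T * a + a ^ 2) := by
    have h1 := pi_gt_d6
    have h2 := pi_lt_d6
    have h3 : π ^ 2 ≤ 3.141593 ^ 2 := pow_le_pow_left₀ pi_pos.le h2.le 2
    unfold brk
    nlinarith
  suffices h : ∃ B, B ≤ ∫ s in (0 : ℝ)..y, gain g s ∧ 1 / 1000 ≤ brk T a y + 2 * B by
    obtain ⟨B, hB, hm⟩ := h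
    rw [hint]
    nlinarith [mul_le_mul_of_nonneg_left hm hl, mul_le_mul_of_nonneg_left hbrk hl,
      mul_le_mul_of_nonneg_left hB hl]
  have hnonneg : ∀ p q, 0 ≤ p → p ≤ q → 0 ≤ ∫ s in p..q, gain g s := fun p q hp hpq =>
    intervalIntegral.integral_nonneg hpq fun s hs => gain_nonneg hge (hp.trans hs.1)
  have hsplit : ∀ p, ∫ s in (0 : ℝ)..y, gain g s
      = (∫ s in (0 : ℝ)..p, gain g s) + ∫ s in p..y, gain g s := fun p =>
    (intervalIntegral.integral_add_adjacent_intervals (intervalIntegrable_gain g _ _)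
      (intervalIntegrable_gain g _ _)).symm
  rcases le_total y (62 / 100) with h1 | h1
  · refine ⟨0, hnonneg 0 y le_rfl hy.le, ?_⟩
    have := crude_low hy.le h1 ha0 (sqrt_le_one.2 (by nlinarith)) hT0 hT1
    linarith
  rcases le_total y 1 with h2 | h2
  · have hsq : a ^ 2 + y ^ 2 = 1 := by rw [ha, sq_sqrt (by nlinarith)]; ring
    obtain ⟨p, hp0, hpy, hm⟩ := cert_mid h1 h2 hsq ha0 (sub_nonneg.1 (hga ▸ hl)) hT1
    refine ⟨lpart T y p y, ?_, by unfold midBrk at hm; linarith⟩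
    rw [hsplit p]
    have := hnonneg 0 p le_rfl hp0
    have := lpart_le hconc hg hnn hp0 hpy h2 le_rfl hy hyY
    linarith
  have ha' : a = 0 := by rw [ha]; exact sqrt_eq_zero'.2 (by nlinarith)
  rw [ha']
  rcases le_total (175 / 100) y with h3 | h3
  · refine ⟨0, hnonneg 0 y le_rfl hy.le, ?_⟩
    have := crude_high h3 hT0 hT1
    linarith
  obtain ⟨p, hp0, hp1, hm⟩ := cert_high h2 h3 hT0 hT1
  refine ⟨lpart T y p 1 + ((y - 1) - (1 - T) * (y ^ 2 - 1) / (2 * y)), ?_, by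
    unfold highBrk at hm; linarith⟩
  rw [hsplit p, ← intervalIntegral.integral_add_adjacent_intervals (intervalIntegrable_gain g p 1)
    (intervalIntegrable_gain g 1 y)]
  have := hnonneg 0 p le_rfl hp0
  have := lpart_le hconc hg hnn hp0 hp1 le_rfl h2 hy hyY
  have := top_le hconc hg hnn h2 hyY
  linarith

end

/-- Twice the ordered double integral is the square of the integral. -/
lemma two_ordered_le_sq {f : ℝ → ℝ} {Y : ℝ} (hY : 0 ≤ Y)
    (hf : IntervalIntegrable f volume 0 Y) :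
    2 * ∫ y in (0 : ℝ)..Y, f y * ∫ s in (0 : ℝ)..y, f s = (∫ y in (0 : ℝ)..Y, f y) ^ 2 := by
  set μ := volume.restrict (Ioc (0 : ℝ) Y) with hμ
  have hfi : Integrable f μ := (intervalIntegrable_iff_integrableOn_Ioc_of_le hY).1 hf
  set I := ∫ y, f y ∂μ with hI
  set A : ℝ → ℝ → ℝ := fun y s => if s < y then f y * f s else 0 with hA
  have hAi : Integrable (Function.uncurry A) (μ.prod μ) := by
    have h := (hfi.mul_prod hfi).indicator
      (measurableSet_lt measurable_snd measurable_fst : MeasurableSet {p : ℝ × ℝ | p.2 < p.1})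
    refine h.congr (Filter.Eventually.of_forall fun p => ?_)
    simp only [Set.indicator, Function.uncurry, hA, Set.mem_ofPred_eq]
  have hsw := integral_integral_swap hAi
  have hlo : ∀ y ∈ Ioc (0 : ℝ) Y, ∫ s, A y s ∂μ = f y * ∫ s in (0 : ℝ)..y, f s := by
    intro y hy
    rw [intervalIntegral.integral_of_le hy.1.le, ← integral_const_mul]
    conv_rhs => rw [integral_Ioc_eq_integral_Ioo]
    rw [hμ, ← integral_indicator measurableSet_Ioc, ← integral_indicator measurableSet_Ioo]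
    refine integral_congr_ae (Filter.Eventually.of_forall fun s => ?_)
    by_cases hs : s ∈ Ioo (0 : ℝ) y
    · simp [hA, hs, hs.2, show s ∈ Ioc (0 : ℝ) Y from ⟨hs.1, hs.2.le.trans hy.2⟩]
    · by_cases hs' : s ∈ Ioc (0 : ℝ) Y
      · have : ¬ s < y := fun h => hs ⟨hs'.1, h⟩
        simp [hA, hs, hs', this]
      · simp [hs, hs']
  have hhi : ∀ s ∈ Ioc (0 : ℝ) Y, ∫ y, A y s ∂μ = f s * (I - ∫ y in (0 : ℝ)..s, f y) := by
    intro s hs
    have hIeq : I - ∫ y in (0 : ℝ)..s, f y = ∫ y in s..Y, f y := by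
      have e : I = ∫ y in (0 : ℝ)..Y, f y := (intervalIntegral.integral_of_le hY).symm
      rw [e, intervalIntegral.integral_interval_sub_left hf
        (hf.mono_set (by rw [uIcc_of_le hs.1.le, uIcc_of_le hY]; exact Icc_subset_Icc_right hs.2))]
    rw [hIeq, intervalIntegral.integral_of_le hs.2, ← integral_const_mul,
      hμ, ← integral_indicator measurableSet_Ioc, ← integral_indicator measurableSet_Ioc]
    refine integral_congr_ae (Filter.Eventually.of_forall fun y => ?_)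
    by_cases hy : y ∈ Ioc s Y
    · simp [hA, hy, hy.1, show y ∈ Ioc (0 : ℝ) Y from ⟨hs.1.trans hy.1, hy.2⟩, mul_comm]
    · by_cases hy' : y ∈ Ioc (0 : ℝ) Y
      · have : ¬ s < y := fun h => hy ⟨h, hy'.2⟩
        simp [hA, hy, hy', this]
      · simp [hy, hy']
  have hP := hfi.mul_prod hfi
  have hint : Integrable (fun y => f y * ∫ s in (0 : ℝ)..y, f s) μ := by
    refine hAi.integral_prod_left.congr ?_
    filter_upwards [ae_restrict_mem measurableSet_Ioc] with y hy
    exact hlo y hy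
  have e1 : ∫ y, ∫ s, A y s ∂μ ∂μ = ∫ y, f y * (∫ s in (0 : ℝ)..y, f s) ∂μ :=
    setIntegral_congr_fun measurableSet_Ioc hlo
  have e2 : ∫ s, ∫ y, A y s ∂μ ∂μ = ∫ s, f s * (I - ∫ y in (0 : ℝ)..s, f y) ∂μ :=
    setIntegral_congr_fun measurableSet_Ioc hhi
  rw [e1, e2] at hsw
  simp only [mul_sub] at hsw
  rw [integral_sub (hfi.mul_const _) hint, integral_mul_const] at hsw
  rw [intervalIntegral.integral_of_le hY, intervalIntegral.integral_of_le hY, ← hI]
  change 2 * ∫ y, f y * (∫ s in (0 : ℝ)..y, f s) ∂μ = I ^ 2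
  rw [← hI] at hsw
  nlinarith [hsw]

/-- The profile inequality. -/
theorem profile3 {g : ℝ → ℝ} (hconc : ConcaveOn ℝ (Icc (0 : ℝ) 1) g) (hg : Antitone g)
    (hnn : ∀ t ∈ Icc (0 : ℝ) 1, 0 ≤ g t) (hge : ∀ t ∈ Icc (0 : ℝ) 1, √(1 - t ^ 2) ≤ g t)
    (hC : (∫ t in (0 : ℝ)..1, g t ^ 4) / 4 ≤ ∫ t in (0 : ℝ)..1, t ^ 2 * g t ^ 2) :
    3 * π ^ 2 / 32 * (∫ t in (0 : ℝ)..1, g t ^ 2)
        + 1 / 1000 * (∫ t in (0 : ℝ)..1, (g t - √(1 - t ^ 2)))
      ≤ (∫ t in (0 : ℝ)..1, g t) ^ 2 := by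
  set c : ℝ → ℝ := fun t => √(1 - t ^ 2) with hc
  set Y := g 0 with hY
  have hY1 : 1 ≤ Y := by
    have := hge 0 ⟨le_rfl, zero_le_one⟩
    simpa using this
  have hY0 : 0 ≤ Y := by linarith
  have hcc : Continuous c := by fun_prop
  have hgm : Measurable g := hg.measurable
  set μ := volume.restrict (Ioc (0 : ℝ) 1) with hμ
  set ν := volume.restrict (Ioc (0 : ℝ) Y) with hν
  -- layer cake
  have layer : ∀ (ψ Ψ : ℝ → ℝ → ℝ), Continuous (Function.uncurry ψ) →
      (∀ t y, HasDerivAt (Ψ t) (ψ t y) y) →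
      ∫ t in (0 : ℝ)..1, (Ψ t (g t) - Ψ t (c t))
        = ∫ y in (0 : ℝ)..Y, ∫ t in √(1 - y ^ 2)..levelEnd g y, ψ t y := by
    intro ψ Ψ hψ hΨ
    set K : ℝ → ℝ → ℝ := fun t y => if c t < y ∧ y ≤ g t then ψ t y else 0 with hK
    have hKi : Integrable (Function.uncurry K) (μ.prod ν) := by
      obtain ⟨M, hM⟩ := (isCompact_Icc.prod isCompact_Icc).exists_bound_of_continuousOn
        (s := Icc (0 : ℝ) 1 ×ˢ Icc (0 : ℝ) Y) hψ.continuousOn
      refine Integrable.of_bound ?_ M ?_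
      · refine Measurable.aestronglyMeasurable ?_
        refine Measurable.ite ?_ hψ.measurable measurable_const
        exact (measurableSet_lt (hcc.measurable.comp measurable_fst) measurable_snd).inter
          (measurableSet_le measurable_snd (hgm.comp measurable_fst))
      · rw [hμ, hν, Measure.prod_restrict]
        filter_upwards [ae_restrict_mem (measurableSet_Ioc.prod measurableSet_Ioc)] with p hp
        simp only [Function.uncurry, hK]
        split_ifs
        · exact hM p ⟨Ioc_subset_Icc_self hp.1, Ioc_subset_Icc_self hp.2⟩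
        · simpa using le_trans (norm_nonneg _) (hM (0, 0) ⟨⟨le_rfl, zero_le_one⟩, ⟨le_rfl, hY0⟩⟩)
    have e1 : ∀ t ∈ Ioc (0 : ℝ) 1, ∫ y, K t y ∂ν = Ψ t (g t) - Ψ t (c t) := by
      intro t ht
      have hct : c t ≤ g t := hge t (Ioc_subset_Icc_self ht)
      rw [← intervalIntegral.integral_eq_sub_of_hasDerivAt (fun y _ => hΨ t y)
        ((by fun_prop : Continuous (ψ t)).intervalIntegrable _ _),
        intervalIntegral.integral_of_le hct, hν, ← integral_indicator measurableSet_Ioc,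
        ← integral_indicator measurableSet_Ioc]
      refine integral_congr_ae (Filter.Eventually.of_forall fun y => ?_)
      by_cases hy : y ∈ Ioc (c t) (g t)
      · simp [hK, hy, hy.1, hy.2, show y ∈ Ioc (0 : ℝ) Y from
          ⟨(sqrt_nonneg _).trans_lt hy.1, hy.2.trans (hg ht.1.le)⟩]
      · by_cases hy' : y ∈ Ioc (0 : ℝ) Y
        · have : ¬ (c t < y ∧ y ≤ g t) := fun h => hy ⟨h.1, h.2⟩
          simp [hK, hy, hy', this]
        · simp [hy, hy']
    have e2 : ∀ y ∈ Ioc (0 : ℝ) Y,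
        ∫ t, K t y ∂μ = ∫ t in √(1 - y ^ 2)..levelEnd g y, ψ t y := by
      intro y hy
      have hle : √(1 - y ^ 2) ≤ levelEnd g y := sub_nonneg.1 (gain_nonneg hge hy.1.le)
      rw [intervalIntegral.integral_of_le hle, hμ, ← integral_indicator measurableSet_Ioc,
        ← integral_indicator measurableSet_Ioc]
      refine integral_congr_ae ?_
      filter_upwards [compl_mem_ae_iff.2 (measure_singleton (levelEnd g y))] with t ht
      have ht' : t ≠ levelEnd g y := ht
      by_cases h1 : t ∈ Ioc (0 : ℝ) 1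
      · have hiff : c t < y ↔ √(1 - y ^ 2) < t := by
          rw [hc]
          simp only
          rw [sqrt_lt' hy.1, sqrt_lt' h1.1]
          constructor <;> intro <;> linarith
        rw [indicator_of_mem h1]
        by_cases h2 : t ∈ Ioc √(1 - y ^ 2) (levelEnd g y)
        · rw [indicator_of_mem h2]
          simp only [hK]
          rw [if_pos ⟨hiff.2 h2.1, le_of_lt_levelEnd hg h1.1.le (lt_of_le_of_ne h2.2 ht')⟩]
        · rw [indicator_of_notMem h2]
          simp only [hK]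
          rw [if_neg fun h => h2 ⟨hiff.1 h.1, le_levelEnd (Ioc_subset_Icc_self h1) h.2⟩]
      · rw [indicator_of_notMem h1, indicator_of_notMem]
        exact fun h => h1 ⟨(sqrt_nonneg _).trans_lt h.1, h.2.trans (levelEnd_le_one g y)⟩
    rw [intervalIntegral.integral_of_le zero_le_one, intervalIntegral.integral_of_le hY0,
      ← setIntegral_congr_fun measurableSet_Ioc e1, ← setIntegral_congr_fun measurableSet_Ioc e2]
    exact integral_integral_swap hKi
  have h1 : ∫ t in (0 : ℝ)..1, (hfun3 t (g t) - hfun3 t (c t))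
      = ∫ y in (0 : ℝ)..Y, ∫ t in √(1 - y ^ 2)..levelEnd g y, psi3 t y := by
    refine layer psi3 hfun3 ?_ fun t y => ?_
    · unfold psi3 Function.uncurry; fun_prop
    · unfold hfun3 psi3
      exact (((hasDerivAt_id' y).const_mul _).fun_sub ((hasDerivAt_pow 2 y).const_mul _)).fun_add
        ((((hasDerivAt_pow 4 y).div_const 4).fun_sub ((hasDerivAt_pow 2 y).const_mul _)).const_mul _)
        |>.congr_deriv (by norm_num; ring)
  have h2 : ∫ t in (0 : ℝ)..1, (g t - c t) = ∫ y in (0 : ℝ)..Y, gain g y := by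
    have := layer (fun _ _ => 1) (fun _ y => y) (by fun_prop) fun _ y => hasDerivAt_id' y
    simpa [gain] using this
  have hgi : IntervalIntegrable (gain g) volume 0 Y := intervalIntegrable_gain g _ _
  have hL : Continuous fun y => ∫ s in (0 : ℝ)..y, gain g s :=
    intervalIntegral.continuous_primitive (intervalIntegrable_gain g) 0
  have hTm : Measurable (levelEnd g) := (levelEnd_antitone g).measurable
  have hin : IntervalIntegrable (fun y => ∫ t in √(1 - y ^ 2)..levelEnd g y, psi3 t y) volume 0 Y := by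
    have e : (fun y => ∫ t in √(1 - y ^ 2)..levelEnd g y, psi3 t y) = fun y => gain g y *
        (π / 2 - 3 * π ^ 2 / 16 * y + 2 / 5 * y ^ 3
          - 4 / 15 * y * (levelEnd g y ^ 2 + levelEnd g y * √(1 - y ^ 2) + √(1 - y ^ 2) ^ 2)) := by
      funext y
      rw [intervalIntegral.integral_eq_sub_of_hasDerivAt
        (f := fun t => (π / 2 - 3 * π ^ 2 / 16 * y + 2 / 5 * y ^ 3) * t - 4 / 15 * y * t ^ 3)
        (fun t _ => ((hasDerivAt_id' t).const_mul _).fun_sub ((hasDerivAt_pow 3 t).const_mul _)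
          |>.congr_deriv (by unfold psi3; norm_num; ring))
        ((by unfold psi3; fun_prop : Continuous fun t => psi3 t y).intervalIntegrable _ _)]
      unfold gain
      ring
    rw [e, intervalIntegrable_iff]
    have hg' := (intervalIntegrable_iff.1 hgi)
    refine Integrable.mul_bdd hg' ?_ (c := 4 + 3 * π ^ 2 * Y + Y ^ 3 + 3 * Y) ?_
    · exact Measurable.aestronglyMeasurable (by fun_prop)
    · filter_upwards [ae_restrict_mem measurableSet_uIoc] with y hy
      rw [uIoc_of_le hY0] at hy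
      have a0 := sqrt_nonneg (1 - y ^ 2)
      have a1 : √(1 - y ^ 2) ≤ 1 := sqrt_le_one.2 (by nlinarith [hy.1])
      have b0 := levelEnd_nonneg g y
      have b1 := levelEnd_le_one g y
      have q0 : 0 ≤ levelEnd g y ^ 2 + levelEnd g y * √(1 - y ^ 2) + √(1 - y ^ 2) ^ 2 := by
        positivity
      have q1 : levelEnd g y ^ 2 + levelEnd g y * √(1 - y ^ 2) + √(1 - y ^ 2) ^ 2 ≤ 3 := by
        nlinarith
      have p3 : y ^ 3 ≤ Y ^ 3 := pow_le_pow_left₀ hy.1.le hy.2 3
      have p3' : 0 ≤ y ^ 3 := pow_nonneg hy.1.le 3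
      have := pi_pos
      have := pi_lt_four
      have r : y * (levelEnd g y ^ 2 + levelEnd g y * √(1 - y ^ 2) + √(1 - y ^ 2) ^ 2) ≤ Y * 3 :=
        mul_le_mul hy.2 q1 q0 hY0
      have r0 := mul_nonneg hy.1.le q0
      have r2 : π ^ 2 * y ≤ π ^ 2 * Y := mul_le_mul_of_nonneg_left hy.2 (sq_nonneg _)
      have r3 : 0 ≤ π ^ 2 * y := mul_nonneg (sq_nonneg _) hy.1.le
      rw [Real.norm_eq_abs, abs_le]
      constructor <;> linarith
  have hmain : 1 / 1000 * ∫ y in (0 : ℝ)..Y, gain g y ≤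
      (∫ y in (0 : ℝ)..Y, ∫ t in √(1 - y ^ 2)..levelEnd g y, psi3 t y)
        + 2 * ∫ y in (0 : ℝ)..Y, gain g y * ∫ s in (0 : ℝ)..y, gain g s := by
    have hi2 : IntervalIntegrable
        (fun y => gain g y * ∫ s in (0 : ℝ)..y, gain g s) volume 0 Y :=
      hgi.mul_continuousOn hL.continuousOn
    rw [← intervalIntegral.integral_const_mul, ← intervalIntegral.integral_const_mul,
      ← intervalIntegral.integral_add hin (hi2.const_mul 2)]
    refine intervalIntegral.integral_mono_on_of_le_Ioo hY0 (hgi.const_mul _)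
      (hin.add (hi2.const_mul 2)) fun y hy => ?_
    have := level_ineq hconc hg hnn hge hy.1 hy.2.le
    linarith
  rw [two_ordered_le_sq hY0 hgi, ← h1, ← h2] at hmain
  -- integrability
  have gi1 : IntervalIntegrable g volume 0 1 := hg.intervalIntegrable
  have gp : ∀ p : ℕ, IntervalIntegrable (fun t => g t ^ p) volume 0 1 := fun p => by
    refine AntitoneOn.intervalIntegrable ?_
    rw [uIcc_of_le zero_le_one]
    exact fun a _ b hb hab => pow_le_pow_left₀ (hnn b hb) (hg hab) p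
  have gt2 : IntervalIntegrable (fun t => t ^ 2 * g t ^ 2) volume 0 1 :=
    (gp 2).continuousOn_mul (by fun_prop)
  have hhc : Continuous fun t => hfun3 t (c t) := by unfold hfun3; fun_prop
  have hc1 : ∫ t in (0 : ℝ)..1, c t = π / 4 := by
    have hfull := integral_sqrt_one_sub_sq
    have hneg : ∫ t in (-1 : ℝ)..0, c t = ∫ t in (0 : ℝ)..1, c t := by
      have := intervalIntegral.integral_comp_neg c (a := (0 : ℝ)) (b := 1)
      simp only [neg_zero] at this
      rw [← this]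
      simp [hc]
    have hadd := intervalIntegral.integral_add_adjacent_intervals
      (hcc.intervalIntegrable (μ := volume) (-1 : ℝ) 0) (hcc.intervalIntegrable (μ := volume) 0 1)
    simp only [hc] at hneg hadd ⊢
    linarith
  have hc2 : ∫ t in (0 : ℝ)..1, hfun3 t (c t) = π ^ 2 / 16 := by
    have e : ∀ t ∈ uIcc (0 : ℝ) 1, hfun3 t (c t)
        = π / 2 * c t + (-(3 * π ^ 2 / 32) * (1 - t ^ 2)
          + 2 / 5 * ((1 - t ^ 2) ^ 2 / 4 - t ^ 2 * (1 - t ^ 2))) := by
      intro t ht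
      rw [uIcc_of_le zero_le_one] at ht
      have hs : c t ^ 2 = 1 - t ^ 2 := sq_sqrt (by nlinarith [ht.1, ht.2])
      unfold hfun3
      rw [show c t ^ 4 = (c t ^ 2) ^ 2 by ring, hs]
      ring
    rw [intervalIntegral.integral_congr e, intervalIntegral.integral_add
      ((hcc.intervalIntegrable _ _).const_mul _)
      ((by fun_prop : Continuous _).intervalIntegrable _ _),
      intervalIntegral.integral_const_mul, hc1,
      intervalIntegral.integral_eq_sub_of_hasDerivAt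
        (f := fun t => -(3 * π ^ 2 / 32) * (t - t ^ 3 / 3)
          + 2 / 5 * ((t - 2 * (t ^ 3 / 3) + t ^ 5 / 5) / 4 - (t ^ 3 / 3 - t ^ 5 / 5)))
        (fun t _ => (((hasDerivAt_id' t).fun_sub ((hasDerivAt_pow 3 t).div_const 3)).const_mul _).fun_add
          (((((hasDerivAt_id' t).fun_sub (((hasDerivAt_pow 3 t).div_const 3).const_mul _)).fun_add
            ((hasDerivAt_pow 5 t).div_const 5)).div_const 4).fun_sub
              (((hasDerivAt_pow 3 t).div_const 3).fun_sub ((hasDerivAt_pow 5 t).div_const 5))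
            |>.const_mul _) |>.congr_deriv (by norm_num; ring))
        ((by fun_prop : Continuous _).intervalIntegrable _ _)]
    norm_num
    ring
  have hHg : IntervalIntegrable (fun t => hfun3 t (g t)) volume 0 1 :=
    ((gi1.const_mul _).sub ((gp 2).const_mul _)).add ((((gp 4).div_const 4).sub gt2).const_mul _)
  have hG : ∫ t in (0 : ℝ)..1, hfun3 t (g t)
      = π / 2 * (∫ t in (0 : ℝ)..1, g t) - 3 * π ^ 2 / 32 * (∫ t in (0 : ℝ)..1, g t ^ 2)
        + 2 / 5 * ((∫ t in (0 : ℝ)..1, g t ^ 4) / 4 - ∫ t in (0 : ℝ)..1, t ^ 2 * g t ^ 2) := by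
    unfold hfun3
    rw [intervalIntegral.integral_add ((gi1.const_mul _).sub ((gp 2).const_mul _))
        ((((gp 4).div_const 4).sub gt2).const_mul _),
      intervalIntegral.integral_sub (gi1.const_mul _) ((gp 2).const_mul _),
      intervalIntegral.integral_const_mul, intervalIntegral.integral_const_mul,
      intervalIntegral.integral_const_mul,
      intervalIntegral.integral_sub ((gp 4).div_const 4) gt2, intervalIntegral.integral_div]
  have hga : ∫ t in (0 : ℝ)..1, (g t - c t) = (∫ t in (0 : ℝ)..1, g t) - π / 4 := by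
    rw [intervalIntegral.integral_sub gi1 (hcc.intervalIntegrable _ _), hc1]
  rw [intervalIntegral.integral_sub hHg (hhc.intervalIntegrable _ _), hG, hc2, hga] at hmain
  change _ + 1 / 1000 * (∫ t in (0 : ℝ)..1, (g t - c t)) ≤ _
  rw [hga]
  nlinarith [hmain]

end Vale.Agent.P237U
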