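import Mathlib

/-!
# A numerical inequality in two variables
-/

namespace Vale.Agent.P237U

/-- Lower bound for a layer integral. -/
noncomputable def lpart (T y p q : ℝ) : ℝ :=
  (q ^ 3 - p ^ 3) / 6 + (q ^ 5 - p ^ 5) / 40 + (q ^ 7 - p ^ 7) / 112
    - (1 - T) * (q ^ 2 - p ^ 2) / (2 * y)

/-- The bracket of the layer at height `y`. -/
noncomputable def brk (T a y : ℝ) : ℝ :=
  15707 / 10000 - 18506 / 10000 * y + 2 / 5 * y ^ 3
    - 4 / 15 * y * (T ^ 2 + T * a + a ^ 2)

/-- An affine function of `T` minus a convex quadratic is above its values at the ends. -/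
lemma concave_ends {c b e f T l h : ℝ} (hc : 0 ≤ c) (hl : l ≤ T) (hh : T ≤ h)
    (h1 : 0 ≤ e + f * l - c * (l ^ 2 + l * b))
    (h2 : 0 ≤ e + f * h - c * (h ^ 2 + h * b)) :
    0 ≤ e + f * T - c * (T ^ 2 + T * b) := by
  rcases eq_or_lt_of_le (hl.trans hh) with hlh | hlh
  · obtain rfl : T = l := le_antisymm (hh.trans hlh.ge) hl
    exact h1
  · have k : 0 ≤ (h - l) * (e + f * T - c * (T ^ 2 + T * b)) := by
      have : (h - l) * (e + f * T - c * (T ^ 2 + T * b))
          = (h - T) * (e + f * l - c * (l ^ 2 + l * b)) + (T - l) * (e + f * h - c * (h ^ 2 + h * b))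
            + c * (h - l) * (T - l) * (h - T) := by ring
      rw [this]
      have := sub_nonneg.2 hh
      have := sub_nonneg.2 hl
      have := sub_pos.2 hlh
      positivity
    exact (mul_nonneg_iff_of_pos_left (sub_pos.2 hlh)).1 k

/-- The bracket with its bonus, above height one. -/
noncomputable def highBrk (T y p : ℝ) : ℝ :=
  brk T 0 y + 2 * (lpart T y p 1 + (y - 1) - (1 - T) * (y ^ 2 - 1) / (2 * y)) - 1 / 1000

/-- The bracket with its bonus, below height one. -/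
noncomputable def midBrk (T a y p : ℝ) : ℝ := brk T a y + 2 * lpart T y p y - 1 / 1000

lemma midBrk_ends {T a y p l h : ℝ} (hy : 0 < y) (hl : l ≤ T) (hh : T ≤ h)
    (h1 : 0 ≤ y * midBrk l a y p) (h2 : 0 ≤ y * midBrk h a y p) : 0 ≤ midBrk T a y p := by
  refine (mul_nonneg_iff_of_pos_left hy).1 ?_
  set e := y * (15707 / 10000 - 18506 / 10000 * y + 2 / 5 * y ^ 3 - 4 / 15 * y * a ^ 2)
    + y * 2 * ((y ^ 3 - p ^ 3) / 6 + (y ^ 5 - p ^ 5) / 40 + (y ^ 7 - p ^ 7) / 112)
    - (y ^ 2 - p ^ 2) - y / 1000 with he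
  have hform : ∀ S, y * midBrk S a y p
      = e + (y ^ 2 - p ^ 2) * S - 4 / 15 * y ^ 2 * (S ^ 2 + S * a) := by
    intro S
    rw [he, midBrk, brk, lpart]
    field_simp
    ring
  rw [hform] at h1 h2 ⊢
  exact concave_ends (by positivity) hl hh h1 h2

lemma highBrk_ends {T y p l h : ℝ} (hy : 0 < y) (hl : l ≤ T) (hh : T ≤ h)
    (h1 : 0 ≤ y * highBrk l y p) (h2 : 0 ≤ y * highBrk h y p) : 0 ≤ highBrk T y p := by
  refine (mul_nonneg_iff_of_pos_left hy).1 ?_
  set e := y * (15707 / 10000 - 18506 / 10000 * y + 2 / 5 * y ^ 3)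
    + y * 2 * ((1 - p ^ 3) / 6 + (1 - p ^ 5) / 40 + (1 - p ^ 7) / 112 + (y - 1))
    - (1 - p ^ 2) - (y ^ 2 - 1) - y / 1000 with he
  have hform : ∀ S, y * highBrk S y p
      = e + (y ^ 2 - p ^ 2) * S - 4 / 15 * y ^ 2 * (S ^ 2 + S * 0) := by
    intro S
    rw [he, highBrk, brk, lpart]
    field_simp
    ring
  rw [hform] at h1 h2 ⊢
  exact concave_ends (by positivity) hl hh h1 h2

lemma brk_mono {T a a' y : ℝ} (hy : 0 ≤ y) (hT : 0 ≤ T) (ha : 0 ≤ a) (h : a ≤ a') :
    brk T a' y ≤ brk T a y := by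
  unfold brk
  have : T ^ 2 + T * a + a ^ 2 ≤ T ^ 2 + T * a' + a' ^ 2 := by nlinarith
  nlinarith

lemma crude_low {T a y : ℝ} (hy0 : 0 ≤ y) (hy : y ≤ 62 / 100) (ha : 0 ≤ a) (ha1 : a ≤ 1)
    (hT : 0 ≤ T) (hT1 : T ≤ 1) : 1 / 1000 ≤ brk T a y := by
  have h : T ^ 2 + T * a + a ^ 2 ≤ 3 := by nlinarith
  unfold brk
  nlinarith [mul_le_mul_of_nonneg_left h hy0, sq_nonneg (y - 62 / 100), mul_nonneg hy0 (sq_nonneg (y - 62 / 100))]

lemma crude_high {T y : ℝ} (hy : 175 / 100 ≤ y) (hT : 0 ≤ T) (hT1 : T ≤ 1) :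
    1 / 1000 ≤ brk T 0 y := by
  have h : T ^ 2 + T * 0 + (0 : ℝ) ^ 2 ≤ 1 := by nlinarith
  unfold brk
  nlinarith [mul_le_mul_of_nonneg_left h (by linarith : (0 : ℝ) ≤ y),
    mul_nonneg (sub_nonneg.2 hy) (sub_nonneg.2 hy),
    mul_nonneg (mul_nonneg (sub_nonneg.2 hy) (sub_nonneg.2 hy)) (by linarith : (0 : ℝ) ≤ y)]

lemma midBrk_a_mono {T a a' y p : ℝ} (hy : 0 ≤ y) (hT : 0 ≤ T) (ha : 0 ≤ a) (h : a ≤ a') :
    midBrk T a' y p ≤ midBrk T a y p := by
  unfold midBrk
  linarith [brk_mono hy hT ha h]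

lemma le_line {a y c0 c1 : ℝ} (h : a ^ 2 + y ^ 2 = 1) (hc : 1 + c1 ^ 2 ≤ c0 ^ 2) (hc0 : 0 ≤ c0) :
    a ≤ c0 + c1 * y := by
  nlinarith [sq_nonneg (a * c1 + y), sq_nonneg (a - c1 * y - c0)]

lemma end1_0_0 {y : ℝ} (hl : (31 / 50) ≤ y) (hh : y ≤ (21 / 25)) :
    0 ≤ y * midBrk (27 / 50) ((293 / 200) + (-107 / 100) * y) y (31 / 50) := by
  have hy : 0 < y := lt_of_lt_of_le (by norm_num) hl
  have key : y * midBrk (27 / 50) ((293 / 200) + (-107 / 100) * y) y (31 / 50) =
      (7063256566000 / 214358881) * ((21 / 25) - y) ^ 8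
      + (392549060756221 / 1714871048) * (y - (31 / 50)) ^ 1 * ((21 / 25) - y) ^ 7
      + (3487782382562453 / 5144613144) * (y - (31 / 50)) ^ 2 * ((21 / 25) - y) ^ 6
      + (1904298052024113 / 1714871048) * (y - (31 / 50)) ^ 3 * ((21 / 25) - y) ^ 5
      + (5601094189385935 / 5144613144) * (y - (31 / 50)) ^ 4 * ((21 / 25) - y) ^ 4
      + (3306653308716389 / 5144613144) * (y - (31 / 50)) ^ 5 * ((21 / 25) - y) ^ 3
      + (369902923911509 / 1714871048) * (y - (31 / 50)) ^ 6 * ((21 / 25) - y) ^ 2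
      + (1250724621131287 / 36012292008) * (y - (31 / 50)) ^ 7 * ((21 / 25) - y) ^ 1
      + (1294363922411 / 857435524) * (y - (31 / 50)) ^ 8 := by
    unfold midBrk brk lpart
    field_simp
    ring
  rw [key]
  have := sub_nonneg.2 hl
  have := sub_nonneg.2 hh
  positivity

lemma end1_0_1 {y : ℝ} (hl : (31 / 50) ≤ y) (hh : y ≤ (21 / 25)) :
    0 ≤ y * midBrk (18 / 25) ((293 / 200) + (-107 / 100) * y) y (31 / 50) := by
  have hy : 0 < y := lt_of_lt_of_le (by norm_num) hl
  have key : y * midBrk (18 / 25) ((293 / 200) + (-107 / 100) * y) y (31 / 50) =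
      (5577358366000 / 214358881) * ((21 / 25) - y) ^ 8
      + (305717825156221 / 1714871048) * (y - (31 / 50)) ^ 1 * ((21 / 25) - y) ^ 7
      + (2669417130962453 / 5144613144) * (y - (31 / 50)) ^ 2 * ((21 / 25) - y) ^ 6
      + (1425512003224113 / 1714871048) * (y - (31 / 50)) ^ 3 * ((21 / 25) - y) ^ 5
      + (4073811469385935 / 5144613144) * (y - (31 / 50)) ^ 4 * ((21 / 25) - y) ^ 4
      + (2314031417916389 / 5144613144) * (y - (31 / 50)) ^ 5 * ((21 / 25) - y) ^ 3
      + (245197492311509 / 1714871048) * (y - (31 / 50)) ^ 6 * ((21 / 25) - y) ^ 2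
      + (762579049931287 / 36012292008) * (y - (31 / 50)) ^ 7 * ((21 / 25) - y) ^ 1
      + (663863522411 / 857435524) * (y - (31 / 50)) ^ 8 := by
    unfold midBrk brk lpart
    field_simp
    ring
  rw [key]
  have := sub_nonneg.2 hl
  have := sub_nonneg.2 hh
  positivity

lemma end1_1_0 {y : ℝ} (hl : (31 / 50) ≤ y) (hh : y ≤ (21 / 25)) :
    0 ≤ y * midBrk (18 / 25) ((293 / 200) + (-107 / 100) * y) y (13 / 25) := by
  have hy : 0 < y := lt_of_lt_of_le (by norm_num) hl
  have key : y * midBrk (18 / 25) ((293 / 200) + (-107 / 100) * y) y (13 / 25) =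
      (872768471778955 / 36012292008) * ((21 / 25) - y) ^ 8
      + (106389139485056 / 643076643) * (y - (31 / 50)) ^ 1 * ((21 / 25) - y) ^ 7
      + (308005693585141 / 643076643) * (y - (31 / 50)) ^ 2 * ((21 / 25) - y) ^ 6
      + (489666524708068 / 643076643) * (y - (31 / 50)) ^ 3 * ((21 / 25) - y) ^ 5
      + (153717953961240 / 214358881) * (y - (31 / 50)) ^ 4 * ((21 / 25) - y) ^ 4
      + (257238288877288 / 643076643) * (y - (31 / 50)) ^ 5 * ((21 / 25) - y) ^ 3
      + (79162449970364 / 643076643) * (y - (31 / 50)) ^ 6 * ((21 / 25) - y) ^ 2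
      + (76191581017864 / 4501536501) * (y - (31 / 50)) ^ 7 * ((21 / 25) - y) ^ 1
      + (90439802304 / 214358881) * (y - (31 / 50)) ^ 8 := by
    unfold midBrk brk lpart
    field_simp
    ring
  rw [key]
  have := sub_nonneg.2 hl
  have := sub_nonneg.2 hh
  positivity

lemma end1_1_1 {y : ℝ} (hl : (31 / 50) ≤ y) (hh : y ≤ (21 / 25)) :
    0 ≤ y * midBrk (1) ((293 / 200) + (-107 / 100) * y) y (13 / 25) := by
  have hy : 0 < y := lt_of_lt_of_le (by norm_num) hl
  have key : y * midBrk (1) ((293 / 200) + (-107 / 100) * y) y (13 / 25) =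
      (202428327392985 / 12004097336) * ((21 / 25) - y) ^ 8
      + (24062295128352 / 214358881) * (y - (31 / 50)) ^ 1 * ((21 / 25) - y) ^ 7
      + (67471262295047 / 214358881) * (y - (31 / 50)) ^ 2 * ((21 / 25) - y) ^ 6
      + (308978622908068 / 643076643) * (y - (31 / 50)) ^ 3 * ((21 / 25) - y) ^ 5
      + (276368421883720 / 643076643) * (y - (31 / 50)) ^ 4 * ((21 / 25) - y) ^ 4
      + (48244272259096 / 214358881) * (y - (31 / 50)) ^ 5 * ((21 / 25) - y) ^ 3
      + (41852664870364 / 643076643) * (y - (31 / 50)) ^ 6 * ((21 / 25) - y) ^ 2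
      + (42120626617864 / 4501536501) * (y - (31 / 50)) ^ 7 * ((21 / 25) - y) ^ 1
      + (145440202304 / 214358881) * (y - (31 / 50)) ^ 8 := by
    unfold midBrk brk lpart
    field_simp
    ring
  rw [key]
  have := sub_nonneg.2 hl
  have := sub_nonneg.2 hh
  positivity

lemma end2_0_0 {y : ℝ} (hl : (21 / 25) ≤ y) (hh : y ≤ (49 / 50)) :
    0 ≤ y * midBrk (19 / 100) ((301 / 125) + (-219 / 100) * y) y (21 / 25) := by
  have hy : 0 < y := lt_of_lt_of_le (by norm_num) hl
  have key : y * midBrk (19 / 100) ((301 / 125) + (-219 / 100) * y) y (21 / 25) =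
      (692017962000 / 823543) * ((49 / 50) - y) ^ 8
      + (692641340808 / 117649) * (y - (21 / 25)) ^ 1 * ((49 / 50) - y) ^ 7
      + (6300682073584 / 352947) * (y - (21 / 25)) ^ 2 * ((49 / 50) - y) ^ 6
      + (513805124832 / 16807) * (y - (21 / 25)) ^ 3 * ((49 / 50) - y) ^ 5
      + (11406665610580 / 352947) * (y - (21 / 25)) ^ 4 * ((49 / 50) - y) ^ 4
      + (2540808884164 / 117649) * (y - (21 / 25)) ^ 5 * ((49 / 50) - y) ^ 3
      + (1049442528427 / 117649) * (y - (21 / 25)) ^ 6 * ((49 / 50) - y) ^ 2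
      + (5164300033756 / 2470629) * (y - (21 / 25)) ^ 7 * ((49 / 50) - y) ^ 1
      + (606088434829 / 2823576) * (y - (21 / 25)) ^ 8 := by
    unfold midBrk brk lpart
    field_simp
    ring
  rw [key]
  have := sub_nonneg.2 hl
  have := sub_nonneg.2 hh
  positivity

lemma end2_0_1 {y : ℝ} (hl : (21 / 25) ≤ y) (hh : y ≤ (49 / 50)) :
    0 ≤ y * midBrk (23 / 50) ((301 / 125) + (-219 / 100) * y) y (21 / 25) := by
  have hy : 0 < y := lt_of_lt_of_le (by norm_num) hl
  have key : y * midBrk (23 / 50) ((301 / 125) + (-219 / 100) * y) y (21 / 25) =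
      (346601562000 / 823543) * ((49 / 50) - y) ^ 8
      + (344473640808 / 117649) * (y - (21 / 25)) ^ 1 * ((49 / 50) - y) ^ 7
      + (3155118623584 / 352947) * (y - (21 / 25)) ^ 2 * ((49 / 50) - y) ^ 6
      + (1854044398824 / 117649) * (y - (21 / 25)) ^ 3 * ((49 / 50) - y) ^ 5
      + (6256128735580 / 352947) * (y - (21 / 25)) ^ 4 * ((49 / 50) - y) ^ 4
      + (221636633452 / 16807) * (y - (21 / 25)) ^ 5 * ((49 / 50) - y) ^ 3
      + (754505328427 / 117649) * (y - (21 / 25)) ^ 6 * ((49 / 50) - y) ^ 2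
      + (4640207758756 / 2470629) * (y - (21 / 25)) ^ 7 * ((49 / 50) - y) ^ 1
      + (716027034829 / 2823576) * (y - (21 / 25)) ^ 8 := by
    unfold midBrk brk lpart
    field_simp
    ring
  rw [key]
  have := sub_nonneg.2 hl
  have := sub_nonneg.2 hh
  positivity

lemma end2_1_0 {y : ℝ} (hl : (21 / 25) ≤ y) (hh : y ≤ (49 / 50)) :
    0 ≤ y * midBrk (23 / 50) ((301 / 125) + (-219 / 100) * y) y (33 / 50) := by
  have hy : 0 < y := lt_of_lt_of_le (by norm_num) hl
  have key : y * midBrk (23 / 50) ((301 / 125) + (-219 / 100) * y) y (33 / 50) =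
      (2762879025813 / 23059204) * ((49 / 50) - y) ^ 8
      + (29241993597015 / 46118408) * (y - (21 / 25)) ^ 1 * ((49 / 50) - y) ^ 7
      + (25918775166029 / 19765032) * (y - (21 / 25)) ^ 2 * ((49 / 50) - y) ^ 6
      + (1227762322995 / 941192) * (y - (21 / 25)) ^ 3 * ((49 / 50) - y) ^ 5
      + (13021753030325 / 19765032) * (y - (21 / 25)) ^ 4 * ((49 / 50) - y) ^ 4
      + (2208933766547 / 6588344) * (y - (21 / 25)) ^ 5 * ((49 / 50) - y) ^ 3
      + (2555866000229 / 6588344) * (y - (21 / 25)) ^ 6 * ((49 / 50) - y) ^ 2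
      + (37512325430051 / 138355224) * (y - (21 / 25)) ^ 7 * ((49 / 50) - y) ^ 1
      + (1159102716914 / 17294403) * (y - (21 / 25)) ^ 8 := by
    unfold midBrk brk lpart
    field_simp
    ring
  rw [key]
  have := sub_nonneg.2 hl
  have := sub_nonneg.2 hh
  positivity

lemma end2_1_1 {y : ℝ} (hl : (21 / 25) ≤ y) (hh : y ≤ (49 / 50)) :
    0 ≤ y * midBrk (73 / 100) ((301 / 125) + (-219 / 100) * y) y (33 / 50) := by
  have hy : 0 < y := lt_of_lt_of_le (by norm_num) hl
  have key : y * midBrk (73 / 100) ((301 / 125) + (-219 / 100) * y) y (33 / 50) =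
      (195324825813 / 23059204) * ((49 / 50) - y) ^ 8
      + (3568255197015 / 46118408) * (y - (21 / 25)) ^ 1 * ((49 / 50) - y) ^ 7
      + (1655805995147 / 2823576) * (y - (21 / 25)) ^ 2 * ((49 / 50) - y) ^ 6
      + (15897733660965 / 6588344) * (y - (21 / 25)) ^ 3 * ((49 / 50) - y) ^ 5
      + (106441888030325 / 19765032) * (y - (21 / 25)) ^ 4 * ((49 / 50) - y) ^ 4
      + (45502076566547 / 6588344) * (y - (21 / 25)) ^ 5 * ((49 / 50) - y) ^ 3
      + (33788882800229 / 6588344) * (y - (21 / 25)) ^ 6 * ((49 / 50) - y) ^ 2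
      + (284862398030051 / 138355224) * (y - (21 / 25)) ^ 7 * ((49 / 50) - y) ^ 1
      + (5999622891914 / 17294403) * (y - (21 / 25)) ^ 8 := by
    unfold midBrk brk lpart
    field_simp
    ring
  rw [key]
  have := sub_nonneg.2 hl
  have := sub_nonneg.2 hh
  positivity

lemma end2_2_0 {y : ℝ} (hl : (21 / 25) ≤ y) (hh : y ≤ (49 / 50)) :
    0 ≤ y * midBrk (73 / 100) ((301 / 125) + (-219 / 100) * y) y (13 / 25) := by
  have hy : 0 < y := lt_of_lt_of_le (by norm_num) hl
  have key : y * midBrk (73 / 100) ((301 / 125) + (-219 / 100) * y) y (13 / 25) =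
      (82098520304 / 5764801) * ((49 / 50) - y) ^ 8
      + (3024316763224 / 17294403) * (y - (21 / 25)) ^ 1 * ((49 / 50) - y) ^ 7
      + (55833541712 / 50421) * (y - (21 / 25)) ^ 2 * ((49 / 50) - y) ^ 6
      + (3141160750352 / 823543) * (y - (21 / 25)) ^ 3 * ((49 / 50) - y) ^ 5
      + (6247427692980 / 823543) * (y - (21 / 25)) ^ 4 * ((49 / 50) - y) ^ 4
      + (22300721904500 / 2470629) * (y - (21 / 25)) ^ 5 * ((49 / 50) - y) ^ 3
      + (5244485137357 / 823543) * (y - (21 / 25)) ^ 6 * ((49 / 50) - y) ^ 2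
      + (42620854009652 / 17294403) * (y - (21 / 25)) ^ 7 * ((49 / 50) - y) ^ 1
      + (18632614307711 / 46118408) * (y - (21 / 25)) ^ 8 := by
    unfold midBrk brk lpart
    field_simp
    ring
  rw [key]
  have := sub_nonneg.2 hl
  have := sub_nonneg.2 hh
  positivity

lemma end2_2_1 {y : ℝ} (hl : (21 / 25) ≤ y) (hh : y ≤ (49 / 50)) :
    0 ≤ y * midBrk (1) ((301 / 125) + (-219 / 100) * y) y (13 / 25) := by
  have hy : 0 < y := lt_of_lt_of_le (by norm_num) hl
  have key : y * midBrk (1) ((301 / 125) + (-219 / 100) * y) y (13 / 25) =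
      (110923720304 / 5764801) * ((49 / 50) - y) ^ 8
      + (171880915576 / 352947) * (y - (21 / 25)) ^ 1 * ((49 / 50) - y) ^ 7
      + (7909004393888 / 2470629) * (y - (21 / 25)) ^ 2 * ((49 / 50) - y) ^ 6
      + (8322650425352 / 823543) * (y - (21 / 25)) ^ 3 * ((49 / 50) - y) ^ 5
      + (14997233317980 / 823543) * (y - (21 / 25)) ^ 4 * ((49 / 50) - y) ^ 4
      + (49019480454500 / 2470629) * (y - (21 / 25)) ^ 5 * ((49 / 50) - y) ^ 3
      + (10696049737357 / 823543) * (y - (21 / 25)) ^ 6 * ((49 / 50) - y) ^ 2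
      + (81599518084652 / 17294403) * (y - (21 / 25)) ^ 7 * ((49 / 50) - y) ^ 1
      + (4830079729673 / 6588344) * (y - (21 / 25)) ^ 8 := by
    unfold midBrk brk lpart
    field_simp
    ring
  rw [key]
  have := sub_nonneg.2 hl
  have := sub_nonneg.2 hh
  positivity

lemma end3_0_0 {y : ℝ} (hl : (49 / 50) ≤ y) (hh : y ≤ (1)) :
    0 ≤ y * midBrk (0) ((7091 / 1000) + (-351 / 50) * y) y (49 / 50) := by
  have hy : 0 < y := lt_of_lt_of_le (by norm_num) hl
  have key : y * midBrk (0) ((7091 / 1000) + (-351 / 50) * y) y (49 / 50) =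
      (13885737575500 / 3) * ((1) - y) ^ 8
      + (879329081089547 / 24) * (y - (49 / 50)) ^ 1 * ((1) - y) ^ 7
      + (3041683927570241 / 24) * (y - (49 / 50)) ^ 2 * ((1) - y) ^ 6
      + (2001617150551645 / 8) * (y - (49 / 50)) ^ 3 * ((1) - y) ^ 5
      + (7399501560348235 / 24) * (y - (49 / 50)) ^ 4 * ((1) - y) ^ 4
      + (5827462875643841 / 24) * (y - (49 / 50)) ^ 5 * ((1) - y) ^ 3
      + (2864140353838147 / 24) * (y - (49 / 50)) ^ 6 * ((1) - y) ^ 2
      + (803128266489821 / 24) * (y - (49 / 50)) ^ 7 * ((1) - y) ^ 1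
      + (114753254603775 / 28) * (y - (49 / 50)) ^ 8 := by
    unfold midBrk brk lpart
    field_simp
    ring
  rw [key]
  have := sub_nonneg.2 hl
  have := sub_nonneg.2 hh
  positivity

lemma end3_0_1 {y : ℝ} (hl : (49 / 50) ≤ y) (hh : y ≤ (1)) :
    0 ≤ y * midBrk (1 / 5) ((7091 / 1000) + (-351 / 50) * y) y (49 / 50) := by
  have hy : 0 < y := lt_of_lt_of_le (by norm_num) hl
  have key : y * midBrk (1 / 5) ((7091 / 1000) + (-351 / 50) * y) y (49 / 50) =
      (3805436358500) * ((1) - y) ^ 8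
      + (244857107029849 / 8) * (y - (49 / 50)) ^ 1 * ((1) - y) ^ 7
      + (860624515856747 / 8) * (y - (49 / 50)) ^ 2 * ((1) - y) ^ 6
      + (5179600971654935 / 24) * (y - (49 / 50)) ^ 3 * ((1) - y) ^ 5
      + (2162254406782745 / 8) * (y - (49 / 50)) ^ 4 * ((1) - y) ^ 4
      + (5193024347643841 / 24) * (y - (49 / 50)) ^ 5 * ((1) - y) ^ 3
      + (2595144733838147 / 24) * (y - (49 / 50)) ^ 6 * ((1) - y) ^ 2
      + (246716755496607 / 8) * (y - (49 / 50)) ^ 7 * ((1) - y) ^ 1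
      + (322822263811325 / 84) * (y - (49 / 50)) ^ 8 := by
    unfold midBrk brk lpart
    field_simp
    ring
  rw [key]
  have := sub_nonneg.2 hl
  have := sub_nonneg.2 hh
  positivity

lemma end3_1_0 {y : ℝ} (hl : (49 / 50) ≤ y) (hh : y ≤ (1)) :
    0 ≤ y * midBrk (1 / 5) ((7091 / 1000) + (-351 / 50) * y) y (39 / 50) := by
  have hy : 0 < y := lt_of_lt_of_le (by norm_num) hl
  have key : y * midBrk (1 / 5) ((7091 / 1000) + (-351 / 50) * y) y (39 / 50) =
      (4930355171785 / 12) * ((1) - y) ^ 8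
      + (201922769763753 / 56) * (y - (49 / 50)) ^ 1 * ((1) - y) ^ 7
      + (326795952526711 / 24) * (y - (49 / 50)) ^ 2 * ((1) - y) ^ 6
      + (231840509938795 / 8) * (y - (49 / 50)) ^ 3 * ((1) - y) ^ 5
      + (304752867786895 / 8) * (y - (49 / 50)) ^ 4 * ((1) - y) ^ 4
      + (253698800767437 / 8) * (y - (49 / 50)) ^ 5 * ((1) - y) ^ 3
      + (392218635291637 / 24) * (y - (49 / 50)) ^ 6 * ((1) - y) ^ 2
      + (38155972218297 / 8) * (y - (49 / 50)) ^ 7 * ((1) - y) ^ 1
      + (50715970024075 / 84) * (y - (49 / 50)) ^ 8 := by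
    unfold midBrk brk lpart
    field_simp
    ring
  rw [key]
  have := sub_nonneg.2 hl
  have := sub_nonneg.2 hh
  positivity

lemma end3_1_1 {y : ℝ} (hl : (49 / 50) ≤ y) (hh : y ≤ (1)) :
    0 ≤ y * midBrk (1) ((7091 / 1000) + (-351 / 50) * y) y (39 / 50) := by
  have hy : 0 < y := lt_of_lt_of_le (by norm_num) hl
  have key : y * midBrk (1) ((7091 / 1000) + (-351 / 50) * y) y (39 / 50) =
      (1379499171785 / 12) * ((1) - y) ^ 8
      + (525191029291259 / 168) * (y - (49 / 50)) ^ 1 * ((1) - y) ^ 7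
      + (148784810842237 / 8) * (y - (49 / 50)) ^ 2 * ((1) - y) ^ 6
      + (1256919609816385 / 24) * (y - (49 / 50)) ^ 3 * ((1) - y) ^ 5
      + (2022105243360685 / 24) * (y - (49 / 50)) ^ 4 * ((1) - y) ^ 4
      + (1974862290302311 / 24) * (y - (49 / 50)) ^ 5 * ((1) - y) ^ 3
      + (388052051763879 / 8) * (y - (49 / 50)) ^ 6 * ((1) - y) ^ 2
      + (382555916654891 / 24) * (y - (49 / 50)) ^ 7 * ((1) - y) ^ 1
      + (188965970024075 / 84) * (y - (49 / 50)) ^ 8 := by
    unfold midBrk brk lpart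
    field_simp
    ring
  rw [key]
  have := sub_nonneg.2 hl
  have := sub_nonneg.2 hh
  positivity

lemma end4_0_0 {y : ℝ} (hl : (1) ≤ y) (hh : y ≤ (7 / 4)) :
    0 ≤ y * highBrk (0) y (1) := by
  have hy : 0 < y := lt_of_lt_of_le (by norm_num) hl
  have key : y * highBrk (0) y (1) =
      (6352 / 16875) * ((7 / 4) - y) ^ 4
      + (4148 / 16875) * (y - (1)) ^ 1 * ((7 / 4) - y) ^ 3
      + (6938 / 5625) * (y - (1)) ^ 2 * ((7 / 4) - y) ^ 2
      + (90592 / 16875) * (y - (1)) ^ 3 * ((7 / 4) - y) ^ 1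
      + (74324 / 16875) * (y - (1)) ^ 4 := by
    unfold highBrk brk lpart
    field_simp
    ring
  rw [key]
  have := sub_nonneg.2 hl
  have := sub_nonneg.2 hh
  positivity

lemma end4_0_1 {y : ℝ} (hl : (1) ≤ y) (hh : y ≤ (7 / 4)) :
    0 ≤ y * highBrk (1 / 10) y (1) := by
  have hy : 0 < y := lt_of_lt_of_le (by norm_num) hl
  have key : y * highBrk (1 / 10) y (1) =
      (55888 / 151875) * ((7 / 4) - y) ^ 4
      + (102292 / 151875) * (y - (1)) ^ 1 * ((7 / 4) - y) ^ 3
      + (138722 / 50625) * (y - (1)) ^ 2 * ((7 / 4) - y) ^ 2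
      + (1073008 / 151875) * (y - (1)) ^ 3 * ((7 / 4) - y) ^ 1
      + (763996 / 151875) * (y - (1)) ^ 4 := by
    unfold highBrk brk lpart
    field_simp
    ring
  rw [key]
  have := sub_nonneg.2 hl
  have := sub_nonneg.2 hh
  positivity

lemma end4_1_0 {y : ℝ} (hl : (1) ≤ y) (hh : y ≤ (7 / 4)) :
    0 ≤ y * highBrk (1 / 10) y (21 / 25) := by
  have hy : 0 < y := lt_of_lt_of_le (by norm_num) hl
  have key : y * highBrk (1 / 10) y (21 / 25) =
      (3795191128256 / 31146240234375) * ((7 / 4) - y) ^ 5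
      + (3285911487472 / 31146240234375) * (y - (1)) ^ 1 * ((7 / 4) - y) ^ 4
      + (96766969042328 / 31146240234375) * (y - (1)) ^ 2 * ((7 / 4) - y) ^ 3
      + (397131099484712 / 31146240234375) * (y - (1)) ^ 3 * ((7 / 4) - y) ^ 2
      + (514740310276048 / 31146240234375) * (y - (1)) ^ 4 * ((7 / 4) - y) ^ 1
      + (30697922782064 / 4449462890625) * (y - (1)) ^ 5 := by
    unfold highBrk brk lpart
    field_simp
    ring
  rw [key]
  have := sub_nonneg.2 hl
  have := sub_nonneg.2 hh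
  positivity

lemma end4_1_1 {y : ℝ} (hl : (1) ≤ y) (hh : y ≤ (7 / 4)) :
    0 ≤ y * highBrk (1) y (21 / 25) := by
  have hy : 0 < y := lt_of_lt_of_le (by norm_num) hl
  have key : y * highBrk (1) y (21 / 25) =
      (980297782064 / 10382080078125) * ((7 / 4) - y) ^ 4
      + (31301805089804 / 10382080078125) * (y - (1)) ^ 1 * ((7 / 4) - y) ^ 3
      + (43385369681926 / 3460693359375) * (y - (1)) ^ 2 * ((7 / 4) - y) ^ 2
      + (7699057258016 / 415283203125) * (y - (1)) ^ 3 * ((7 / 4) - y) ^ 1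
      + (13827808820516 / 1483154296875) * (y - (1)) ^ 4 := by
    unfold highBrk brk lpart
    field_simp
    ring
  rw [key]
  have := sub_nonneg.2 hl
  have := sub_nonneg.2 hh
  positivity

lemma cert_mid {T a y : ℝ} (hy0 : (62 / 100) ≤ y) (hy1 : y ≤ 1) (ha : a ^ 2 + y ^ 2 = 1)
    (ha0 : 0 ≤ a) (hT : a ≤ T) (hT1 : T ≤ 1) :
    ∃ p, 0 ≤ p ∧ p ≤ y ∧ 0 ≤ midBrk T a y p := by
  have hy : 0 < y := by linarith
  have hT0 : 0 ≤ T := ha0.trans hT
  rcases le_total y (84 / 100) with h1 | h1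
  · have hline : a ≤ (293 / 200) + (-107 / 100) * y := le_line ha (by norm_num) (by norm_num)
    have hlo : (27 / 50 : ℝ) ≤ a := by nlinarith
    rcases le_total T (18 / 25) with hc | hc
    · exact ⟨31 / 50, by norm_num, by linarith,
        le_trans (midBrk_ends hy (hlo.trans hT) hc (end1_0_0 (by linarith) (by linarith))
          (end1_0_1 (by linarith) (by linarith))) (midBrk_a_mono hy.le hT0 ha0 hline)⟩
    · exact ⟨13 / 25, by norm_num, by linarith,
        le_trans (midBrk_ends hy hc hT1 (end1_1_0 (by linarith) (by linarith))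
          (end1_1_1 (by linarith) (by linarith))) (midBrk_a_mono hy.le hT0 ha0 hline)⟩
  rcases le_total y (98 / 100) with h2 | h2
  · have hline : a ≤ (301 / 125) + (-219 / 100) * y := le_line ha (by norm_num) (by norm_num)
    have hlo : (19 / 100 : ℝ) ≤ a := by nlinarith
    rcases le_total T (23 / 50) with hc | hc
    · exact ⟨21 / 25, by norm_num, by linarith,
        le_trans (midBrk_ends hy (hlo.trans hT) hc (end2_0_0 (by linarith) (by linarith))
          (end2_0_1 (by linarith) (by linarith))) (midBrk_a_mono hy.le hT0 ha0 hline)⟩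
    rcases le_total T (73 / 100) with hd | hd
    · exact ⟨33 / 50, by norm_num, by linarith,
        le_trans (midBrk_ends hy hc hd (end2_1_0 (by linarith) (by linarith))
          (end2_1_1 (by linarith) (by linarith))) (midBrk_a_mono hy.le hT0 ha0 hline)⟩
    · exact ⟨13 / 25, by norm_num, by linarith,
        le_trans (midBrk_ends hy hd hT1 (end2_2_0 (by linarith) (by linarith))
          (end2_2_1 (by linarith) (by linarith))) (midBrk_a_mono hy.le hT0 ha0 hline)⟩
  · have hline : a ≤ (7091 / 1000) + (-351 / 50) * y := le_line ha (by norm_num) (by norm_num)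
    rcases le_total T (1 / 5) with hc | hc
    · exact ⟨49 / 50, by norm_num, by linarith,
        le_trans (midBrk_ends hy hT0 hc (end3_0_0 (by linarith) (by linarith))
          (end3_0_1 (by linarith) (by linarith))) (midBrk_a_mono hy.le hT0 ha0 hline)⟩
    · exact ⟨39 / 50, by norm_num, by linarith,
        le_trans (midBrk_ends hy hc hT1 (end3_1_0 (by linarith) (by linarith))
          (end3_1_1 (by linarith) (by linarith))) (midBrk_a_mono hy.le hT0 ha0 hline)⟩

lemma cert_high {T y : ℝ} (hy0 : 1 ≤ y) (hy1 : y ≤ 175 / 100) (hT : 0 ≤ T) (hT1 : T ≤ 1) :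
    ∃ p, 0 ≤ p ∧ p ≤ 1 ∧ 0 ≤ highBrk T y p := by
  have hy : 0 < y := by linarith
  rcases le_total T (1 / 10) with hc | hc
  · exact ⟨1, by norm_num, le_rfl, highBrk_ends hy hT hc
      (by simpa using end4_0_0 (y := y) (by linarith) (by linarith))
      (by simpa using end4_0_1 (y := y) (by linarith) (by linarith))⟩
  · exact ⟨21 / 25, by norm_num, by norm_num, highBrk_ends hy hc hT1
      (by simpa using end4_1_0 (y := y) (by linarith) (by linarith))
      (by simpa using end4_1_1 (y := y) (by linarith) (by linarith))⟩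

end Vale.Agent.P237U
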