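import Vale.Agent.P237U.BM
import Vale.Agent.P237U.Profile3

/-!
# The slices of a symmetric three dimensional body in isotropic position
-/

namespace Vale.Agent.P237U

open MeasureTheory Set Metric Filter Topology Vale.Agent.P237 Vale.Agent.P237R
open scoped RealInnerProductSpace ENNReal Pointwise

lemma kap_two : kap 2 = Real.pi := by
  rw [kap, EuclideanSpace.volume_closedBall_fin_two]
  simp [Real.pi_pos.le]

/-- Among planar sets of given area the centred disc has the smallest polar moment. -/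
lemma disc_moment_le {S : Set (EuclideanSpace ℝ (Fin 2))} (hS : IsCompact S) :
    ENNReal.ofReal ((volume S).toReal ^ 2 / (2 * Real.pi)) ≤ ∫⁻ y in S, ENNReal.ofReal (‖y‖ ^ 2) := by
  set a := (volume S).toReal with ha
  have ha0 : 0 ≤ a := ENNReal.toReal_nonneg
  have hπ := Real.pi_pos
  rw [lintegral_eq_lintegral_meas_lt _ (Eventually.of_forall fun y => sq_nonneg _)
    (by fun_prop : Measurable fun y : EuclideanSpace ℝ (Fin 2) => ‖y‖ ^ 2).aemeasurable]
  have hle : ∀ t ∈ Ioc 0 (a / Real.pi), ENNReal.ofReal (a - Real.pi * t)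
      ≤ (volume.restrict S) {y : EuclideanSpace ℝ (Fin 2) | t < ‖y‖ ^ 2} := by
    intro t ht
    rw [Measure.restrict_apply (measurableSet_lt measurable_const (by fun_prop)),
      ENNReal.ofReal_sub _ (by positivity [ht.1.le]), ha, ENNReal.ofReal_toReal hS.measure_lt_top.ne,
      tsub_le_iff_right]
    refine (measure_mono (fun y hy => ?_)).trans ((measure_union_le _ (closedBall 0 √t)).trans
      (add_le_add le_rfl (le_of_eq ?_)))
    · by_cases h : t < ‖y‖ ^ 2
      · exact Or.inl ⟨h, hy⟩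
      · exact Or.inr (mem_closedBall_zero_iff.2 ((Real.le_sqrt (norm_nonneg y) ht.1.le).2 (not_lt.1 h)))
    · rw [volume_closedBall_eq _ (Real.sqrt_nonneg t), kap_two, Real.sq_sqrt ht.1.le]
  refine le_trans ?_ ((setLIntegral_mono' measurableSet_Ioc hle).trans
    (lintegral_mono_set Ioc_subset_Ioi_self))
  have hpos : ∀ᵐ t ∂volume.restrict (Ioc 0 (a / Real.pi)), 0 ≤ a - Real.pi * t := by
    filter_upwards [ae_restrict_mem measurableSet_Ioc] with t ht
    have := (le_div_iff₀ hπ).1 ht.2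
    linarith
  rw [← ofReal_integral_eq_lintegral_ofReal ?_ hpos]
  · refine ENNReal.ofReal_le_ofReal (le_of_eq ?_)
    rw [← intervalIntegral.integral_of_le (div_nonneg ha0 hπ.le), intervalIntegral.integral_sub
      intervalIntegrable_const
      ((by fun_prop : Continuous fun t : ℝ => Real.pi * t).intervalIntegrable _ _),
      intervalIntegral.integral_const_mul, integral_id, intervalIntegral.integral_const]
    have e : a / Real.pi * Real.pi = a := div_mul_cancel₀ _ hπ.ne'
    simp only [smul_eq_mul]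
    field_simp
    ring_nf
    try field_simp
    try ring
  · exact (by fun_prop : Continuous fun t : ℝ => a - Real.pi * t).continuousOn.integrableOn_Icc.mono_set
      Ioc_subset_Icc_self

variable {K : Set (EuclideanSpace ℝ (Fin (1 + 1 + 1)))}

lemma slice_combo (hc : Convex ℝ K) {a b : ℝ} (ha : 0 ≤ a) (hb : 0 ≤ b) (hab : a + b = 1)
    (x y : ℝ) : a • slice K x + b • slice K y ⊆ slice K (a * x + b * y) := by
  rintro _ ⟨_, ⟨p, hp, rfl⟩, _, ⟨q, hq, rfl⟩, rfl⟩
  have h := hc hp hq ha hb hab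
  rw [smul_econs, smul_econs, econs_add] at h
  exact h

lemma sqrt_sv_concave (hK : IsCompact K) (hc : Convex ℝ K) {x y a b : ℝ}
    (hx : (slice K x).Nonempty) (hy : (slice K y).Nonempty) (ha : 0 ≤ a) (hb : 0 ≤ b)
    (hab : a + b = 1) : a * √(sv K x) + b * √(sv K y) ≤ √(sv K (a * x + b * y)) := by
  have h := bm_convex (n := 1 + 1) (by norm_num) (isCompact_slice hK x) (convex_slice hc x) hx
    (isCompact_slice hK y) (convex_slice hc y) hy ha hb
  have h2 := ENNReal.toReal_mono (isCompact_slice hK _).measure_lt_top.ne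
    (measure_mono (μ := volume) (slice_combo hc ha hb hab x y))
  have e : (((1 + 1 : ℕ) : ℝ))⁻¹ = 1 / 2 := by norm_num
  rw [e, ← Real.sqrt_eq_rpow, ← Real.sqrt_eq_rpow, ← Real.sqrt_eq_rpow] at h
  exact h.trans (Real.sqrt_le_sqrt h2)

lemma height_eq_of_ball {r : ℝ} (hK : IsCompact K) (hr : 0 ≤ r) (hball : closedBall 0 r ⊆ K)
    (hslab : ∀ x ∈ K, |x 0| ≤ r) : sHi K = r ∧ sLo K = -r := by
  have hmem : ∀ t : ℝ, |t| ≤ r → econs t (0 : EuclideanSpace ℝ (Fin (1 + 1))) ∈ K := fun t ht => by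
    refine hball (mem_closedBall_zero_iff.2 ?_)
    have h := norm_econs_sq t (0 : EuclideanSpace ℝ (Fin (1 + 1)))
    rw [norm_zero, zero_pow two_ne_zero, add_zero, ← sq_abs t] at h
    rw [(pow_left_inj₀ (norm_nonneg _) (abs_nonneg _) two_ne_zero).1 h]
    exact ht
  have hne : K.Nonempty := ⟨_, hball (mem_closedBall_self hr)⟩
  obtain ⟨p, hp, hp0⟩ := exists_hi hK hne
  obtain ⟨q, hq, hq0⟩ := exists_lo hK hne
  have h1 := height_mem hK (hmem r (abs_of_nonneg hr).le)
  have h2 := height_mem hK (hmem (-r) (by rw [abs_neg, abs_of_nonneg hr]))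
  rw [econs_apply_zero] at h1 h2
  have := abs_le.1 (hslab p hp)
  have := abs_le.1 (hslab q hq)
  exact ⟨le_antisymm (by linarith) h1.2, le_antisymm h2.1 (by linarith)⟩

lemma slice_zero_mem {r t : ℝ} (hball : closedBall 0 r ⊆ K) (ht : |t| ≤ r) :
    (slice K t).Nonempty := by
  refine ⟨0, hball (mem_closedBall_zero_iff.2 ?_)⟩
  have h := norm_econs_sq t (0 : EuclideanSpace ℝ (Fin (1 + 1)))
  rw [norm_zero, zero_pow two_ne_zero, add_zero, ← sq_abs t] at h
  rwa [(pow_left_inj₀ (norm_nonneg _) (abs_nonneg _) two_ne_zero).1 h]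

lemma sv_ge_disc {r t : ℝ} (hK : IsCompact K) (hball : closedBall 0 r ⊆ K) (ht : |t| ≤ r) :
    Real.pi * (r ^ 2 - t ^ 2) ≤ sv K t := by
  have hr : 0 ≤ r ^ 2 - t ^ 2 := sub_nonneg.2 ((sq_abs t).symm ▸ pow_le_pow_left₀ (abs_nonneg t) ht 2)
  have hsub : closedBall (0 : EuclideanSpace ℝ (Fin (1 + 1))) √(r ^ 2 - t ^ 2) ⊆ slice K t := by
    intro y hy
    refine hball (mem_closedBall_zero_iff.2 ((pow_le_pow_iff_left₀ (norm_nonneg _)
      ((abs_nonneg t).trans ht) two_ne_zero).1 ?_))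
    rw [norm_econs_sq]
    have := pow_le_pow_left₀ (norm_nonneg y) (mem_closedBall_zero_iff.1 hy) 2
    rw [Real.sq_sqrt hr] at this
    linarith
  have h := ENNReal.toReal_mono (isCompact_slice hK t).measure_lt_top.ne (measure_mono (μ := volume) hsub)
  rw [volume_closedBall_eq _ (Real.sqrt_nonneg _), kap_two, Real.sq_sqrt hr,
    ENNReal.toReal_ofReal (mul_nonneg Real.pi_pos.le hr)] at h
  exact h

lemma setIntegral_height_sq (hK : IsCompact K) (hne : K.Nonempty) :
    ∫ x in K, x 0 ^ 2 = ∫ t in (sLo K)..(sHi K), t ^ 2 * sv K t := by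
  obtain ⟨p, hp, hp0⟩ := exists_lo hK hne
  have hle : sLo K ≤ sHi K := by
    have := height_mem hK hp
    linarith [this.1, this.2]
  have hint : IntegrableOn (fun x : EuclideanSpace ℝ (Fin (1 + 1 + 1)) => x 0 ^ 2) K :=
    (continuous_height.pow 2).continuousOn.integrableOn_compact hK
  have hint2 : IntervalIntegrable (fun t => t ^ 2 * sv K t) volume (sLo K) (sHi K) :=
    (intervalIntegrable_sv hK _ _).continuousOn_mul (by fun_prop)
  rw [intervalIntegral.integral_of_le hle, ← integral_Icc_eq_integral_Ioc,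
    setIntegral_eq_integral_of_forall_compl_eq_zero (μ := (volume : Measure ℝ))
      (f := fun t => t ^ 2 * sv K t) (fun t ht => by
      rw [sv, slice_empty hK ht, measure_empty, ENNReal.toReal_zero, mul_zero]),
    integral_eq_lintegral_of_nonneg_ae (Eventually.of_forall fun x => sq_nonneg _) hint.1,
    integral_eq_lintegral_of_nonneg_ae
      (Eventually.of_forall fun t => mul_nonneg (sq_nonneg _) (sv_nonneg t))
      (((by fun_prop : Measurable fun t : ℝ => t ^ 2).mul (measurable_sv hK) :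
        Measurable fun t : ℝ => t ^ 2 * sv K t)).aestronglyMeasurable]
  congr 1
  have hm : Measurable fun x : EuclideanSpace ℝ (Fin (1 + 1 + 1)) => ENNReal.ofReal (x 0 ^ 2) :=
    (continuous_height.pow 2).measurable.ennreal_ofReal
  rw [← lintegral_indicator hK.measurableSet, lintegral_econs (hm.indicator hK.measurableSet)]
  refine lintegral_congr fun t => ?_
  rw [ENNReal.ofReal_mul (sq_nonneg t), sv, ENNReal.ofReal_toReal (isCompact_slice hK t).measure_lt_top.ne,
    ← lintegral_indicator_const (isCompact_slice hK t).measurableSet]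
  refine lintegral_congr fun y => ?_
  by_cases hy : econs t y ∈ K
  · rw [indicator_of_mem hy, indicator_of_mem (show y ∈ slice K t from hy), econs_apply_zero]
  · rw [indicator_of_notMem hy, indicator_of_notMem (show y ∉ slice K t from hy)]

lemma polar_moment_ge (hK : IsCompact K) (hne : K.Nonempty) :
    1 / (2 * Real.pi) * ∫ t in (sLo K)..(sHi K), sv K t ^ 2
      ≤ ∫ x in K, ‖etail (1 + 1) x‖ ^ 2 := by
  obtain ⟨p, hp, hp0⟩ := exists_lo hK hne
  have hle : sLo K ≤ sHi K := by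
    have := height_mem hK hp
    linarith [this.1, this.2]
  have hc : Continuous fun x : EuclideanSpace ℝ (Fin (1 + 1 + 1)) => ‖etail (1 + 1) x‖ ^ 2 :=
    (continuous_etail _).norm.pow 2
  have hint : IntegrableOn (fun t => sv K t ^ 2 / (2 * Real.pi)) (Ioc (sLo K) (sHi K)) := by
    refine Measure.integrableOn_of_bounded measure_Ioc_lt_top.ne
      (((measurable_sv hK).pow_const 2).div_const _).aestronglyMeasurable
      (M := (volume (etail (1 + 1) '' K)).toReal ^ 2 / (2 * Real.pi)) (Eventually.of_forall fun t => ?_)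
    rw [Real.norm_of_nonneg (by positivity)]
    exact div_le_div_of_nonneg_right (pow_le_pow_left₀ (sv_nonneg t) (sv_le hK t) 2) (by positivity)
  rw [← intervalIntegral.integral_const_mul, intervalIntegral.integral_of_le hle]
  simp only [one_div_mul_eq_div]
  refine (ENNReal.ofReal_le_ofReal_iff (integral_nonneg fun x => sq_nonneg _)).1 ?_
  rw [ofReal_integral_eq_lintegral_ofReal hint (Eventually.of_forall fun t => by positivity),
    ofReal_integral_eq_lintegral_ofReal (hc.continuousOn.integrableOn_compact hK)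
      (Eventually.of_forall fun x => sq_nonneg _),
    ← lintegral_indicator hK.measurableSet,
    lintegral_econs (hc.measurable.ennreal_ofReal.indicator hK.measurableSet)]
  refine (setLIntegral_le_lintegral _ _).trans (lintegral_mono fun t => ?_)
  refine (disc_moment_le (isCompact_slice hK t)).trans (le_of_eq ?_)
  rw [← lintegral_indicator (isCompact_slice hK t).measurableSet]
  refine lintegral_congr fun y => ?_
  by_cases hy : econs t y ∈ K
  · rw [indicator_of_mem (show y ∈ slice K t from hy), indicator_of_mem hy, etail_econs]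
  · rw [indicator_of_notMem (show y ∉ slice K t from hy), indicator_of_notMem hy]

lemma isotropic_moments (hK : IsCompact K) {c : ℝ}
    (hiso : ∀ v, ∫ x in K, ⟪v, x⟫ ^ 2 = c * ‖v‖ ^ 2) :
    ∫ x in K, x 0 ^ 2 = c ∧ ∫ x in K, ‖etail (1 + 1) x‖ ^ 2 = 2 * c := by
  have h : ∀ i : Fin (1 + 1 + 1), ∫ x in K, x i ^ 2 = c := fun i => by
    have := hiso (EuclideanSpace.single i (1 : ℝ))
    simpa [EuclideanSpace.inner_single_left] using this
  refine ⟨h 0, ?_⟩
  have e : ∀ x : EuclideanSpace ℝ (Fin (1 + 1 + 1)), ‖etail (1 + 1) x‖ ^ 2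
      = ∑ i : Fin (1 + 1), x (Fin.succ i) ^ 2 := fun x => by
    rw [EuclideanSpace.norm_sq_eq]
    simp [etail, sq_abs, Fin.tail]
  simp_rw [e]
  rw [integral_finsetSum _ (fun i _ =>
    (by fun_prop : Continuous fun x : EuclideanSpace ℝ (Fin (1 + 1 + 1)) => x (Fin.succ i) ^ 2).continuousOn.integrableOn_compact hK)]
  simp only [h]
  simp

lemma integral_even {F : ℝ → ℝ} {r : ℝ} (hF : ∀ t, F (-t) = F t)
    (hint : IntervalIntegrable F volume (-r) r) (hr : 0 ≤ r) :
    ∫ t in (-r)..r, F t = 2 * ∫ t in (0 : ℝ)..r, F t := by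
  have h1 : IntervalIntegrable F volume (-r) 0 :=
    hint.mono_set (by rw [uIcc_of_le (by linarith), uIcc_of_le (by linarith)]; exact Icc_subset_Icc le_rfl hr)
  have h2 : IntervalIntegrable F volume 0 r :=
    hint.mono_set (by rw [uIcc_of_le hr, uIcc_of_le (by linarith)]; exact Icc_subset_Icc (by linarith) le_rfl)
  have := intervalIntegral.integral_comp_neg F (a := (0 : ℝ)) (b := r)
  simp only [hF, neg_zero] at this
  rw [← intervalIntegral.integral_add_adjacent_intervals h1 h2, ← this, two_mul]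

/-- The profile of the slices in the direction of a contact point. -/
lemma slice_profile {r c : ℝ} (hK : IsCompact K) (hc : Convex ℝ K) (hs : ∀ x ∈ K, -x ∈ K)
    (hr : 0 < r) (hball : closedBall 0 r ⊆ K) (hslab : ∀ x ∈ K, |x 0| ≤ r)
    (hiso : ∀ v, ∫ x in K, ⟪v, x⟫ ^ 2 = c * ‖v‖ ^ 2) :
    ∃ g : ℝ → ℝ, ConcaveOn ℝ (Icc (0 : ℝ) 1) g ∧ Antitone g ∧ (∀ t ∈ Icc (0 : ℝ) 1, 0 ≤ g t) ∧
      (∀ t ∈ Icc (0 : ℝ) 1, √(1 - t ^ 2) ≤ g t) ∧
      (∫ t in (0 : ℝ)..1, g t ^ 4) / 4 ≤ ∫ t in (0 : ℝ)..1, t ^ 2 * g t ^ 2 ∧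
      (volume K).toReal = 2 * Real.pi * r ^ 3 * (∫ t in (0 : ℝ)..1, g t ^ 2) ∧
      4 * sliceInt K ^ (1 + 1) = 16 * Real.pi * r ^ 4 * (∫ t in (0 : ℝ)..1, g t) ^ 2 := by
  have hπ := Real.pi_pos
  have hne : K.Nonempty := ⟨_, hball (mem_closedBall_self hr.le)⟩
  obtain ⟨hhi, hlo⟩ := height_eq_of_ball hK hr.le hball hslab
  have hV := integral_sv hK hne
  have hsl : sliceInt K = ∫ t in (-r)..r, √(sv K t) := by
    rw [sliceInt, hhi, hlo]
    refine intervalIntegral.integral_congr fun t _ => ?_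
    simp [gfun, Real.sqrt_eq_rpow]
  obtain ⟨hx0, hxp⟩ := isotropic_moments hK hiso
  have hm := polar_moment_ge hK hne
  rw [hxp, ← hx0, setIntegral_height_sq hK hne, hhi, hlo] at hm
  rw [hhi, hlo] at hV
  have hzero : ∀ t, r < t → sv K t = 0 := fun t ht => by
    rw [sv, slice_empty hK (fun h => not_lt.2 (hhi ▸ h.2) ht), measure_empty, ENNReal.toReal_zero]
  set g : ℝ → ℝ := fun t => √(sv K (r * max t 0)) / (√Real.pi * r) with hg
  have hsπ : 0 < √Real.pi * r := mul_pos (Real.sqrt_pos.2 hπ) hr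
  have hgt : ∀ t, 0 ≤ t → √(sv K (r * t)) = √Real.pi * r * g t := fun t ht => by
    simp only [hg, max_eq_left ht]
    field_simp
  have hgt2 : ∀ t, 0 ≤ t → sv K (r * t) = Real.pi * r ^ 2 * g t ^ 2 := fun t ht => by
    rw [← Real.sq_sqrt (sv_nonneg (K := K) (r * t)), hgt t ht, mul_pow, mul_pow, Real.sq_sqrt hπ.le]
  have hanti : Antitone g := by
    intro s t hst
    refine div_le_div_of_nonneg_right (Real.sqrt_le_sqrt ?_) hsπ.le
    have hs0 : 0 ≤ r * max s 0 := mul_nonneg hr.le (le_max_right _ _)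
    have hle : r * max s 0 ≤ r * max t 0 := mul_le_mul_of_nonneg_left (max_le_max_right 0 hst) hr.le
    set x := r * max s 0
    set y := r * max t 0
    rcases lt_or_ge r y with hy | hy
    · rw [hzero y hy]; exact sv_nonneg _
    rcases eq_or_lt_of_le (hs0.trans hle) with hy0 | hy0
    · rw [← hy0, le_antisymm (hy0 ▸ hle) hs0]
    have hxy : x / y ≤ 1 := (div_le_one hy0).2 hle
    have hx0' : 0 ≤ x / y := div_nonneg hs0 hy0.le
    have h := sqrt_sv_concave hK hc
      (slice_zero_mem hball (t := y) (by rw [abs_of_pos hy0]; exact hy))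
      (slice_zero_mem hball (t := -y) (by rw [abs_neg, abs_of_pos hy0]; exact hy))
      (a := (1 + x / y) / 2) (b := (1 - x / y) / 2) (by linarith) (by linarith) (by ring)
    have e : (1 + x / y) / 2 * y + (1 - x / y) / 2 * (-y) = x := by field_simp; ring
    rw [sv_even hs, e, ← add_mul, show (1 + x / y) / 2 + (1 - x / y) / 2 = 1 by ring, one_mul] at h
    exact (Real.sqrt_le_sqrt_iff (sv_nonneg _)).1 h
  have hconc : ConcaveOn ℝ (Icc (0 : ℝ) 1) g := by
    refine ⟨convex_Icc 0 1, fun s hs' t ht a b ha hb hab => ?_⟩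
    have h0 : 0 ≤ a * s + b * t := add_nonneg (mul_nonneg ha hs'.1) (mul_nonneg hb ht.1)
    simp only [smul_eq_mul, hg, max_eq_left hs'.1, max_eq_left ht.1, max_eq_left h0]
    rw [← mul_div_assoc, ← mul_div_assoc, ← add_div]
    refine div_le_div_of_nonneg_right ?_ hsπ.le
    rw [show r * (a * s + b * t) = a * (r * s) + b * (r * t) by ring]
    have hin : ∀ u ∈ Icc (0 : ℝ) 1, |r * u| ≤ r := fun u hu => by
      rw [abs_of_nonneg (mul_nonneg hr.le hu.1)]; exact mul_le_of_le_one_right hr.le hu.2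
    exact sqrt_sv_concave hK hc (slice_zero_mem hball (hin s hs')) (slice_zero_mem hball (hin t ht))
      ha hb hab
  have hnn : ∀ t ∈ Icc (0 : ℝ) 1, 0 ≤ g t := fun t _ => div_nonneg (Real.sqrt_nonneg _) hsπ.le
  have hge : ∀ t ∈ Icc (0 : ℝ) 1, √(1 - t ^ 2) ≤ g t := fun t ht => by
    have h := sv_ge_disc hK hball (t := r * t)
      (by rw [abs_of_nonneg (mul_nonneg hr.le ht.1)]; exact mul_le_of_le_one_right hr.le ht.2)
    rw [hgt2 t ht.1, show Real.pi * (r ^ 2 - (r * t) ^ 2) = Real.pi * r ^ 2 * (1 - t ^ 2) by ring] at h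
    rw [Real.sqrt_le_left (hnn t ht)]
    exact le_of_mul_le_mul_left h (by positivity)
  have sub : ∀ (F G : ℝ → ℝ) (k : ℝ), (∀ t, 0 ≤ t → F (r * t) = k * G t) →
      ∫ t in (0 : ℝ)..r, F t = r * k * ∫ t in (0 : ℝ)..1, G t := by
    intro F G k hFG
    have h := intervalIntegral.integral_comp_mul_left F hr.ne' (a := (0 : ℝ)) (b := 1)
    rw [mul_zero, mul_one, smul_eq_mul] at h
    rw [mul_assoc, ← intervalIntegral.integral_const_mul,
      ← intervalIntegral.integral_congr (fun t ht => hFG t (by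
        rw [uIcc_of_le zero_le_one] at ht; exact ht.1)), h, mul_inv_cancel_left₀ hr.ne']
  have i1 : IntervalIntegrable (fun t => √(sv K t)) volume (-r) r := by
    refine (intervalIntegrable_gfun hK (-r) r).congr fun t _ => ?_
    simp [gfun, Real.sqrt_eq_rpow]
  have i2 := intervalIntegrable_sv hK (-r) r
  have i3 : IntervalIntegrable (fun t => t ^ 2 * sv K t) volume (-r) r :=
    i2.continuousOn_mul (by fun_prop)
  have i4 : IntervalIntegrable (fun t => sv K t ^ 2) volume (-r) r := by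
    rw [intervalIntegrable_iff]
    refine Measure.integrableOn_of_bounded measure_Ioc_lt_top.ne
      ((measurable_sv hK).pow_const 2).aestronglyMeasurable
      (M := (volume (etail (1 + 1) '' K)).toReal ^ 2) (Eventually.of_forall fun t => ?_)
    rw [Real.norm_of_nonneg (sq_nonneg _)]
    exact pow_le_pow_left₀ (sv_nonneg t) (sv_le hK t) 2
  rw [integral_even (fun t => by rw [sv_even hs]) i1 hr.le,
    sub _ g (√Real.pi * r) hgt] at hsl
  rw [integral_even (sv_even hs) i2 hr.le, sub _ (fun t => g t ^ 2) (Real.pi * r ^ 2) hgt2] at hV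
  rw [integral_even (fun t => by rw [sv_even hs]) i4 hr.le,
    sub _ (fun t => g t ^ 4) (Real.pi ^ 2 * r ^ 4) (fun t ht => by rw [hgt2 t ht]; ring),
    integral_even (fun t => by rw [sv_even hs, neg_sq]) i3 hr.le,
    sub _ (fun t => t ^ 2 * g t ^ 2) (Real.pi * r ^ 4) (fun t ht => by rw [hgt2 t ht]; ring)] at hm
  have hC : (∫ t in (0 : ℝ)..1, g t ^ 4) / 4 ≤ ∫ t in (0 : ℝ)..1, t ^ 2 * g t ^ 2 := by
    field_simp at hm
    nlinarith [mul_pos hπ (pow_pos hr 5)]
  refine ⟨g, hconc, hanti, hnn, hge, hC, by rw [← hV]; ring, ?_⟩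
  rw [hsl]
  have e : (√Real.pi) ^ 2 = Real.pi := Real.sq_sqrt hπ.le
  linear_combination (16 * r ^ 4 * (∫ t in (0 : ℝ)..1, g t) ^ 2) * e

/-- The projection inequality for the slices in the direction of a contact point. -/
theorem sliceInt_ge {r c : ℝ} (hK : IsCompact K) (hc : Convex ℝ K) (hs : ∀ x ∈ K, -x ∈ K)
    (hr : 0 < r) (hball : closedBall 0 r ⊆ K) (hslab : ∀ x ∈ K, |x 0| ≤ r)
    (hiso : ∀ v, ∫ x in K, ⟪v, x⟫ ^ 2 = c * ‖v‖ ^ 2) :
    3 * Real.pi ^ 2 / 4 * r * (volume K).toReal ≤ 4 * sliceInt K ^ (1 + 1) := by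
  have hπ := Real.pi_pos
  obtain ⟨g, hconc, hanti, hnn, hge, hC, hV, hG⟩ := slice_profile hK hc hs hr hball hslab hiso
  have hδ : 0 ≤ ∫ t in (0 : ℝ)..1, (g t - √(1 - t ^ 2)) :=
    intervalIntegral.integral_nonneg zero_le_one fun t ht => sub_nonneg.2 (hge t ht)
  have hp := profile3 hconc hanti hnn hge hC
  rw [hG, hV]
  calc 3 * Real.pi ^ 2 / 4 * r * (2 * Real.pi * r ^ 3 * ∫ t in (0 : ℝ)..1, g t ^ 2)
      = 16 * Real.pi * r ^ 4 * (3 * Real.pi ^ 2 / 32 * ∫ t in (0 : ℝ)..1, g t ^ 2) := by ring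
    _ ≤ _ := mul_le_mul_of_nonneg_left (by linarith) (by positivity)

/-- Without slack in the projection inequality the body has the volume of the ball. -/
theorem volume_of_sliceInt_le {r c : ℝ} (hK : IsCompact K) (hc : Convex ℝ K)
    (hs : ∀ x ∈ K, -x ∈ K) (hr : 0 < r) (hball : closedBall 0 r ⊆ K)
    (hslab : ∀ x ∈ K, |x 0| ≤ r) (hiso : ∀ v, ∫ x in K, ⟪v, x⟫ ^ 2 = c * ‖v‖ ^ 2)
    (hle : 4 * sliceInt K ^ (1 + 1) ≤ 3 * Real.pi ^ 2 / 4 * r * (volume K).toReal) :
    (volume K).toReal = 4 * Real.pi / 3 * r ^ 3 := by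
  have hπ := Real.pi_pos
  obtain ⟨g, hconc, hanti, hnn, hge, hC, hV, hG⟩ := slice_profile hK hc hs hr hball hslab hiso
  have hp := profile3 hconc hanti hnn hge hC
  rw [hG, hV] at hle
  have h0 : 0 ≤ ∫ t in (0 : ℝ)..1, (g t - √(1 - t ^ 2)) :=
    intervalIntegral.integral_nonneg zero_le_one fun t ht => sub_nonneg.2 (hge t ht)
  have hk : (0 : ℝ) < 16 * Real.pi * r ^ 4 := by positivity
  have hδ : ∫ t in (0 : ℝ)..1, (g t - √(1 - t ^ 2)) = 0 := by
    refine le_antisymm ?_ h0
    have h1 := mul_le_mul_of_nonneg_left hp hk.le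
    nlinarith
  have hint : IntervalIntegrable (fun t => g t - √(1 - t ^ 2)) volume 0 1 :=
    hanti.intervalIntegrable.sub ((by fun_prop : Continuous fun t : ℝ => √(1 - t ^ 2)).intervalIntegrable _ _)
  have hae := (intervalIntegral.integral_eq_zero_iff_of_le_of_nonneg_ae zero_le_one
    (by filter_upwards [ae_restrict_mem measurableSet_Ioc] with t ht
        exact sub_nonneg.2 (hge t (Ioc_subset_Icc_self ht))) hint).1 hδ
  have h2 : ∫ t in (0 : ℝ)..1, g t ^ 2 = ∫ t in (0 : ℝ)..1, (1 - t ^ 2) := by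
    rw [intervalIntegral.integral_of_le zero_le_one, intervalIntegral.integral_of_le zero_le_one]
    refine integral_congr_ae ?_
    filter_upwards [hae, ae_restrict_mem measurableSet_Ioc] with t ht htI
    rw [show g t = √(1 - t ^ 2) from sub_eq_zero.1 ht,
      Real.sq_sqrt (sub_nonneg.2 (pow_le_one₀ htI.1.le htI.2))]
  rw [hV, h2, intervalIntegral.integral_sub intervalIntegrable_const
    ((continuous_pow 2).intervalIntegrable _ _)]
  simp
  ring

end Vale.Agent.P237U
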