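import Vale.Agent.P237.Polytope
import Vale.Agent.P237R.Slicing
import Vale.Agent.P237R.Calib
import Vale.Agent.P237U.Linear

/-!
# Slices of a convex body and of the cylinders over its projections
-/

namespace Vale.Agent.P237U

open MeasureTheory Set Metric Filter Topology Vale.Agent.P237 Vale.Agent.P237R
open scoped RealInnerProductSpace ENNReal Pointwise

variable {n : ℕ}

/-- The slice at height `t`. -/
def slice (K : Set (EuclideanSpace ℝ (Fin (n + 1)))) (t : ℝ) : Set (EuclideanSpace ℝ (Fin n)) :=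
  {y | econs t y ∈ K}

/-- The volume of the slice at height `t`. -/
noncomputable def sv (K : Set (EuclideanSpace ℝ (Fin (n + 1)))) (t : ℝ) : ℝ :=
  (volume (slice K t)).toReal

/-- The lowest height. -/
noncomputable def sLo (K : Set (EuclideanSpace ℝ (Fin (n + 1)))) : ℝ :=
  sInf ((fun x => x 0) '' K)

/-- The highest height. -/
noncomputable def sHi (K : Set (EuclideanSpace ℝ (Fin (n + 1)))) : ℝ :=
  sSup ((fun x => x 0) '' K)

lemma continuous_econs_snd (t : ℝ) :
    Continuous fun y : EuclideanSpace ℝ (Fin n) => econs t y := by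
  unfold econs; fun_prop

variable {K : Set (EuclideanSpace ℝ (Fin (n + 1)))}

lemma slice_subset_image (t : ℝ) : slice K t ⊆ etail n '' K :=
  fun y hy => ⟨_, hy, etail_econs t y⟩

lemma isCompact_slice (hK : IsCompact K) (t : ℝ) : IsCompact (slice K t) :=
  (hK.image (etail n).continuous_of_finiteDimensional).of_isClosed_subset
    (hK.isClosed.preimage (continuous_econs_snd t)) (slice_subset_image t)

lemma convex_slice (hc : Convex ℝ K) (t : ℝ) : Convex ℝ (slice K t) := by
  intro a ha b hb p q hp hq hpq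
  have h := hc ha hb hp hq hpq
  rw [smul_econs, smul_econs, econs_add, ← add_mul, hpq, one_mul] at h
  exact h

lemma continuous_height : Continuous fun x : EuclideanSpace ℝ (Fin (n + 1)) => x 0 := by
  fun_prop

lemma height_mem (hK : IsCompact K) {x : EuclideanSpace ℝ (Fin (n + 1))} (hx : x ∈ K) :
    x 0 ∈ Icc (sLo K) (sHi K) :=
  ⟨csInf_le (hK.image continuous_height).bddBelow ⟨x, hx, rfl⟩,
    le_csSup (hK.image continuous_height).bddAbove ⟨x, hx, rfl⟩⟩

lemma exists_lo (hK : IsCompact K) (hne : K.Nonempty) : ∃ p ∈ K, p 0 = sLo K :=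
  (hK.image continuous_height).sInf_mem (hne.image _)

lemma exists_hi (hK : IsCompact K) (hne : K.Nonempty) : ∃ p ∈ K, p 0 = sHi K :=
  (hK.image continuous_height).sSup_mem (hne.image _)

lemma height_interior (hK : IsCompact K) {x : EuclideanSpace ℝ (Fin (n + 1))}
    (hx : x ∈ interior K) : x 0 ∈ Ioo (sLo K) (sHi K) := by
  obtain ⟨ρ, hρ, hball⟩ := Metric.isOpen_iff.1 isOpen_interior x hx
  have h1 : ∀ s : ℝ, |s| < ρ → x + s • e0 n ∈ K := fun s hs => interior_subset (hball (by
    rw [mem_ball_iff_norm, add_sub_cancel_left, norm_smul, Real.norm_eq_abs]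
    simpa [e0] using hs))
  have h2 := height_mem hK (h1 (ρ / 2) (by rw [abs_of_pos (by linarith)]; linarith))
  have h3 := height_mem hK (h1 (-(ρ / 2)) (by rw [abs_neg, abs_of_pos (by linarith)]; linarith))
  simp [e0] at h2 h3
  exact ⟨by linarith [h3.1], by linarith [h2.2]⟩

/-- Slices at nearby heights contain a slightly shrunken copy of one another. -/
lemma slice_scale (hK : IsCompact K) (hc : Convex ℝ K) (hne : K.Nonempty) {s t η : ℝ}
    (_ht : t ∈ Icc (sLo K) (sHi K)) (hη : 0 < η) (hs1 : η ≤ s - sLo K) (hs2 : η ≤ sHi K - s) :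
    ∃ r v, 0 < r ∧ r ≤ 1 ∧ 1 - |s - t| / η ≤ r ∧
      (fun y : EuclideanSpace ℝ (Fin n) => r • y + v) '' slice K t ⊆ slice K s := by
  have main : ∀ (p : EuclideanSpace ℝ (Fin (n + 1))), p ∈ K → ∀ l : ℝ, 0 ≤ l → l < 1 →
      (1 - l) * t + l * p 0 = s →
      (fun y : EuclideanSpace ℝ (Fin n) => (1 - l) • y + l • etail n p) '' slice K t
        ⊆ slice K s := by
    rintro p hp l hl0 hl1 he _ ⟨y, hy, rfl⟩
    have h := hc hy hp (sub_nonneg.2 hl1.le) hl0 (sub_add_cancel 1 l)
    rw [← econs_etail p, smul_econs, smul_econs, econs_add, he] at h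
    exact h
  rcases le_total t s with hts | hts
  · obtain ⟨p, hp, hp0⟩ := exists_hi hK hne
    have hd : 0 < sHi K - t := by linarith
    refine ⟨1 - (s - t) / (sHi K - t), _, ?_, ?_, ?_, main p hp _ (by
      exact div_nonneg (by linarith) hd.le) ?_ ?_⟩
    · rw [sub_pos, div_lt_one hd]; linarith
    · have : 0 ≤ (s - t) / (sHi K - t) := div_nonneg (by linarith) hd.le
      linarith
    · rw [abs_of_nonneg (by linarith)]
      have : (s - t) / (sHi K - t) ≤ (s - t) / η :=
        div_le_div_of_nonneg_left (by linarith) hη (by linarith)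
      linarith
    · rw [div_lt_one hd]; linarith
    · rw [hp0]; field_simp; ring
  · obtain ⟨p, hp, hp0⟩ := exists_lo hK hne
    have hd : 0 < t - sLo K := by linarith
    refine ⟨1 - (t - s) / (t - sLo K), _, ?_, ?_, ?_, main p hp _ (by
      exact div_nonneg (by linarith) hd.le) ?_ ?_⟩
    · rw [sub_pos, div_lt_one hd]; linarith
    · have : 0 ≤ (t - s) / (t - sLo K) := div_nonneg (by linarith) hd.le
      linarith
    · rw [abs_sub_comm, abs_of_nonneg (by linarith)]
      have : (t - s) / (t - sLo K) ≤ (t - s) / η :=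
        div_le_div_of_nonneg_left (by linarith) hη (by linarith)
      linarith
    · rw [div_lt_one hd]; linarith
    · rw [hp0]; field_simp; ring

lemma interior_slice_nonempty (hK : IsCompact K) (hc : Convex ℝ K)
    (hi : (interior K).Nonempty) {s : ℝ} (hs : s ∈ Ioo (sLo K) (sHi K)) :
    (interior (slice K s)).Nonempty := by
  obtain ⟨x, hx⟩ := hi
  have hsub : {y | econs (x 0) y ∈ interior K} ⊆ slice K (x 0) := fun y hy =>
    interior_subset (s := K) hy
  have hopen : IsOpen {y : EuclideanSpace ℝ (Fin n) | econs (x 0) y ∈ interior K} :=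
    isOpen_interior.preimage (continuous_econs_snd _)
  have hmem : etail n x ∈ interior (slice K (x 0)) :=
    interior_maximal hsub hopen (by simpa [econs_etail] using hx)
  obtain ⟨r, v, hr, -, -, hsubs⟩ := slice_scale hK hc ⟨x, interior_subset hx⟩
    (Ioo_subset_Icc_self (height_interior hK hx))
    (lt_min (sub_pos.2 hs.1) (sub_pos.2 hs.2)) (min_le_left _ _) (min_le_right _ _)
  refine ⟨r • etail n x + v, interior_mono hsubs ?_⟩
  let h : EuclideanSpace ℝ (Fin n) ≃ₜ EuclideanSpace ℝ (Fin n) :=
    (Homeomorph.smulOfNeZero r hr.ne').trans (Homeomorph.addRight v)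
  have : (fun y => r • y + v) '' slice K (x 0) = h '' slice K (x 0) := rfl
  rw [this, ← h.image_interior]
  exact ⟨_, hmem, rfl⟩

lemma volume_image_scale (r : ℝ) (hr : 0 ≤ r) (v : EuclideanSpace ℝ (Fin n))
    (S : Set (EuclideanSpace ℝ (Fin n))) :
    volume ((fun y => r • y + v) '' S) = ENNReal.ofReal (r ^ n) * volume S := by
  have : (fun y => r • y + v) '' S = (fun y => y + -v) ⁻¹' (r • S) := by
    rw [← Set.image_smul, ← Set.image_image (fun y => y + v) (fun y => r • y), image_add_right]
  rw [this, measure_preimage_add_right, Measure.addHaar_smul_of_nonneg _ hr,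
    finrank_euclideanSpace_fin]

lemma sv_nonneg (t : ℝ) : 0 ≤ sv K t := ENNReal.toReal_nonneg

lemma sv_le (hK : IsCompact K) (t : ℝ) : sv K t ≤ (volume (etail n '' K)).toReal :=
  ENNReal.toReal_mono ((hK.image (etail n).continuous_of_finiteDimensional).measure_lt_top (μ := volume)).ne
    (measure_mono (slice_subset_image t))

lemma sv_pos (hK : IsCompact K) (hc : Convex ℝ K) (hi : (interior K).Nonempty) {t : ℝ}
    (ht : t ∈ Ioo (sLo K) (sHi K)) : 0 < sv K t := by
  refine ENNReal.toReal_pos ?_ (isCompact_slice hK t).measure_lt_top.ne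
  exact ((isOpen_interior.measure_pos volume (interior_slice_nonempty hK hc hi ht)).trans_le
    (measure_mono interior_subset)).ne'

lemma sv_scale (hK : IsCompact K) (hc : Convex ℝ K) (hne : K.Nonempty) {s t η : ℝ}
    (ht : t ∈ Icc (sLo K) (sHi K)) (hη : 0 < η) (hs1 : η ≤ s - sLo K) (hs2 : η ≤ sHi K - s)
    (hst : |s - t| ≤ η) :
    (1 - |s - t| / η) ^ n * sv K t ≤ sv K s := by
  obtain ⟨r, v, hr, -, hr2, hsub⟩ := slice_scale hK hc hne ht hη hs1 hs2
  have h := ENNReal.toReal_mono ((isCompact_slice hK s).measure_lt_top (μ := volume)).ne (measure_mono hsub)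
  rw [volume_image_scale r hr.le, ENNReal.toReal_mul, ENNReal.toReal_ofReal (by positivity)] at h
  refine le_trans (mul_le_mul_of_nonneg_right (pow_le_pow_left₀ ?_ hr2 n) (sv_nonneg t)) h
  rw [sub_nonneg, div_le_one hη]
  exact hst

lemma continuousOn_sv (hK : IsCompact K) (hc : Convex ℝ K) (hne : K.Nonempty) :
    ContinuousOn (sv K) (Ioo (sLo K) (sHi K)) := by
  intro t ht
  refine ContinuousAt.continuousWithinAt ?_
  set η := min (t - sLo K) (sHi K - t) with hη
  have hη0 : 0 < η := lt_min (sub_pos.2 ht.1) (sub_pos.2 ht.2)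
  have hη1 : η ≤ t - sLo K := min_le_left _ _
  have hη2 : η ≤ sHi K - t := min_le_right _ _
  have hl : ContinuousAt (fun s => (1 - |s - t| / (η / 2)) ^ n * sv K t) t := by fun_prop
  have hu : ContinuousAt (fun s => sv K t / (1 - |s - t| / η) ^ n) t :=
    continuousAt_const.div (by fun_prop) (by simp)
  have hlt := hl.tendsto
  have hut := hu.tendsto
  simp only [sub_self, abs_zero, zero_div, sub_zero, one_pow, one_mul, div_one] at hlt hut
  have hev : ∀ᶠ s in 𝓝 t, |s - t| < η / 2 := by
    filter_upwards [Metric.ball_mem_nhds t (half_pos hη0)] with s hs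
    simpa [Real.dist_eq] using hs
  refine tendsto_of_tendsto_of_tendsto_of_le_of_le' hlt hut ?_ ?_
  · filter_upwards [hev] with s hs
    obtain ⟨h1, h2⟩ := abs_lt.1 hs
    exact sv_scale hK hc hne (Ioo_subset_Icc_self ht) (half_pos hη0) (by linarith)
      (by linarith) hs.le
  · filter_upwards [hev] with s hs
    obtain ⟨h1, h2⟩ := abs_lt.1 hs
    have h := sv_scale hK hc hne (s := t) (t := s) ⟨by linarith, by linarith⟩ hη0 hη1 hη2
      (by rw [abs_sub_comm]; linarith)
    rw [abs_sub_comm t s] at h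
    rw [le_div_iff₀ (pow_pos (by rw [sub_pos, div_lt_one hη0]; linarith) n)]
    linarith

lemma volume_eq_lintegral_slice {S : Set (EuclideanSpace ℝ (Fin (n + 1)))}
    (hS : MeasurableSet S) : volume S = ∫⁻ t : ℝ, volume (slice S t) := by
  rw [← lintegral_indicator_one hS, lintegral_econs (measurable_one.indicator hS)]
  refine lintegral_congr fun t => ?_
  have hm : MeasurableSet (slice S t) := (continuous_econs_snd t).measurable hS
  rw [← lintegral_indicator_one hm]
  rfl

lemma measurable_slice_volume {S : Set (EuclideanSpace ℝ (Fin (n + 1)))}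
    (hS : MeasurableSet S) : Measurable fun t => volume (slice S t) :=
  measurable_measure_prodMk_left ((measurePreserving_econs n).measurable hS)

lemma measurable_sv (hK : IsCompact K) : Measurable (sv K) :=
  (measurable_slice_volume hK.measurableSet).ennreal_toReal

lemma slice_empty (hK : IsCompact K) {t : ℝ} (ht : t ∉ Icc (sLo K) (sHi K)) :
    slice K t = ∅ := by
  refine eq_empty_of_forall_notMem fun y hy => ht ?_
  simpa [econs_apply_zero] using height_mem hK (show econs t y ∈ K from hy)

lemma slice_projCylinder (w : EuclideanSpace ℝ (Fin n)) (t : ℝ) :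
    slice (projCylinder K (econs 0 w)) t = projCylinder (slice K t) w := by
  ext y
  have key : ∀ (r : ℝ) (z : EuclideanSpace ℝ (Fin n)) (s : ℝ),
      econs r z - ⟪econs 0 w, econs r z⟫ • econs 0 w + s • econs 0 w
        = econs r (z - ⟪w, z⟫ • w + s • w) := by
    intro r z s
    rw [inner_econs, sub_eq_add_neg, ← neg_smul, smul_econs, econs_add, smul_econs, econs_add]
    simp [sub_eq_add_neg]
  simp only [slice, projCylinder, Set.mem_ofPred_eq]
  constructor
  · rintro ⟨x, hx, s, hs, he⟩
    rw [← econs_etail x, key] at he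
    have h0 := congrArg (fun z : EuclideanSpace ℝ (Fin (n + 1)) => z 0) he
    simp only [econs_apply_zero] at h0
    refine ⟨etail n x, by rw [h0, econs_etail]; exact hx, s, hs, ?_⟩
    have h1 := congrArg (etail n) he
    rwa [etail_econs, etail_econs] at h1
  · rintro ⟨z, hz, s, hs, rfl⟩
    exact ⟨_, hz, s, hs, (key t z s).symm⟩

lemma measurableSet_projCylinder (hK : IsCompact K) (u : EuclideanSpace ℝ (Fin (n + 1))) :
    MeasurableSet (projCylinder K u) := by
  have : projCylinder K u = (fun p : EuclideanSpace ℝ (Fin (n + 1)) × ℝ =>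
      p.1 - ⟪u, p.1⟫ • u + p.2 • u) '' (K ×ˢ Icc (0 : ℝ) 1) := by
    ext z
    constructor
    · rintro ⟨x, hx, s, hs, rfl⟩; exact ⟨(x, s), ⟨hx, hs⟩, rfl⟩
    · rintro ⟨⟨x, s⟩, ⟨hx, hs⟩, rfl⟩; exact ⟨x, hx, s, hs, rfl⟩
  rw [this]
  exact ((hK.prod isCompact_Icc).image (by fun_prop)).measurableSet

lemma projVolume_eq_lintegral (hK : IsCompact K) (w : EuclideanSpace ℝ (Fin n)) :
    projVolume K (econs 0 w) = ∫⁻ t : ℝ, projVolume (slice K t) w := by
  rw [projVolume, volume_eq_lintegral_slice (measurableSet_projCylinder hK _)]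
  simp only [slice_projCylinder]
  rfl

lemma projVolume_scale {j : ℕ} {F : Set (EuclideanSpace ℝ (Fin (j + 1)))} (hF : IsCompact F)
    {r : ℝ} (hr : 0 ≤ r) (v : EuclideanSpace ℝ (Fin (j + 1)))
    {u : EuclideanSpace ℝ (Fin (j + 1))} (hu : ‖u‖ = 1) :
    projVolume ((fun y => r • y + v) '' F) u = ENNReal.ofReal (r ^ j) * projVolume F u := by
  obtain ⟨R, hR⟩ := exists_align u
  rw [hu, one_smul] at hR
  rw [projVolume_eq hu R hR (hF.image (by fun_prop)), projVolume_eq hu R hR hF,
    ← volume_image_scale r hr (etail j (R v))]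
  simp only [Set.image_image, map_add, map_smul]

end Vale.Agent.P237U
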