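import Vale.Agent.P237U.Sweep
import Vale.Agent.P237U.BL

/-!
# From dimension n to dimension n + 1, for polytopes in balanced position
-/

namespace Vale.Agent.P237U

open MeasureTheory Set Metric Filter Topology Vale.Agent.P237 Vale.Agent.P237R
open scoped RealInnerProductSpace ENNReal Pointwise

variable {j N : ℕ}

/-- The generators of the zonotope of a polytope. -/
noncomputable def gens (u : Fin N → EuclideanSpace ℝ (Fin (j + 1 + 1))) (b : Fin N → ℝ) :
    Fin N → EuclideanSpace ℝ (Fin (j + 1 + 1)) :=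
  fun i => (((j + 1 + 1 : ℕ) : ℝ) * coneVol u b i / (2 * b i)) • u i

lemma continuous_etail (n : ℕ) : Continuous (etail n) := (etail n).continuous_of_finiteDimensional

lemma flatBody_subset [NeZero N] (u : Fin N → EuclideanSpace ℝ (Fin (j + 1 + 1))) (b : Fin N → ℝ)
    (hb : ∀ i, 0 < b i) (hK : IsCompact (polyH u b)) :
    flatBody (polyH u b) ⊆ etail (j + 1) '' zono (gens u b) := by
  intro y hy
  by_contra hny
  have hCc : IsClosed (etail (j + 1) '' zono (gens u b)) :=
    ((isCompact_zono _).image (continuous_etail (j + 1))).isClosed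
  obtain ⟨f, s, hf, hs⟩ := geometric_hahn_banach_closed_point
    ((convex_zono _).linear_image (etail (j + 1))) hCc hny
  set z := (InnerProductSpace.toDual ℝ (EuclideanSpace ℝ (Fin (j + 1)))).symm f with hz
  have hfz : ∀ a, f a = ⟪z, a⟫ := fun a => by
    rw [hz, InnerProductSpace.toDual_symm_apply]
  have hs0 : 0 < s := by
    have := hf 0 ⟨0, zono_zero_mem _, map_zero _⟩
    rwa [map_zero] at this
  have hz0 : z ≠ 0 := by
    intro h
    rw [hfz, h, inner_zero_left] at hs
    linarith
  set w := ‖z‖⁻¹ • z with hw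
  have hw1 : ‖w‖ = 1 := by simp [hw, norm_smul, hz0]
  have he : ‖econs 0 w‖ = 1 := by
    have h := norm_econs_sq 0 w
    rw [hw1] at h
    nlinarith [norm_nonneg (econs 0 w), h]
  have h1 := (hy w hw1).trans (projVolume_le_sum u b hb hK _ he)
  have hnn : 0 ≤ ∑ i, ((j + 1 + 1 : ℕ) : ℝ) * coneVol u b i / (2 * b i)
      * |⟪u i, econs 0 w⟫| := Finset.sum_nonneg fun i _ => by
    have := hb i
    have : 0 ≤ coneVol u b i := ENNReal.toReal_nonneg
    positivity
  rw [ENNReal.ofReal_le_ofReal_iff hnn] at h1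
  set sg : Fin N → ℝ := fun i => if 0 ≤ ⟪u i, econs 0 w⟫ then 1 else -1 with hsg
  have hmem : etail (j + 1) (∑ i, sg i • gens u b i) ∈ etail (j + 1) '' zono (gens u b) :=
    ⟨_, ⟨sg, fun i _ => by simp only [hsg]; split_ifs <;> simp, rfl⟩, rfl⟩
  have h2 := (hf _ hmem).trans hs
  rw [hfz, hfz] at h2
  have h3 : ⟪w, etail (j + 1) (∑ i, sg i • gens u b i)⟫ < ⟪w, y⟫ := by
    rw [hw, real_inner_smul_left, real_inner_smul_left]
    exact mul_lt_mul_of_pos_left h2 (inv_pos.2 (norm_pos_iff.2 hz0))
  have h4 : ∀ x, ⟪w, etail (j + 1) x⟫ = ⟪econs 0 w, x⟫ := fun x => by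
    conv_rhs => rw [← econs_etail x]
    rw [inner_econs, zero_mul, zero_add]
  rw [h4, inner_sum] at h3
  have h5 : ∑ i, ⟪econs 0 w, sg i • gens u b i⟫
      = ∑ i, ((j + 1 + 1 : ℕ) : ℝ) * coneVol u b i / (2 * b i) * |⟪u i, econs 0 w⟫| := by
    refine Finset.sum_congr rfl fun i _ => ?_
    rw [gens, real_inner_smul_right, real_inner_smul_right, real_inner_comm (econs 0 w)]
    simp only [hsg]
    split_ifs with h
    · rw [abs_of_nonneg (by rwa [real_inner_comm])]; ring
    · rw [abs_of_neg (by rw [real_inner_comm]; linarith)]; ring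
  linarith

lemma integral_sv {n : ℕ} {K : Set (EuclideanSpace ℝ (Fin (n + 1)))} (hK : IsCompact K)
    (hne : K.Nonempty) : ∫ t in (sLo K)..(sHi K), sv K t = (volume K).toReal := by
  obtain ⟨p, hp, hp0⟩ := exists_lo hK hne
  have hle : sLo K ≤ sHi K := by
    have := height_mem hK hp
    linarith [this.1, this.2]
  rw [intervalIntegral.integral_of_le hle, ← integral_Icc_eq_integral_Ioc,
    volume_eq_lintegral_slice hK.measurableSet,
    setIntegral_eq_integral_of_forall_compl_eq_zero (fun t ht => by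
      rw [sv, slice_empty hK ht, measure_empty, ENNReal.toReal_zero])]
  exact integral_toReal (measurable_slice_volume hK.measurableSet).aemeasurable
    (Eventually.of_forall fun t => (isCompact_slice hK t).measure_lt_top)

lemma intervalIntegrable_sv {n : ℕ} {K : Set (EuclideanSpace ℝ (Fin (n + 1)))} (hK : IsCompact K)
    (a b : ℝ) : IntervalIntegrable (sv K) volume a b := by
  rw [intervalIntegrable_iff]
  exact Measure.integrableOn_of_bounded measure_Ioc_lt_top.ne
    (measurable_sv hK).aestronglyMeasurable (M := (volume (etail n '' K)).toReal)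
    (Eventually.of_forall fun t => by
      rw [Real.norm_of_nonneg (sv_nonneg t)]
      exact sv_le hK t)

lemma sliceInt_nonneg {K : Set (EuclideanSpace ℝ (Fin (j + 1 + 1)))}
    (hle : sLo K ≤ sHi K) : 0 ≤ sliceInt K :=
  intervalIntegral.integral_nonneg hle fun t _ => gfun_nonneg t

lemma lintegral_negPow_le {K : Set (EuclideanSpace ℝ (Fin (j + 1 + 1)))} (hK : IsCompact K)
    (hc : Convex ℝ K) (hi : (interior K).Nonempty) :
    ∫⁻ x in interior K, ENNReal.ofReal (sv K (x 0) ^ (-(1 / ((j + 1 : ℕ) : ℝ))))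
      ≤ ENNReal.ofReal (sliceInt K) := by
  set e : ℝ := -(1 / ((j + 1 : ℕ) : ℝ)) with he
  obtain ⟨x₀, hx₀⟩ := hi
  have hi : (interior K).Nonempty := ⟨x₀, hx₀⟩
  have hle : sLo K ≤ sHi K := by
    have := height_interior hK hx₀
    linarith [this.1, this.2]
  have hφ : Measurable fun t => ENNReal.ofReal (sv K t ^ e) :=
    ((measurable_sv hK).pow_const _).ennreal_ofReal
  have hH : Measurable fun x : EuclideanSpace ℝ (Fin (j + 1 + 1)) =>
      ENNReal.ofReal (sv K (x 0) ^ e) := hφ.comp continuous_height.measurable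
  have hG : ENNReal.ofReal (sliceInt K)
      = ∫⁻ t in Ioo (sLo K) (sHi K), ENNReal.ofReal (gfun K t) := by
    rw [sliceInt, intervalIntegral.integral_of_le hle, integral_Ioc_eq_integral_Ioo,
      ofReal_integral_eq_lintegral_ofReal ?_ (Eventually.of_forall fun t => gfun_nonneg t)]
    exact (intervalIntegrable_iff_integrableOn_Ioo_of_le hle).1 (intervalIntegrable_gfun hK _ _)
  rw [hG, ← lintegral_indicator measurableSet_interior, ← lintegral_indicator measurableSet_Ioo,
    lintegral_econs (hH.indicator measurableSet_interior)]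
  refine lintegral_mono fun t => ?_
  by_cases ht : t ∈ Ioo (sLo K) (sHi K)
  · rw [indicator_of_mem ht]
    have ha := sv_pos hK hc hi ht
    calc ∫⁻ y, (interior K).indicator (fun x => ENNReal.ofReal (sv K (x 0) ^ e)) (econs t y)
        ≤ ∫⁻ y, (slice K t).indicator (fun _ => ENNReal.ofReal (sv K t ^ e)) y := by
          refine lintegral_mono fun y => ?_
          by_cases hy : econs t y ∈ interior K
          · rw [indicator_of_mem hy, indicator_of_mem (show y ∈ slice K t from
              interior_subset (s := K) hy), econs_apply_zero]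
          · rw [indicator_of_notMem hy]
            exact zero_le
      _ = ENNReal.ofReal (sv K t ^ e) * ENNReal.ofReal (sv K t) := by
          rw [lintegral_indicator_const (isCompact_slice hK t).measurableSet, sv,
            ENNReal.ofReal_toReal (isCompact_slice hK t).measure_lt_top.ne]
      _ = ENNReal.ofReal (gfun K t) := by
          rw [← ENNReal.ofReal_mul (Real.rpow_nonneg (sv_nonneg t) _), gfun]
          nth_rw 2 [← Real.rpow_one (sv K t)]
          rw [← Real.rpow_add ha]
          congr 2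
          rw [he]
          field_simp
          push_cast
          ring
  · rw [indicator_of_notMem ht]
    refine le_of_eq ?_
    refine (lintegral_congr fun y => indicator_of_notMem (fun h => ht ?_) _).trans lintegral_zero
    simpa [econs_apply_zero] using height_interior hK h

/-- The core inequality for a balanced family of directions. -/
lemma core_sum (v : Fin N → EuclideanSpace ℝ (Fin (j + 1 + 1)))
    (R : Fin N → EuclideanSpace ℝ (Fin (j + 1 + 1)) ≃ₗᵢ[ℝ] EuclideanSpace ℝ (Fin (j + 1 + 1)))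
    (hR : ∀ i, R i (v i) = e0 (j + 1)) (c : Fin N → ℝ) (hc : ∀ i, 0 ≤ c i)
    (hv : ∀ i, ‖v i‖ = 1) (hsum : ∑ i, c i = ((j + 1 + 1 : ℕ) : ℝ))
    (hiso : ∀ z, ∑ i, c i * ⟪v i, z⟫ ^ 2 = ‖z‖ ^ 2)
    {K : Set (EuclideanSpace ℝ (Fin (j + 1 + 1)))} (hK : IsCompact K) (hcv : Convex ℝ K)
    (hi : (interior K).Nonempty) :
    (volume K).toReal ^ (j + 1) ≤ ∏ i, sliceInt (R i '' K) ^ c i := by
  set U := interior K with hU
  set V := (volume K).toReal with hV
  have hKi : ∀ i, IsCompact (R i '' K) := fun i => hK.image (R i).continuous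
  have hcvi : ∀ i, Convex ℝ (R i '' K) := fun i =>
    hcv.linear_image (R i).toLinearEquiv.toLinearMap
  have hint : ∀ i, interior (R i '' K) = R i '' U := fun i =>
    ((R i).toHomeomorph.image_interior K).symm
  have hine : ∀ i, (interior (R i '' K)).Nonempty := fun i => by
    rw [hint]; exact hi.image _
  have hcoord : ∀ i x, ⟪v i, x⟫ = R i x 0 := fun i x => by
    rw [← LinearIsometryEquiv.inner_map_map (R i) (v i) x, hR]
    simp [e0, EuclideanSpace.inner_single_left]
  have hmemU : ∀ x ∈ U, ∀ i, ⟪v i, x⟫ ∈ Ioo (sLo (R i '' K)) (sHi (R i '' K)) := fun x hx i => by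
    rw [hcoord]
    exact height_interior (hKi i) (by rw [hint]; exact ⟨x, hx, rfl⟩)
  have hlh : ∀ i, sLo (R i '' K) ≤ sHi (R i '' K) := fun i => by
    obtain ⟨x, hx⟩ := hi
    linarith [(hmemU x hx i).1, (hmemU x hx i).2]
  have hVne : volume U ≠ ⊤ :=
    ((measure_mono interior_subset).trans_lt hK.measure_lt_top).ne
  have hVU : volume U = ENNReal.ofReal V := by
    rw [hV, ENNReal.ofReal_toReal hK.measure_lt_top.ne]
    refine le_antisymm (measure_mono interior_subset) ?_
    calc volume K ≤ volume (U ∪ frontier K) := measure_mono (fun x hx => by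
          by_cases h : x ∈ U
          · exact Or.inl h
          · exact Or.inr ⟨subset_closure hx, h⟩)
      _ ≤ volume U + volume (frontier K) := measure_union_le _ _
      _ = volume U := by rw [hcv.addHaar_frontier volume, add_zero]
  have hV0 : 0 < V := by
    refine ENNReal.toReal_pos (fun h => ?_) hK.measure_lt_top.ne
    exact (isOpen_interior.measure_pos volume hi).ne'
      (measure_mono_null interior_subset h)
  have hsvi : ∀ i, ∫ t in (sLo (R i '' K))..(sHi (R i '' K)), sv (R i '' K) t = V := fun i => by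
    rw [integral_sv (hKi i) ((hine i).mono interior_subset), volume_image_isometry]
  have hBL := brascamp_lieb v c hc hv hiso U isOpen_interior hi _ _ hmemU
    (fun i => sv (R i '' K))
    (fun i => continuousOn_sv (hKi i) (hcvi i) ((hine i).mono interior_subset))
    (fun i t ht => sv_pos (hKi i) (hcvi i) (hine i) ht)
    (fun i => intervalIntegrable_sv (hKi i) _ _)
  simp only [hsvi, ← Real.rpow_sum_of_pos hV0, hsum] at hBL
  set k : ℝ := ((j + 1 : ℕ) : ℝ) with hk
  set m : ℝ := ((j + 1 + 1 : ℕ) : ℝ) with hm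
  have hk0 : 0 < k := by rw [hk]; positivity
  have hmk : m = k + 1 := by rw [hm, hk]; push_cast; ring
  set lam : ℝ := 1 / (m + 1 / k) with hlam
  have hlam0 : 0 < lam := by rw [hlam, hmk]; positivity
  have hlam1 : lam * (m + 1 / k) = 1 := by
    rw [hlam, one_div_mul_cancel]
    rw [hmk]; positivity
  have hmeasA : ∀ i, Measurable fun x : EuclideanSpace ℝ (Fin (j + 1 + 1)) =>
      sv (R i '' K) ⟪v i, x⟫ := fun i => (measurable_sv (hKi i)).comp (by fun_prop)
  have hHold := ENNReal.lintegral_mul_prod_norm_pow_le (μ := volume.restrict U) Finset.univ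
    (g := fun x => ENNReal.ofReal (∏ i, sv (R i '' K) ⟪v i, x⟫ ^ c i))
    (f := fun i x => ENNReal.ofReal (sv (R i '' K) ⟪v i, x⟫ ^ (-(1 / k))))
    (Finset.measurable_prod _ fun i _ => (hmeasA i).pow_const _).ennreal_ofReal.aemeasurable
    (fun i _ => ((hmeasA i).pow_const _).ennreal_ofReal.aemeasurable)
    (lam / k) (p := fun i => lam * c i)
    (by rw [← Finset.mul_sum, hsum, ← hlam1]; ring)
    (by positivity) (fun i _ => mul_nonneg hlam0.le (hc i))
  have hone : ∀ x ∈ U, ENNReal.ofReal (∏ i, sv (R i '' K) ⟪v i, x⟫ ^ c i) ^ (lam / k) *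
      ∏ i, ENNReal.ofReal (sv (R i '' K) ⟪v i, x⟫ ^ (-(1 / k))) ^ (lam * c i) = 1 := by
    intro x hx
    have ha : ∀ i, 0 < sv (R i '' K) ⟪v i, x⟫ := fun i =>
      sv_pos (hKi i) (hcvi i) (hine i) (hmemU x hx i)
    rw [ENNReal.ofReal_rpow_of_pos (Finset.prod_pos fun i _ => Real.rpow_pos_of_pos (ha i) _),
      ← Real.finsetProd_rpow _ _ (fun i _ => Real.rpow_nonneg (ha i).le _)]
    simp only [ENNReal.ofReal_rpow_of_pos (Real.rpow_pos_of_pos (ha _) _)]
    rw [← ENNReal.ofReal_prod_of_nonneg (fun i _ => by have := ha i; positivity),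
      ← ENNReal.ofReal_mul (Finset.prod_nonneg fun i _ => by have := ha i; positivity),
      ← Finset.prod_mul_distrib]
    refine (congrArg ENNReal.ofReal (Finset.prod_eq_one fun i _ => ?_)).trans ENNReal.ofReal_one
    rw [← Real.rpow_mul (ha i).le, ← Real.rpow_mul (ha i).le, ← Real.rpow_add (ha i)]
    convert Real.rpow_zero (sv (R i '' K) ⟪v i, x⟫) using 2
    ring
  rw [setLIntegral_congr_fun measurableSet_interior hone, setLIntegral_one, hVU] at hHold
  have hphi : ∀ i, ∫⁻ x in U, ENNReal.ofReal (sv (R i '' K) ⟪v i, x⟫ ^ (-(1 / k)))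
      ≤ ENNReal.ofReal (sliceInt (R i '' K)) := by
    intro i
    refine le_trans (le_of_eq ?_) (lintegral_negPow_le (hKi i) (hcvi i) (hine i))
    rw [hint, ← (R i).measurePreserving.setLIntegral_comp_emb
      (R i).toHomeomorph.measurableEmbedding]
    simp only [hcoord, hk]
  have h1 : ENNReal.ofReal V ≤ ENNReal.ofReal ((V ^ m) ^ (lam / k) *
      ∏ i, sliceInt (R i '' K) ^ (lam * c i)) := by
    refine hHold.trans ?_
    rw [ENNReal.ofReal_mul (by positivity), ← ENNReal.ofReal_rpow_of_pos (by positivity),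
      ENNReal.ofReal_prod_of_nonneg (fun i _ => Real.rpow_nonneg (sliceInt_nonneg (hlh i)) _)]
    refine mul_le_mul' (ENNReal.rpow_le_rpow hBL (by positivity))
      (Finset.prod_le_prod' fun i _ => ?_)
    rw [← ENNReal.ofReal_rpow_of_nonneg (sliceInt_nonneg (hlh i))
      (mul_nonneg hlam0.le (hc i))]
    exact ENNReal.rpow_le_rpow (hphi i) (mul_nonneg hlam0.le (hc i))
  have hG0 : ∀ i, 0 ≤ sliceInt (R i '' K) := fun i => sliceInt_nonneg (hlh i)
  have hP0 : 0 ≤ ∏ i, sliceInt (R i '' K) ^ c i :=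
    Finset.prod_nonneg fun i _ => Real.rpow_nonneg (hG0 i) _
  have h2 := (ENNReal.ofReal_le_ofReal_iff (mul_nonneg (by positivity)
    (Finset.prod_nonneg fun i _ => Real.rpow_nonneg (hG0 i) _))).1 h1
  have h3 : ∏ i, sliceInt (R i '' K) ^ (lam * c i)
      = (∏ i, sliceInt (R i '' K) ^ c i) ^ lam := by
    rw [← Real.finsetProd_rpow _ _ (fun i _ => Real.rpow_nonneg (hG0 i) _)]
    exact Finset.prod_congr rfl fun i _ => by rw [← Real.rpow_mul (hG0 i), mul_comm]
  rw [h3, ← Real.rpow_mul hV0.le] at h2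
  have h4 : V = V ^ (m * (lam / k)) * (V ^ (j + 1)) ^ lam := by
    rw [← Real.rpow_natCast V (j + 1), ← Real.rpow_mul hV0.le, ← hk, ← Real.rpow_add hV0]
    conv_lhs => rw [← Real.rpow_one V]
    congr 1
    rw [hlam, hmk]
    field_simp
    ring
  nth_rw 1 [h4] at h2
  have h5 := le_of_mul_le_mul_left h2 (Real.rpow_pos_of_pos hV0 _)
  exact (Real.rpow_le_rpow_iff (by positivity) hP0 hlam0).1 h5

end Vale.Agent.P237U
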