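import Vale.Agent.P237U.Slices

/-!
# Summing the projection bodies of the slices
-/

namespace Vale.Agent.P237U

open MeasureTheory Set Metric Filter Topology Vale.Agent.P237 Vale.Agent.P237R
open scoped RealInnerProductSpace ENNReal Pointwise

/-- The inequality with constant `c` in dimension `k`. -/
def LowerBound (k : ℕ) (c : ℝ) : Prop :=
  ∀ F : Set (EuclideanSpace ℝ (Fin k)), IsCompact F → Convex ℝ F → (interior F).Nonempty →
    ENNReal.ofReal (c * (volume F).toReal ^ (k - 1)) ≤ volume (projBody F)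

variable {j : ℕ}

/-- The power of the slice volume which is integrated. -/
noncomputable def gfun (K : Set (EuclideanSpace ℝ (Fin (j + 1 + 1)))) (t : ℝ) : ℝ :=
  sv K t ^ ((j : ℝ) / ((j + 1 : ℕ) : ℝ))

/-- The integral of `gfun` over the heights of the body. -/
noncomputable def sliceInt (K : Set (EuclideanSpace ℝ (Fin (j + 1 + 1)))) : ℝ :=
  ∫ t in (sLo K)..(sHi K), gfun K t

/-- The body whose support is bounded by the slice projections at heights in `Ioc a b`. -/
def partBody (K : Set (EuclideanSpace ℝ (Fin (j + 1 + 1)))) (a b : ℝ) :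
    Set (EuclideanSpace ℝ (Fin (j + 1))) :=
  {y | ∀ w : EuclideanSpace ℝ (Fin (j + 1)), ‖w‖ = 1 →
    ENNReal.ofReal ⟪w, y⟫ ≤ ∫⁻ t in Ioc a b, projVolume (slice K t) w}

/-- The body whose support is bounded by the projection volumes of `K` along `(0, w)`. -/
def flatBody (K : Set (EuclideanSpace ℝ (Fin (j + 1 + 1)))) :
    Set (EuclideanSpace ℝ (Fin (j + 1))) :=
  {y | ∀ w : EuclideanSpace ℝ (Fin (j + 1)), ‖w‖ = 1 →
    ENNReal.ofReal ⟪w, y⟫ ≤ projVolume K (econs 0 w)}

variable {K : Set (EuclideanSpace ℝ (Fin (j + 1 + 1)))}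

lemma measurableSet_partBody (a b : ℝ) : MeasurableSet (partBody K a b) := by
  refine IsClosed.measurableSet ?_
  rw [partBody, Set.ofPred_forall]
  refine isClosed_iInter fun w => ?_
  by_cases hw : ‖w‖ = 1
  · simp only [hw, true_implies]
    exact isClosed_le (ENNReal.continuous_ofReal.comp (by fun_prop)) continuous_const
  · simp [hw]

lemma gexp_nonneg : (0 : ℝ) ≤ (j : ℝ) / ((j + 1 : ℕ) : ℝ) := by positivity

lemma gfun_nonneg (t : ℝ) : 0 ≤ gfun K t := Real.rpow_nonneg (sv_nonneg t) _

lemma gfun_pow (t : ℝ) : gfun K t ^ (j + 1) = sv K t ^ j := by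
  rw [gfun, ← Real.rpow_natCast (sv K t ^ _) (j + 1), ← Real.rpow_mul (sv_nonneg t),
    div_mul_cancel₀ _ (by positivity), Real.rpow_natCast]

lemma intervalIntegrable_gfun (hK : IsCompact K) (a b : ℝ) :
    IntervalIntegrable (gfun K) volume a b := by
  rw [intervalIntegrable_iff]
  refine Measure.integrableOn_of_bounded measure_Ioc_lt_top.ne
    ((measurable_sv hK).pow_const _).aestronglyMeasurable
    (M := (volume (etail (j + 1) '' K)).toReal ^ ((j : ℝ) / ((j + 1 : ℕ) : ℝ)))
    (Eventually.of_forall fun t => ?_)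
  rw [Real.norm_of_nonneg (gfun_nonneg t)]
  exact Real.rpow_le_rpow (sv_nonneg t) (sv_le hK t) gexp_nonneg

lemma continuousOn_gfun (hK : IsCompact K) (hc : Convex ℝ K) (hne : K.Nonempty) :
    ContinuousOn (gfun K) (Ioo (sLo K) (sHi K)) :=
  (continuousOn_sv hK hc hne).rpow_const fun _ _ => Or.inr gexp_nonneg

lemma partBody_subset (hK : IsCompact K) (a b : ℝ) : partBody K a b ⊆ flatBody K := by
  intro y hy w hw
  rw [projVolume_eq_lintegral hK w]
  exact (hy w hw).trans (setLIntegral_le_lintegral _ _)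

lemma partBody_base (hK : IsCompact K) (hc : Convex ℝ K) (hi : (interior K).Nonempty)
    {c : ℝ} (hc0 : 0 ≤ c) (hQ : LowerBound (j + 1) c) {η ε m0 a b : ℝ} (hη : 0 < η)
    (hm0 : 0 < m0) (hδ : ε / m0 ≤ η) (ha : sLo K + η ≤ a) (hab : a ≤ b) (hb : b ≤ sHi K - η)
    (hg : ∀ t ∈ Icc a b, m0 ≤ gfun K t) (hI : ∫ t in a..b, gfun K t ≤ ε) :
    ENNReal.ofReal ((1 - ε / m0 / η) ^ (j * (j + 1)) * c * (∫ t in a..b, gfun K t) ^ (j + 1))
      ≤ volume (partBody K a b) := by
  have hne : K.Nonempty := hi.mono interior_subset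
  have hsub : Icc a b ⊆ Ioo (sLo K) (sHi K) := fun t ht =>
    ⟨by linarith [ht.1], by linarith [ht.2]⟩
  set I := ∫ t in a..b, gfun K t with hIdef
  obtain ⟨t, ht, htmax⟩ := isCompact_Icc.exists_isMaxOn (nonempty_Icc.2 hab)
    ((continuousOn_gfun hK hc hne).mono hsub)
  have hI0 : 0 ≤ I := intervalIntegral.integral_nonneg hab fun s _ => gfun_nonneg s
  have hIle : I ≤ (b - a) * gfun K t := by
    have := intervalIntegral.integral_mono_on hab (intervalIntegrable_gfun hK a b)
      intervalIntegrable_const (fun s hs => htmax hs)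
    simpa using this
  have hlen : b - a ≤ ε / m0 := by
    have := intervalIntegral.integral_mono_on hab intervalIntegrable_const
      (intervalIntegrable_gfun hK a b) hg
    simp only [intervalIntegral.integral_const, smul_eq_mul] at this
    rw [le_div_iff₀ hm0]
    linarith
  set θ := 1 - ε / m0 / η with hθ
  have hθ0 : 0 ≤ θ := by rw [hθ, sub_nonneg, div_le_one hη]; exact hδ
  set r := θ ^ j * (b - a) with hr
  have hr0 : 0 ≤ r := mul_nonneg (pow_nonneg hθ0 _) (by linarith)
  have hsubset : r • projBody (slice K t) ⊆ partBody K a b := by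
    rintro _ ⟨y, hy, rfl⟩ w hw
    rw [real_inner_smul_right, ENNReal.ofReal_mul hr0, hr, ENNReal.ofReal_mul (pow_nonneg hθ0 _)]
    refine (mul_le_mul_right (hy w hw) _).trans ?_
    rw [mul_right_comm, ← Real.volume_Ioc, ← setLIntegral_const]
    refine setLIntegral_mono' measurableSet_Ioc fun s hs => ?_
    obtain ⟨q, v, hq, -, hq2, hqs⟩ := slice_scale hK hc hne (Ioo_subset_Icc_self (hsub ht)) hη
      (s := s) (by linarith [hs.1]) (by linarith [hs.2])
    have hθq : θ ≤ q := by
      refine le_trans ?_ hq2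
      have h1 : |s - t| ≤ ε / m0 := by
        rw [abs_le]; constructor <;> linarith [hs.1, hs.2, ht.1, ht.2]
      have := div_le_div_of_nonneg_right h1 hη.le
      rw [hθ]; linarith
    calc ENNReal.ofReal (θ ^ j) * projVolume (slice K t) w
        ≤ ENNReal.ofReal (q ^ j) * projVolume (slice K t) w :=
          mul_le_mul_left (ENNReal.ofReal_le_ofReal (pow_le_pow_left₀ hθ0 hθq j)) _
      _ = projVolume ((fun y => q • y + v) '' slice K t) w :=
          (projVolume_scale (isCompact_slice hK t) hq.le v hw).symm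
      _ ≤ projVolume (slice K s) w := measure_mono (by
          rintro z ⟨x, hx, p, hp, rfl⟩; exact ⟨x, hqs hx, p, hp, rfl⟩)
  refine le_trans ?_ (measure_mono hsubset)
  rw [Measure.addHaar_smul_of_nonneg _ hr0, finrank_euclideanSpace_fin]
  refine le_trans ?_ (mul_le_mul_right (hQ _ (isCompact_slice hK t) (convex_slice hc t)
    (interior_slice_nonempty hK hc hi (hsub ht))) _)
  rw [← ENNReal.ofReal_mul (by positivity)]
  refine ENNReal.ofReal_le_ofReal ?_
  have h := pow_le_pow_left₀ hI0 hIle (j + 1)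
  rw [mul_pow, gfun_pow] at h
  calc θ ^ (j * (j + 1)) * c * I ^ (j + 1)
      ≤ θ ^ (j * (j + 1)) * c * ((b - a) ^ (j + 1) * sv K t ^ j) :=
        mul_le_mul_of_nonneg_left h (mul_nonneg (pow_nonneg hθ0 _) hc0)
    _ = r ^ (j + 1) * (c * (volume (slice K t)).toReal ^ (j + 1 - 1)) := by
        rw [hr, mul_pow, ← pow_mul, Nat.add_sub_cancel]; simp only [sv]; ring

lemma partBody_ge (hK : IsCompact K) (hc : Convex ℝ K) (hi : (interior K).Nonempty)
    {c : ℝ} (hc0 : 0 ≤ c) (hQ : LowerBound (j + 1) c) {η ε m0 : ℝ} (hη : 0 < η)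
    (hm0 : 0 < m0) (hδ : ε / m0 ≤ η)
    (hg : ∀ t ∈ Icc (sLo K + η) (sHi K - η), m0 ≤ gfun K t) (p : ℕ) :
    ∀ a b : ℝ, sLo K + η ≤ a → a ≤ b → b ≤ sHi K - η →
      ∫ t in a..b, gfun K t ≤ 2 ^ p * ε →
      ENNReal.ofReal ((1 - ε / m0 / η) ^ (j * (j + 1)) * c * (∫ t in a..b, gfun K t) ^ (j + 1))
        ≤ volume (partBody K a b) := by
  induction p with
  | zero =>
    intro a b ha hab hb hI
    rw [pow_zero, one_mul] at hI
    exact partBody_base hK hc hi hc0 hQ hη hm0 hδ ha hab hb
      (fun t ht => hg t ⟨ha.trans ht.1, ht.2.trans hb⟩) hI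
  | succ p ih =>
    intro a b ha hab hb hI
    set I := ∫ t in a..b, gfun K t with hIdef
    have hI0 : 0 ≤ I := intervalIntegral.integral_nonneg hab fun s _ => gfun_nonneg s
    obtain ⟨m, hm, hmI⟩ : ∃ m ∈ Icc a b, ∫ t in a..m, gfun K t = I / 2 := by
      have := intermediate_value_Icc hab
        (intervalIntegral.continuous_primitive (intervalIntegrable_gfun hK) a).continuousOn
      exact this ⟨by simp; linarith, by rw [← hIdef]; linarith⟩
    have hmb : ∫ t in m..b, gfun K t = I / 2 := by
      have := intervalIntegral.integral_add_adjacent_intervals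
        (intervalIntegrable_gfun hK a m) (intervalIntegrable_gfun hK m b)
      linarith
    have hhalf : I / 2 ≤ 2 ^ p * ε := by
      rw [pow_succ] at hI; linarith
    have hA := ih a m ha hm.1 (hm.2.trans hb) (hmI.trans_le hhalf)
    have hB := ih m b (ha.trans hm.1) hm.2 hb (hmb.trans_le hhalf)
    rw [hmI] at hA
    rw [hmb] at hB
    set X := (1 - ε / m0 / η) ^ (j * (j + 1)) * c * (I / 2) ^ (j + 1) with hX
    set C := {z : EuclideanSpace ℝ (Fin (j + 1)) | (2 : ℝ) • z ∈ partBody K a b} with hC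
    have hmid := midpoint_volume (measurableSet_partBody a m) (measurableSet_partBody m b)
      (C := C) ((measurable_const_smul (2 : ℝ)) (measurableSet_partBody a b)) (fun x hx y hy w hw => by
        rw [smul_smul, show (2 : ℝ) * (1 / 2) = 1 by norm_num, one_smul, inner_add_right,
          ← Ioc_union_Ioc_eq_Ioc hm.1 hm.2,
          lintegral_union measurableSet_Ioc (Ioc_disjoint_Ioc_of_le le_rfl)]
        exact ENNReal.ofReal_add_le.trans (add_le_add (hx w hw) (hy w hw)))
    have hsq : ENNReal.ofReal X ^ 2 ≤ volume C ^ 2 := by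
      refine le_trans ?_ hmid
      rw [sq]
      exact mul_le_mul' hA hB
    have hXC := (ENNReal.pow_right_strictMono two_ne_zero).le_iff_le.1 hsq
    rw [show C = (fun z => (2 : ℝ) • z) ⁻¹' partBody K a b from rfl,
      Measure.addHaar_preimage_smul _ two_ne_zero, finrank_euclideanSpace_fin] at hXC
    calc ENNReal.ofReal ((1 - ε / m0 / η) ^ (j * (j + 1)) * c * I ^ (j + 1))
        = ENNReal.ofReal (2 ^ (j + 1)) * ENNReal.ofReal X := by
          rw [← ENNReal.ofReal_mul (by positivity), hX, div_pow]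
          congr 1
          field_simp
      _ ≤ ENNReal.ofReal (2 ^ (j + 1)) *
          (ENNReal.ofReal |((2 : ℝ) ^ (j + 1))⁻¹| * volume (partBody K a b)) :=
          mul_le_mul_right hXC _
      _ = volume (partBody K a b) := by
          rw [← mul_assoc, ← ENNReal.ofReal_mul (by positivity),
            abs_of_pos (by positivity : (0 : ℝ) < ((2 : ℝ) ^ (j + 1))⁻¹),
            mul_inv_cancel₀ (by positivity), ENNReal.ofReal_one, one_mul]

theorem flatBody_ge (hK : IsCompact K) (hc : Convex ℝ K) (hi : (interior K).Nonempty)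
    {c : ℝ} (hc0 : 0 ≤ c) (hQ : LowerBound (j + 1) c) :
    ENNReal.ofReal (c * sliceInt K ^ (j + 1)) ≤ volume (flatBody K) := by
  obtain ⟨x, hx⟩ := hi
  have hi : (interior K).Nonempty := ⟨x, hx⟩
  have hlh : sLo K < sHi K := (height_interior hK hx).1.trans (height_interior hK hx).2
  have hne : K.Nonempty := hi.mono interior_subset
  have key : ∀ η : ℝ, 0 < η → η < (sHi K - sLo K) / 2 → ENNReal.ofReal
      (c * (∫ t in (sLo K + η)..(sHi K - η), gfun K t) ^ (j + 1)) ≤ volume (flatBody K) := by
    intro η hη hη2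
    have hab : sLo K + η ≤ sHi K - η := by linarith
    have hsub : Icc (sLo K + η) (sHi K - η) ⊆ Ioo (sLo K) (sHi K) := fun t ht =>
      ⟨by linarith [ht.1], by linarith [ht.2]⟩
    obtain ⟨t, ht, htmin⟩ := isCompact_Icc.exists_isMinOn (nonempty_Icc.2 hab)
      ((continuousOn_gfun hK hc hne).mono hsub)
    have hm0 : 0 < gfun K t := Real.rpow_pos_of_pos (sv_pos hK hc hi (hsub ht)) _
    set I := ∫ t in (sLo K + η)..(sHi K - η), gfun K t with hIdef
    have hd : Tendsto (fun p : ℕ => I / 2 ^ p / gfun K t) atTop (𝓝 0) := by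
      have := ((tendsto_pow_atTop_nhds_zero_of_lt_one (by norm_num : (0 : ℝ) ≤ 1 / 2)
        (by norm_num)).const_mul (I / gfun K t))
      rw [mul_zero] at this
      refine this.congr fun p => ?_
      rw [div_pow, one_pow]
      ring
    have hlim : Tendsto (fun p : ℕ => ENNReal.ofReal
        ((1 - I / 2 ^ p / gfun K t / η) ^ (j * (j + 1)) * c * I ^ (j + 1))) atTop
        (𝓝 (ENNReal.ofReal (c * I ^ (j + 1)))) := by
      refine ENNReal.tendsto_ofReal ?_
      have h := (((hd.div_const η).const_sub 1).pow (j * (j + 1))).mul_const c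
        |>.mul_const (I ^ (j + 1))
      simpa using h
    refine le_of_tendsto hlim ?_
    filter_upwards [hd.eventually (eventually_le_nhds hη)] with p hp
    exact (partBody_ge hK hc hi hc0 hQ hη hm0 hp (fun s hs => htmin hs) p _ _ le_rfl hab le_rfl
      (le_of_eq (by rw [← hIdef]; field_simp))).trans (measure_mono (partBody_subset hK _ _))
  have hcont : Continuous fun η : ℝ => ∫ t in (sLo K + η)..(sHi K - η), gfun K t := by
    have hP := intervalIntegral.continuous_primitive (intervalIntegrable_gfun hK) (sLo K)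
    have he : (fun η : ℝ => ∫ t in (sLo K + η)..(sHi K - η), gfun K t) = fun η =>
        (∫ t in (sLo K)..(sHi K - η), gfun K t) - ∫ t in (sLo K)..(sLo K + η), gfun K t := by
      funext η
      rw [intervalIntegral.integral_interval_sub_left (intervalIntegrable_gfun hK _ _)
        (intervalIntegrable_gfun hK _ _)]
    rw [he]
    exact (hP.comp (continuous_const.sub continuous_id)).sub
      (hP.comp (continuous_const.add continuous_id))
  have hlim := (ENNReal.continuous_ofReal.comp (continuous_const (y := c) |>.mul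
    (hcont.pow (j + 1)))).tendsto 0
  simp only [Function.comp_apply, Pi.mul_apply, Pi.pow_apply, add_zero, sub_zero] at hlim
  refine le_of_tendsto (hlim.mono_left (nhdsWithin_le_nhds (s := Ioi 0))) ?_
  filter_upwards [self_mem_nhdsWithin,
    nhdsWithin_le_nhds (eventually_lt_nhds (by linarith : (0 : ℝ) < (sHi K - sLo K) / 2))]
    with η hη hη2
  exact key η hη hη2

end Vale.Agent.P237U
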