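import Vale.Agent.P237U.Main
import Vale.Agent.P237U.Mid

/-!
# From symmetric bodies to all bodies by one projection step
-/

namespace Vale.Agent.P237U

open MeasureTheory Set Metric Filter Topology Vale.Agent.P237 Vale.Agent.P237R
open scoped RealInnerProductSpace ENNReal Pointwise

variable {j N : ℕ}

/-- The inequality with constant `c` for origin symmetric bodies. -/
def SymBound (m : ℕ) (c : ℝ) : Prop :=
  ∀ F : Set (EuclideanSpace ℝ (Fin m)), IsCompact F → Convex ℝ F → (interior F).Nonempty →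
    (∀ x ∈ F, -x ∈ F) → ENNReal.ofReal (c * (volume F).toReal ^ (m - 1)) ≤ volume (projBody F)

lemma det_adjoint_eq {m : ℕ} (f : EuclideanSpace ℝ (Fin m) →ₗ[ℝ] EuclideanSpace ℝ (Fin m)) :
    LinearMap.det (LinearMap.adjoint f) = LinearMap.det f := by
  let b := EuclideanSpace.basisFun (Fin m) ℝ
  rw [← LinearMap.det_toMatrix b.toBasis, LinearMap.toMatrix_adjoint b b, Matrix.det_conjTranspose,
    LinearMap.det_toMatrix]
  simp

lemma neg_mem_projBody {m : ℕ} {K : Set (EuclideanSpace ℝ (Fin (m + 1)))} (hK : IsCompact K)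
    {y : EuclideanSpace ℝ (Fin (m + 1))} (hy : y ∈ projBody K) : -y ∈ projBody K := by
  intro u hu
  obtain ⟨R, hR⟩ := exists_align u
  rw [hu, one_smul] at hR
  set R' := (LinearIsometryEquiv.neg ℝ).trans R with hR'
  have hR'' : R' (-u) = e0 m := by simp [hR', hR]
  have hnu : ‖-u‖ = 1 := by rwa [norm_neg]
  have h := hy (-u) hnu
  rw [inner_neg_left, ← inner_neg_right, projVolume_eq hnu R' hR'' hK] at h
  rw [projVolume_eq hu R hR hK]
  refine h.trans (le_of_eq ?_)
  have e : etail m '' (R' '' K) = -(etail m '' (R '' K)) := by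
    rw [← Set.image_neg_eq_neg, Set.image_image, Set.image_image, Set.image_image]
    refine Set.image_congr fun x _ => ?_
    simp [hR']
  rw [e, Measure.measure_neg]

lemma neg_mem_zono {m : ℕ} (w : Fin N → EuclideanSpace ℝ (Fin m)) {x : EuclideanSpace ℝ (Fin m)}
    (hx : x ∈ zono w) : -x ∈ zono w := by
  obtain ⟨s, hs, rfl⟩ := hx
  refine ⟨fun i => -s i, fun i _ => ?_, by simp [Finset.sum_neg_distrib]⟩
  have := hs i trivial
  exact ⟨by linarith [this.2], by linarith [this.1]⟩

lemma zero_mem_interior {m : ℕ} {F : Set (EuclideanSpace ℝ (Fin m))} (hc : Convex ℝ F)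
    (hi : (interior F).Nonempty) (hs : ∀ x ∈ F, -x ∈ F) : (0 : _) ∈ interior F := by
  obtain ⟨x, hx⟩ := hi
  have h := hc.combo_interior_self_mem_interior hx (hs x (interior_subset hx))
    (by norm_num : (0 : ℝ) < 1 / 2) (by norm_num : (0 : ℝ) ≤ 1 / 2) (by norm_num)
  simpa using h

lemma interior_nonempty_of_volume_pos {m : ℕ} {F : Set (EuclideanSpace ℝ (Fin m))}
    (hc : Convex ℝ F) (hv : 0 < (volume F).toReal) : (interior F).Nonempty := by
  by_contra h
  rw [not_nonempty_iff_eq_empty] at h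
  have : volume F = 0 := measure_mono_null
    (fun x hx => ⟨subset_closure hx, by simp [h]⟩ : F ⊆ frontier F) (hc.addHaar_frontier volume)
  simp [this] at hv

lemma interior_zono_gens [NeZero N] (u : Fin N → EuclideanSpace ℝ (Fin (j + 1 + 1))) (b : Fin N → ℝ)
    (hb : ∀ i, 0 < b i) (hK : IsCompact (polyH u b)) :
    (interior (zono (gens u b))).Nonempty := by
  let L : (Fin N → ℝ) →ₗ[ℝ] EuclideanSpace ℝ (Fin (j + 1 + 1)) :=
    Fintype.linearCombination ℝ (gens u b)
  have hL : Function.Surjective L := by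
    rw [← LinearMap.range_eq_top, ← Submodule.orthogonal_eq_bot_iff, Submodule.eq_bot_iff]
    intro x hx
    by_contra hne
    obtain ⟨i, hi⟩ := span_of_compact u b hb hK x hne
    have h := Submodule.inner_right_of_mem_orthogonal (u := gens u b i)
      (LinearMap.mem_range.2 ⟨Pi.single i 1, by simp [L]⟩) hx
    rw [gens, real_inner_smul_left] at h
    rcases mul_eq_zero.1 h with h0 | h0
    · have := hb i
      simp only [div_eq_zero_iff, mul_eq_zero] at h0
      rcases h0 with (h1 | h1) | h1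
      · exact absurd h1 (Nat.cast_ne_zero.2 (by omega))
      · exact hi (by rw [h1, zero_mul])
      · linarith [h1.resolve_left (by norm_num)]
    · exact hi (by rw [h0, mul_zero])
  have hopen : IsOpenMap L := by
    let Lc : (Fin N → ℝ) →L[ℝ] EuclideanSpace ℝ (Fin (j + 1 + 1)) := LinearMap.toContinuousLinearMap L
    exact Lc.isOpenMap hL
  refine Set.Nonempty.mono (interior_maximal ?_ (hopen _ (isOpen_set_pi Set.finite_univ
    fun _ _ => isOpen_Ioo (a := (-1 : ℝ)) (b := 1)))) ⟨L 0, 0, fun i _ => by norm_num, rfl⟩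
  rintro _ ⟨s, hs, rfl⟩
  exact ⟨s, fun i _ => Ioo_subset_Icc_self (hs i trivial), by simp [L, Fintype.linearCombination_apply]⟩

/-- The supporting numbers of the second projection body in the directions of the facets. -/
lemma step_bound [NeZero N] (u : Fin N → EuclideanSpace ℝ (Fin (j + 1 + 1))) (b : Fin N → ℝ)
    (hb : ∀ i, 0 < b i) (hK : IsCompact (polyH u b)) :
    ∃ c : Fin N → ℝ, (∀ i, 0 ≤ c i) ∧
      (∀ y ∈ projBody (zono (gens u b)), ∀ i, ⟪u i, y⟫ ≤ c i) ∧
      ∑ i, coneVol u b i * (c i / b i) ≤ (volume (zono (gens u b))).toReal := by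
  obtain ⟨v, R, hv1, hRv, huv⟩ := exists_frame u
  refine ⟨fun i => ‖u i‖ * (volume (etail (j + 1) '' (R i '' zono (gens u b)))).toReal,
    fun i => mul_nonneg (norm_nonneg _) ENNReal.toReal_nonneg, fun y hy i => ?_, ?_⟩
  · conv_lhs => rw [huv i, real_inner_smul_left]
    refine mul_le_mul_of_nonneg_left ?_ (norm_nonneg _)
    rw [← projVolume_eq (hv1 i) (R i) (hRv i) (isCompact_zono _)]
    exact inner_le_of_mem_projBody (isCompact_zono _) hy (hv1 i)
  · have hV0 : ∀ i, 0 ≤ coneVol u b i := fun i => ENNReal.toReal_nonneg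
    have h := zono_volume_ge_proj (gens u b) R (fun i => by
      rw [gens, map_smul, norm_smul, Real.norm_of_nonneg (by have := hV0 i; have := hb i; positivity),
        mul_smul]
      congr 1
      conv_lhs => rw [huv i, map_smul, hRv])
    refine le_of_mul_le_mul_left (le_trans (le_of_eq ?_) h)
      (by positivity : (0 : ℝ) < ((j + 1 + 1 : ℕ) : ℝ))
    rw [Finset.mul_sum]
    refine Finset.sum_congr rfl fun i _ => ?_
    rw [gens, norm_smul, Real.norm_of_nonneg (by have := hV0 i; have := hb i; positivity)]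
    have := (hb i).ne'
    field_simp

/-- Transfer of the symmetric bound through one projection step. -/
lemma zono_ge_of_sym [NeZero N] {c : ℝ} (hc0 : 0 ≤ c) (hS : SymBound (j + 1 + 1) c)
    (u : Fin N → EuclideanSpace ℝ (Fin (j + 1 + 1))) (b : Fin N → ℝ)
    (hb : ∀ i, 0 < b i) (hK : IsCompact (polyH u b)) :
    c * (volume (polyH u b)).toReal ^ (j + 1) ≤ (volume (zono (gens u b))).toReal := by
  set Z := zono (gens u b) with hZ
  set V := (volume (polyH u b)).toReal with hV
  set W := (volume Z).toReal with hW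
  have hVp : 0 < V := volume_toReal_pos u b hb hK
  have hZi := interior_zono_gens u b hb hK
  have hWp : 0 < W := toReal_pos_of_interior (n := j + 1) (isCompact_zono _) hZi
  obtain ⟨cs, hcs, hle, hsum⟩ := step_bound u b hb hK
  have h1 := minkowski_pow u b hb hK hVp (projBody Z) cs hle
  have h2 := hS Z (isCompact_zono _) (convex_zono _) hZi (fun x hx => neg_mem_zono _ hx)
  rw [Nat.add_sub_cancel] at h2
  have hX0 : 0 ≤ ∑ i, coneVol u b i * (cs i / b i) := Finset.sum_nonneg fun i _ =>
    mul_nonneg ENNReal.toReal_nonneg (div_nonneg (hcs i) (hb i).le)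
  have h3 := (mul_le_mul_right h2 (ENNReal.ofReal (V ^ (j + 1)))).trans h1
  rw [← ENNReal.ofReal_mul (by positivity), ENNReal.ofReal_le_ofReal_iff (by positivity)] at h3
  have h4 := h3.trans (pow_le_pow_left₀ hX0 hsum _)
  rw [← hW, pow_succ W (j + 1)] at h4
  refine le_of_mul_le_mul_right (le_trans (le_of_eq ?_) (h4.trans (le_of_eq (mul_comm _ _))))
    (pow_pos hWp (j + 1))
  ring

lemma lowerBound_of_symBound {c : ℝ} (hc0 : 0 ≤ c) (hS : SymBound (j + 1 + 1) c) :
    LowerBound (j + 1 + 1) c :=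
  lowerBound_of_poly (fun N _ u b hb hK => (ENNReal.ofReal_le_ofReal
    (zono_ge_of_sym hc0 hS u b hb hK)).trans (by
      rw [ENNReal.ofReal_toReal (isCompact_zono _).measure_lt_top.ne]
      exact measure_mono (zono_subset_projBody u b hb hK))) hc0

/-- A symmetric polytope whose zonotope is small. -/
lemma exists_sym_poly {c : ℝ} (hc0 : 0 ≤ c) {F : Set (EuclideanSpace ℝ (Fin (j + 1 + 1)))}
    (hF : IsCompact F) (hFc : Convex ℝ F) (hFi : (interior F).Nonempty) (hFs : ∀ x ∈ F, -x ∈ F)
    (hlt : volume (projBody F) < ENNReal.ofReal (c * (volume F).toReal ^ (j + 1))) :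
    ∃ (N : ℕ) (_ : NeZero N) (u : Fin N → EuclideanSpace ℝ (Fin (j + 1 + 1))) (b : Fin N → ℝ),
      (∀ i, 0 < b i) ∧ IsCompact (polyH u b) ∧ (∀ x ∈ polyH u b, -x ∈ polyH u b) ∧
      (volume (zono (gens u b))).toReal < c * (volume (polyH u b)).toReal ^ (j + 1) := by
  set V := (volume F).toReal with hV
  have hcont : Continuous fun l : ℝ => ENNReal.ofReal (c * (l ^ (j + 1 + 1) * V) ^ (j + 1)) :=
    ENNReal.continuous_ofReal.comp (by fun_prop)
  have hl : ∀ᶠ l in 𝓝[<] (1 : ℝ),
      volume (projBody F) < ENNReal.ofReal (c * (l ^ (j + 1 + 1) * V) ^ (j + 1)) := by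
    refine nhdsWithin_le_nhds ?_
    refine hcont.continuousAt.eventually (eventually_gt_nhds ?_)
    simpa using hlt
  obtain ⟨l, hlv, hl1, hl0⟩ := (hl.and (Filter.Eventually.and self_mem_nhdsWithin
    (nhdsWithin_le_nhds (eventually_ge_nhds zero_lt_one)))).exists
  have hl1 : l < 1 := hl1
  obtain ⟨M, hM, u, b, hb, -, hlow, hsub⟩ :=
    exists_polyH hF hFc (zero_mem_interior hFc hFi hFs) hl0 hl1
  set u' := Fin.append u (-u) with hu'
  set b' := Fin.append b b with hb'
  have hmem : ∀ x, x ∈ polyH u' b' ↔ x ∈ polyH u b ∧ -x ∈ polyH u b := fun x => by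
    simp only [polyH, Set.mem_ofPred_eq]
    rw [Fin.forall_fin_add]
    simp only [hu', hb', Fin.append_left, Fin.append_right, Pi.neg_apply, inner_neg_left,
      inner_neg_right]
  have hbp : ∀ i, 0 < b' i := fun i => by
    refine Fin.addCases (fun i => ?_) (fun i => ?_) i
    · rw [hb', Fin.append_left]; exact hb i
    · rw [hb', Fin.append_right]; exact hb i
  have hc' : IsCompact (polyH u' b') :=
    hF.of_isClosed_subset (isClosed_polyH _ _) fun x hx => hsub ((hmem x).1 hx).1
  have hNZ : NeZero (M + M) := ⟨by have := hM.ne; omega⟩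
  refine ⟨M + M, hNZ, u', b', hbp, hc', fun x hx => ?_, ?_⟩
  · rw [hmem] at hx ⊢
    exact ⟨hx.2, by rw [neg_neg]; exact hx.1⟩
  · have hsubl : l • F ⊆ polyH u' b' := fun x hx => (hmem x).2 ⟨hlow hx, hlow (by
      obtain ⟨y, hy, rfl⟩ := hx
      exact ⟨-y, hFs y hy, smul_neg _ _⟩)⟩
    have hV' := ENNReal.toReal_mono hc'.measure_lt_top.ne (measure_mono hsubl (μ := volume))
    rw [Measure.addHaar_smul_of_nonneg _ hl0, finrank_euclideanSpace_fin, ENNReal.toReal_mul,
      ENNReal.toReal_ofReal (by positivity), ← hV] at hV'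
    have hz : volume (zono (gens u' b')) ≤ volume (projBody F) :=
      (measure_mono (zono_subset_projBody u' b' hbp hc')).trans
        (measure_mono (projBody_mono fun x hx => hsub ((hmem x).1 hx).1))
    have h := (ENNReal.lt_ofReal_iff_toReal_lt (isCompact_zono _).measure_lt_top.ne).1
      (hz.trans_lt hlv)
    exact h.trans_le (mul_le_mul_of_nonneg_left (pow_le_pow_left₀
      (by have : 0 ≤ V := ENNReal.toReal_nonneg; positivity) hV' _) hc0)

/-- The second projection body is wide in a direction where the zonotope has a large shadow. -/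
lemma shadow_le_sHi_projBody {Z : Set (EuclideanSpace ℝ (Fin (j + 1 + 1)))} (hZ : IsCompact Z)
    (hc : Convex ℝ Z) (hi : (interior Z).Nonempty) (hs : ∀ x ∈ Z, -x ∈ Z) :
    (volume (etail (j + 1) '' Z)).toReal ≤ sHi (projBody Z) := by
  have h0 := zero_mem_interior hc hi hs
  have he : ‖e0 (j + 1)‖ = 1 := by simp [e0]
  have hproj : ∀ S : Set (EuclideanSpace ℝ (Fin (j + 1 + 1))), IsCompact S →
      projVolume S (e0 (j + 1)) = volume (etail (j + 1) '' S) := fun S hS => by
    rw [projVolume_eq he (LinearIsometryEquiv.refl ℝ _) rfl hS]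
    simp
  set P := (volume (etail (j + 1) '' Z)).toReal with hP
  have hP0 : 0 ≤ P := ENNReal.toReal_nonneg
  have hlim : Tendsto (fun l : ℝ => l ^ (j + 1) * P) (𝓝[<] 1) (𝓝 P) := by
    have h := ((continuous_pow (j + 1)).mul_const P).tendsto (1 : ℝ)
    simp only [one_pow, one_mul] at h
    exact h.mono_left nhdsWithin_le_nhds
  refine le_of_tendsto hlim ?_
  filter_upwards [self_mem_nhdsWithin, nhdsWithin_le_nhds (eventually_ge_nhds zero_lt_one)]
    with l hl1 hl0
  obtain ⟨M, hM, u, b, hb, hPc, hlow, hsub⟩ := exists_polyH hZ hc h0 hl0 hl1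
  set sg : Fin M → ℝ := fun i => if 0 ≤ ⟪u i, e0 (j + 1)⟫ then 1 else -1 with hsg
  set y := ∑ i, sg i • gens u b i with hy
  have hmem : y ∈ projBody Z := projBody_mono hsub (zono_subset_projBody u b hb hPc
    ⟨sg, fun i _ => by simp only [hsg]; split_ifs <;> simp, rfl⟩)
  refine le_trans ?_ (height_mem (isCompact_projBody hZ) hmem).2
  have hcoord : ⟪e0 (j + 1), y⟫ = y 0 := by simp [e0, EuclideanSpace.inner_single_left]
  rw [← hcoord, hy, inner_sum]
  have h1 := projVolume_le_sum u b hb hPc (e0 (j + 1)) he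
  rw [hproj _ hPc] at h1
  have hnn : 0 ≤ ∑ i, ((j + 1 + 1 : ℕ) : ℝ) * coneVol u b i / (2 * b i)
      * |⟪u i, e0 (j + 1)⟫| := Finset.sum_nonneg fun i _ => by
    have := hb i
    have : 0 ≤ coneVol u b i := ENNReal.toReal_nonneg
    positivity
  have hsubl : etail (j + 1) '' (l • Z) ⊆ etail (j + 1) '' polyH u b := image_mono hlow
  rw [image_smul_set] at hsubl
  have h2 := ENNReal.toReal_mono ENNReal.ofReal_ne_top ((measure_mono hsubl).trans h1)
  rw [Measure.addHaar_smul_of_nonneg _ hl0, finrank_euclideanSpace_fin, ENNReal.toReal_mul,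
    ENNReal.toReal_ofReal (by positivity), ENNReal.toReal_ofReal hnn, ← hP] at h2
  refine h2.trans (le_of_eq (Finset.sum_congr rfl fun i _ => ?_))
  rw [gens, real_inner_smul_right, real_inner_smul_right, real_inner_comm (e0 (j + 1))]
  simp only [hsg]
  split_ifs with h
  · rw [abs_of_nonneg (by rwa [real_inner_comm])]; ring
  · rw [abs_of_neg (by rw [real_inner_comm]; linarith)]; ring

end Vale.Agent.P237U
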