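import Vale.Agent.P237U.Symmetric
import Vale.Agent.P237U.Isotropic
import Vale.Agent.P237U.SliceProfile

/-!
# Petty's inequality in dimension three
-/

namespace Vale.Agent.P237U

open MeasureTheory Set Metric Filter Topology Vale.Agent.P237 Vale.Agent.P237R
open scoped RealInnerProductSpace ENNReal Pointwise

variable {N : ℕ}

lemma transform_poly {j : ℕ} (u : Fin N → EuclideanSpace ℝ (Fin (j + 1 + 1))) (b : Fin N → ℝ)
    (hK : IsCompact (polyH u b))
    (M : EuclideanSpace ℝ (Fin (j + 1 + 1)) →ₗ[ℝ] EuclideanSpace ℝ (Fin (j + 1 + 1)))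
    (hM : |LinearMap.det M| = 1) :
    ∃ u' : Fin N → EuclideanSpace ℝ (Fin (j + 1 + 1)), polyH u' b = M ⁻¹' polyH u b ∧
      IsCompact (polyH u' b) ∧ volume (polyH u' b) = volume (polyH u b) ∧
      volume (zono (gens u' b)) = volume (zono (gens u b)) := by
  set A := LinearMap.adjoint M with hA
  have h : ∀ i x, ⟪A (u i), x⟫ = ⟪u i, M x⟫ := fun i x => LinearMap.adjoint_inner_left M x (u i)
  refine ⟨fun i => A (u i), polyH_map u _ b M h, isCompact_polyH_map u _ b M hM h hK,
    volume_polyH_map u _ b M hM h, ?_⟩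
  have e : zono (gens (fun i => A (u i)) b) = A '' zono (gens u b) := by
    rw [image_zono]
    congr 1
    funext i
    simp only [gens, map_smul]
    rw [coneVol_map u _ b M hM h i]
  rw [e, Measure.addHaar_image_linearMap, hA, det_adjoint_eq, hM, ENNReal.ofReal_one, one_mul]

/-- Every symmetric polytope has a position with equal second moments and a contact point on the
first axis. -/
lemma exists_position [NeZero N] (u : Fin N → EuclideanSpace ℝ (Fin (1 + 1 + 1))) (b : Fin N → ℝ)
    (hb : ∀ i, 0 < b i) (hK : IsCompact (polyH u b)) (hs : ∀ x ∈ polyH u b, -x ∈ polyH u b) :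
    ∃ (w : Fin N → EuclideanSpace ℝ (Fin (1 + 1 + 1))) (r c : ℝ), 0 < r ∧ IsCompact (polyH w b) ∧
      (∀ x ∈ polyH w b, -x ∈ polyH w b) ∧ closedBall 0 r ⊆ polyH w b ∧
      (∀ x ∈ polyH w b, |x 0| ≤ r) ∧ (∀ v, ∫ x in polyH w b, ⟪v, x⟫ ^ 2 = c * ‖v‖ ^ 2) ∧
      volume (polyH w b) = volume (polyH u b) ∧
      volume (zono (gens w b)) = volume (zono (gens u b)) := by
  classical
  obtain ⟨T, c, hT, hiso⟩ := exists_isotropic (n := 1 + 1 + 1) (by norm_num) hK
    (interior_polyH_nonempty u b hb)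
  have hne : LinearMap.det T ≠ 0 := fun h => by simp [h] at hT
  set Te := LinearMap.equivOfDetNeZero T hne with hTe
  have hTap : ∀ x, Te x = T x := fun x => rfl
  have hM : |LinearMap.det (Te.symm.toLinearMap)| = 1 := by
    have h := LinearEquiv.det_coe_symm Te
    rw [h, abs_inv, show LinearMap.det Te.toLinearMap = LinearMap.det T from rfl, hT, inv_one]
  obtain ⟨u1, hp1, hc1, hv1, hz1⟩ := transform_poly u b hK Te.symm.toLinearMap hM
  have himg : polyH u1 b = T '' polyH u b := by
    rw [hp1]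
    ext x
    constructor
    · exact fun hx => ⟨Te.symm x, hx, Te.apply_symm_apply x⟩
    · rintro ⟨y, hy, rfl⟩
      show Te.symm (Te y) ∈ polyH u b
      rwa [Te.symm_apply_apply]
  have hs1 : ∀ x ∈ polyH u1 b, -x ∈ polyH u1 b := by
    rw [himg]; rintro _ ⟨y, hy, rfl⟩; exact ⟨-y, hs y hy, map_neg T y⟩
  have hS : (Finset.univ.filter fun i => u1 i ≠ 0).Nonempty := by
    obtain ⟨i, hi⟩ := span_of_compact u1 b hb hc1 (EuclideanSpace.single 0 1)
      (by rw [ne_eq, PiLp.single_eq_zero_iff]; exact one_ne_zero)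
    refine ⟨i, Finset.mem_filter.2 ⟨Finset.mem_univ _, fun h => hi ?_⟩⟩
    rw [h, inner_zero_left, mul_zero]
  obtain ⟨i0, hi0, hmin⟩ := Finset.exists_min_image _ (fun i => b i / ‖u1 i‖) hS
  have hu0 : 0 < ‖u1 i0‖ := norm_pos_iff.2 (Finset.mem_filter.1 hi0).2
  set r := b i0 / ‖u1 i0‖ with hr
  have hball : closedBall 0 r ⊆ polyH u1 b := by
    intro x hx l
    rw [mem_closedBall_zero_iff] at hx
    rcases eq_or_ne (u1 l) 0 with h | h
    · rw [h, inner_zero_left]; exact (hb l).le
    · refine (real_inner_le_norm _ _).trans ?_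
      have h2 := hx.trans (hmin l (Finset.mem_filter.2 ⟨Finset.mem_univ _, h⟩))
      rw [le_div_iff₀ (norm_pos_iff.2 h)] at h2
      linarith
  obtain ⟨R, hR⟩ := exists_align (u1 i0)
  set w : Fin N → EuclideanSpace ℝ (Fin (1 + 1 + 1)) := fun l => R (u1 l) with hw
  have hwimg : polyH w b = R '' polyH u1 b := polyH_image_isometry u1 b R
  refine ⟨w, r, c, div_pos (hb i0) hu0, hwimg ▸ hc1.image R.continuous, ?_, ?_, ?_, fun v => ?_, ?_, ?_⟩
  · rw [hwimg]; rintro _ ⟨y, hy, rfl⟩; exact ⟨-y, hs1 y hy, map_neg R y⟩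
  · rw [hwimg]
    intro x hx
    refine ⟨R.symm x, hball ?_, R.apply_symm_apply x⟩
    simpa using hx
  · have key : ∀ y ∈ polyH u1 b, R y 0 ≤ r := fun y hy => by
      have h := hy i0
      rw [← R.inner_map_map, hR, real_inner_smul_left] at h
      simp only [e0, EuclideanSpace.inner_single_left, map_one, one_mul] at h
      rw [hr, le_div_iff₀ hu0]
      linarith
    rw [hwimg]
    rintro _ ⟨y, hy, rfl⟩
    refine abs_le.2 ⟨?_, key y hy⟩
    have := key (-y) (hs1 y hy)
    rw [map_neg, PiLp.neg_apply] at this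
    linarith
  · rw [hwimg]
    have h := hiso (R.symm v)
    rw [← himg, LinearIsometryEquiv.norm_map] at h
    rw [← h, R.measurePreserving.setIntegral_image_emb R.toHomeomorph.measurableEmbedding]
    refine setIntegral_congr_fun hc1.measurableSet fun y _ => ?_
    conv_lhs => rw [← R.apply_symm_apply v, R.inner_map_map]
  · rw [hwimg, volume_image_isometry, hv1]
  · rw [← hz1]
    have e : zono (gens w b) = R '' zono (gens u1 b) := by
      change _ = R.toLinearEquiv.toLinearMap '' zono (gens u1 b)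
      rw [image_zono]
      congr 1
      funext l
      simp [gens, hw, coneVol_isometry, map_smul]
    rw [e, volume_image_isometry]

/-- The value of the normalised projection volume at the ball. -/
noncomputable def petty3 : ℝ := 3 * Real.pi ^ 2 / 4

lemma lambda_facts {cs V W C η : ℝ} (hcs : 0 < cs) (hV : 0 < V) (hW : 0 < W) (hη : 0 ≤ η)
    (hCl : cs * W ^ 2 ≤ C) (hCu : V ^ 2 * C ≤ W ^ 3) (hWu : W ≤ (1 + η) * cs * V ^ 2) :
    ∃ l : ℝ, 0 < l ∧ l ^ 3 * C = V ∧ l * W ≤ (1 + η) * V ∧ V ≤ l * W := by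
  have hC : 0 < C := lt_of_lt_of_le (by positivity) hCl
  refine ⟨(V / C) ^ ((3 : ℕ) : ℝ)⁻¹, by positivity, ?_, ?_, ?_⟩
  · rw [Real.rpow_inv_natCast_pow (by positivity) three_ne_zero, div_mul_cancel₀ _ hC.ne']
  · refine (pow_le_pow_iff_left₀ (by positivity) (by positivity) three_ne_zero).1 ?_
    rw [mul_pow, Real.rpow_inv_natCast_pow (by positivity) three_ne_zero, div_mul_eq_mul_div,
      div_le_iff₀ hC, mul_pow]
    calc V * W ^ 3 = V * W ^ 2 * W := by ring
      _ ≤ V * W ^ 2 * ((1 + η) * cs * V ^ 2) := mul_le_mul_of_nonneg_left hWu (by positivity)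
      _ = (1 + η) * V ^ 3 * (cs * W ^ 2) := by ring
      _ ≤ (1 + η) ^ 3 * V ^ 3 * C := mul_le_mul (mul_le_mul_of_nonneg_right
          (le_self_pow₀ (by linarith) three_ne_zero) (by positivity)) hCl (by positivity)
          (by positivity)
  · refine (pow_le_pow_iff_left₀ hV.le (by positivity) three_ne_zero).1 ?_
    rw [mul_pow, Real.rpow_inv_natCast_pow (by positivity) three_ne_zero, div_mul_eq_mul_div,
      le_div_iff₀ hC]
    calc V ^ 3 * C = V * (V ^ 2 * C) := by ring
      _ ≤ V * W ^ 3 := mul_le_mul_of_nonneg_left hCu hV.le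

/-- A near minimiser is impossible below the value at the ball. -/
lemma near_false {cs τ G η : ℝ} (hcs : 0 < cs) (hη : 0 ≤ η)
    (hGG : (1 + η) ^ 3 < 1 + G) (hτ : τ * ((1 + η) * cs) ≤ petty3) (hS : SymBound (1 + 1 + 1) cs)
    (hmid : ∀ K L : Set (EuclideanSpace ℝ (Fin (2 + 1))), IsCompact K → Convex ℝ K →
      (interior K).Nonempty → (∀ x ∈ K, -x ∈ K) → IsCompact L → Convex ℝ L →
      (interior L).Nonempty → (∀ x ∈ L, -x ∈ L) →
      (volume L).toReal = (volume K).toReal → τ * sHi K ≤ sHi L →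
      (1 + G) * (volume K).toReal ≤ (volume (midSet K L)).toReal)
    [NeZero N] (w : Fin N → EuclideanSpace ℝ (Fin (1 + 1 + 1))) (b : Fin N → ℝ)
    (hb : ∀ i, 0 < b i) (hK : IsCompact (polyH w b)) (hs : ∀ x ∈ polyH w b, -x ∈ polyH w b)
    {r c : ℝ} (hr : 0 < r) (hball : closedBall 0 r ⊆ polyH w b)
    (hslab : ∀ x ∈ polyH w b, |x 0| ≤ r)
    (hiso : ∀ v, ∫ x in polyH w b, ⟪v, x⟫ ^ 2 = c * ‖v‖ ^ 2)
    (hW : (volume (zono (gens w b))).toReal ≤ (1 + η) * cs * (volume (polyH w b)).toReal ^ 2) :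
    False := by
  set K := polyH w b with hKdef
  set Z := zono (gens w b) with hZdef
  set V := (volume K).toReal with hVdef
  set W := (volume Z).toReal with hWdef
  have hint := interior_polyH_nonempty w b hb
  have hKc : Convex ℝ K := convex_polyH w b
  have hV : 0 < V := volume_toReal_pos w b hb hK
  have hZc : IsCompact Z := isCompact_zono _
  have hZi := interior_zono_gens w b hb hK
  have hWp : 0 < W := toReal_pos_of_interior (n := 2) hZc hZi
  have hZs : ∀ x ∈ Z, -x ∈ Z := fun x hx => neg_mem_zono _ hx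
  obtain ⟨hhi, hlo⟩ := height_eq_of_ball hK hr.le hball hslab
  set L := projBody Z with hLdef
  have hLc : IsCompact L := isCompact_projBody hZc
  set C := (volume L).toReal with hCdef
  obtain ⟨cw, hcw, hle, hsum⟩ := step_bound w b hb hK
  set X := ∑ i, coneVol w b i * (cw i / b i) with hXdef
  have hX0 : 0 ≤ X := Finset.sum_nonneg fun i _ =>
    mul_nonneg ENNReal.toReal_nonneg (div_nonneg (hcw i) (hb i).le)
  have hCl : cs * W ^ 2 ≤ C :=
    (ENNReal.ofReal_le_iff_le_toReal hLc.measure_lt_top.ne).1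
      (hS Z hZc (convex_zono _) hZi hZs)
  have hCu : V ^ 2 * C ≤ W ^ 3 := by
    have h := minkowski_pow w b hb hK hV L cw hle
    rw [← ENNReal.ofReal_toReal hLc.measure_lt_top.ne, ← ENNReal.ofReal_mul (by positivity),
      ENNReal.ofReal_le_ofReal_iff (by positivity)] at h
    exact h.trans (pow_le_pow_left₀ hX0 hsum _)
  obtain ⟨l, hl, hlC, hlW, hlV⟩ := lambda_facts hcs hV hWp hη hCl hCu hW
  have hP0 : petty3 * r * V ≤ (volume (etail (1 + 1) '' Z)).toReal := by
    refine (sliceInt_ge hK hKc hs hr hball hslab hiso).trans ?_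
    have h4 : LowerBound (1 + 1) 4 := by
      have h := lowerBound_all 0
      simpa [lowerConst] using h
    refine (ENNReal.ofReal_le_iff_le_toReal
      ((hZc.image (continuous_etail _)).measure_lt_top).ne).1 ?_
    exact (flatBody_ge hK hKc hint (by norm_num) h4).trans (measure_mono (flatBody_subset w b hb hK))
  have hwide : τ * r ≤ l * sHi L := by
    refine le_trans ?_ (mul_le_mul_of_nonneg_left
      (hP0.trans (shadow_le_sHi_projBody hZc (convex_zono _) hZi hZs)) hl.le)
    refine le_of_mul_le_mul_right ?_ hWp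
    calc τ * r * W ≤ τ * r * ((1 + η) * cs * V ^ 2) := by
          rcases le_or_gt 0 τ with hτ0 | hτ0
          · exact mul_le_mul_of_nonneg_left hW (mul_nonneg hτ0 hr.le)
          · exfalso
            have h0 := hmid K K hK hKc hint hs hK hKc hint hs rfl (by
              rw [hhi]; nlinarith)
            have hsub : midSet K K ⊆ K := by
              rintro _ ⟨_, ⟨x, hx, y, hy, rfl⟩, rfl⟩
              have h := hKc hx hy (by norm_num : (0 : ℝ) ≤ 1 / 2) (by norm_num : (0 : ℝ) ≤ 1 / 2)
                (by norm_num)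
              simpa [smul_add] using h
            have h2 := h0.trans (ENNReal.toReal_mono hK.measure_lt_top.ne (measure_mono hsub))
            have h3 : 1 ≤ (1 + η) ^ 3 := one_le_pow₀ (by linarith)
            nlinarith
      _ = τ * ((1 + η) * cs) * (r * V ^ 2) := by ring
      _ ≤ petty3 * (r * V ^ 2) := mul_le_mul_of_nonneg_right hτ (by positivity)
      _ = petty3 * r * V * V := by ring
      _ ≤ petty3 * r * V * (l * W) := mul_le_mul_of_nonneg_left hlV
          (by have : 0 < petty3 := by unfold petty3; positivity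
              positivity)
      _ = l * (petty3 * r * V) * W := by ring
  set L' := l • L with hL'def
  have hL'c : IsCompact L' := hLc.smul l
  have hL'v : (volume L').toReal = V := by
    rw [hL'def, Measure.addHaar_smul_of_nonneg _ hl.le, finrank_euclideanSpace_fin, ENNReal.toReal_mul,
      ENNReal.toReal_ofReal (by positivity)]
    exact hlC
  have hLv : Convex ℝ L := convex_projBody hZc
  have hL'i : (interior L').Nonempty :=
    interior_nonempty_of_volume_pos (hLv.smul l) (by rw [hL'v]; exact hV)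
  have hL's : ∀ x ∈ L', -x ∈ L' := by
    rintro _ ⟨y, hy, rfl⟩
    exact ⟨-y, neg_mem_projBody hZc hy, smul_neg _ _⟩
  have hLne : L.Nonempty := by
    obtain ⟨x, hx⟩ := hL'i.mono interior_subset
    obtain ⟨y, hy, -⟩ := hx
    exact ⟨y, hy⟩
  have hwide' : τ * sHi K ≤ sHi L' := by
    obtain ⟨p, hp, hp0⟩ := exists_hi hLc hLne
    rw [hhi]
    refine hwide.trans ?_
    have h := (height_mem hL'c (smul_mem_smul_set hp : l • p ∈ L')).2
    rwa [PiLp.smul_apply, smul_eq_mul, hp0] at h
  have hgain := hmid K L' hK hKc hint hs hL'c (hLv.smul l) hL'i hL's hL'v hwide'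
  have hmle : (volume (midSet K L')).toReal ≤ (1 + η) ^ 3 * V := by
    have h := minkowski_pow w b hb hK hV (midSet K L') (fun i => (b i + l * cw i) / 2) (by
      rintro _ ⟨_, ⟨x, hx, _, ⟨y, hy, rfl⟩, rfl⟩, rfl⟩ i
      rw [real_inner_smul_right, inner_add_right, real_inner_smul_right]
      linarith [hx i, mul_le_mul_of_nonneg_left (hle y hy i) hl.le])
    have hsum2 : ∑ i, coneVol w b i * ((b i + l * cw i) / 2 / b i) = (V + l * X) / 2 := by
      rw [hXdef, hVdef, hKdef, ← sum_coneVol w b hK, Finset.mul_sum, ← Finset.sum_add_distrib,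
        Finset.sum_div]
      refine Finset.sum_congr rfl fun i _ => ?_
      have := (hb i).ne'
      field_simp
    rw [hsum2, ← ENNReal.ofReal_toReal (isCompact_midSet hK hL'c).measure_lt_top.ne,
      ← ENNReal.ofReal_mul (by positivity), ENNReal.ofReal_le_ofReal_iff (by positivity)] at h
    have h2 : (V + l * X) / 2 ≤ (1 + η) * V := by
      have := (mul_le_mul_of_nonneg_left hsum hl.le).trans hlW
      have : V ≤ (1 + η) * V := le_mul_of_one_le_left hV.le (by linarith)
      linarith
    have h3 := h.trans (pow_le_pow_left₀ (by positivity) h2 _)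
    refine le_of_mul_le_mul_left (h3.trans (le_of_eq ?_)) (pow_pos hV 2)
    ring
  have := lt_mul_of_one_lt_left hV (by linarith [one_le_pow₀ (n := 3) (by linarith : (1 : ℝ) ≤ 1 + η)] : 1 < 1 + G)
  nlinarith

theorem symBound_three : SymBound (1 + 1 + 1) petty3 := by
  by_contra hP
  have hPpos : 0 < petty3 := by unfold petty3; positivity
  set S : Set ℝ := {c | 0 ≤ c ∧ SymBound (1 + 1 + 1) c} with hSdef
  have h0 : lowerConst (1 + 1 + 1) ∈ S :=
    ⟨lowerConst_nonneg _, fun F hF hc hi _ => lowerBound_all 1 F hF hc hi⟩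
  have hbdd : ∀ c ∈ S, c < petty3 := fun c hc => by
    by_contra h
    push Not at h
    exact hP fun F hF hFc hi hs => le_trans (ENNReal.ofReal_le_ofReal
      (mul_le_mul_of_nonneg_right h (pow_nonneg ENNReal.toReal_nonneg _))) (hc.2 F hF hFc hi hs)
  have hbd : BddAbove S := ⟨petty3, fun c hc => (hbdd c hc).le⟩
  set cs := sSup S with hcsdef
  have hlc : 0 < lowerConst (1 + 1 + 1) :=
    mul_pos four_pos (Finset.prod_pos fun k hk => Real.rpow_pos_of_pos
      (unitBallVol_pos (by linarith [(Finset.mem_Icc.1 hk).1])) _)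
  have hcs0 : 0 < cs := hlc.trans_le (le_csSup hbd h0)
  have hcsS : SymBound (1 + 1 + 1) cs := by
    intro F hF hFc hi hs
    set v := (volume F).toReal ^ (1 + 1 + 1 - 1) with hv
    obtain ⟨s, hs1, hs2, hs3⟩ := exists_seq_tendsto_sSup ⟨_, h0⟩ hbd
    exact le_of_tendsto' (ENNReal.tendsto_ofReal (hs2.mul_const v)) fun k => (hs3 k).2 F hF hFc hi hs
  have hcsP : cs < petty3 := hbdd cs ⟨hcs0.le, hcsS⟩
  set τ := (1 + petty3 / cs) / 2 with hτdef
  have h1 : 1 < petty3 / cs := (one_lt_div hcs0).2 hcsP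
  have hτ : 1 < τ := by rw [hτdef]; linarith
  have hτcs : τ * cs < petty3 := by
    rw [hτdef]
    have : petty3 / cs * cs = petty3 := div_mul_cancel₀ _ hcs0.ne'
    nlinarith
  obtain ⟨G, hG, hmid⟩ := midSet_gain (n := 2) hτ
  obtain ⟨η, ⟨hGG, hητ⟩, hη⟩ : ∃ η : ℝ, ((1 + η) ^ 3 < 1 + G ∧ τ * ((1 + η) * cs) < petty3) ∧ 0 < η := by
    have t1 : Tendsto (fun η : ℝ => (1 + η) ^ 3) (𝓝[>] 0) (𝓝 1) := by
      have := (by fun_prop : Continuous fun η : ℝ => (1 + η) ^ 3).tendsto 0
      simp only [add_zero, one_pow] at this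
      exact this.mono_left nhdsWithin_le_nhds
    have t2 : Tendsto (fun η : ℝ => τ * ((1 + η) * cs)) (𝓝[>] 0) (𝓝 (τ * cs)) := by
      have := (by fun_prop : Continuous fun η : ℝ => τ * ((1 + η) * cs)).tendsto 0
      simp only [add_zero, one_mul] at this
      exact this.mono_left nhdsWithin_le_nhds
    exact (((t1.eventually (eventually_lt_nhds (by linarith))).and
      (t2.eventually (eventually_lt_nhds hτcs))).and self_mem_nhdsWithin).exists
  have hnS : ¬ SymBound (1 + 1 + 1) ((1 + η) * cs) := fun h => by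
    have := le_csSup hbd (show (1 + η) * cs ∈ S from ⟨by positivity, h⟩)
    nlinarith
  simp only [SymBound, not_forall, not_le, Nat.add_sub_cancel] at hnS
  obtain ⟨F, hF, hFc, hFi, hFs, hlt⟩ := hnS
  obtain ⟨M, hM, u, b, hb, hK, hKs, hsmall⟩ := exists_sym_poly (j := 1) (c := (1 + η) * cs)
    (by positivity) hF hFc hFi hFs hlt
  obtain ⟨w, r, c, hr, hwc, hws, hball, hslab, hiso, hv, hz⟩ := exists_position u b hb hK hKs
  exact near_false hcs0 hη.le hGG hητ.le hcsS hmid w b hb hwc hws hr hball hslab hiso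
    (by rw [hv, hz]; exact hsmall.le)

/-- Petty's inequality in dimension three. -/
theorem petty_three : LowerBound (1 + 1 + 1) petty3 :=
  lowerBound_of_symBound (by unfold petty3; positivity) symBound_three

lemma petty3_eq : petty3 = unitBallVol 2 ^ 3 * (unitBallVol 3)⁻¹ := by
  rw [petty3, ← kap_eq_unitBallVol two_pos, kap_two, unitBallVol_eq three_pos,
    show ((3 : ℕ) : ℝ) / 2 + 1 = (1 / 2 + 1) + 1 by norm_num,
    Real.Gamma_add_one (by norm_num), Real.Gamma_add_one (by norm_num), Real.Gamma_one_half_eq]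
  have := Real.sqrt_pos.2 Real.pi_pos
  field_simp
  rw [Real.sq_sqrt Real.pi_pos.le]
  ring

end Vale.Agent.P237U
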